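import Vale.Agent.P159.TM.H352.Cl

/-! # Moments of the cluster masses (row A34I, helper352) -/

open scoped ENNReal NNReal BigOperators
open Finset

set_option linter.unusedSectionVars false
set_option linter.unusedDecidableInType false

namespace Vale.Agent.P159.TM.H352

open Vale.Agent.P159.TM.H60 Vale.Agent.P159.TM.H459 Vale.Agent.P159.TM.H576

lemma pow_even_le (a b : ℝ) {m : ℕ} (hm : m ≠ 0) :
    2 * (a ^ (2 * m) + b ^ (2 * m)) ≤ (a + b) ^ (2 * m) + (-a + b) ^ (2 * m) := by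
  have h1 := add_pow_le (sq_nonneg (a + b)) (sq_nonneg (-a + b)) m
  have h2 : (a + b) ^ 2 + (-a + b) ^ 2 = 2 * (a ^ 2 + b ^ 2) := by ring
  have h3 := pow_add_pow_le (sq_nonneg a) (sq_nonneg b) hm
  rw [h2, mul_pow] at h1
  obtain ⟨k, rfl⟩ := Nat.exists_eq_succ_of_ne_zero hm
  have h4 : (2 : ℝ) ^ (k + 1) = 2 ^ k * 2 := pow_succ 2 k
  simp only [Nat.succ_eq_add_one, Nat.add_sub_cancel] at h1 ⊢
  rw [h4] at h1
  have h5 : (0 : ℝ) < 2 ^ k := by positivity
  have h6 : 2 * (a ^ 2 + b ^ 2) ^ (k + 1) ≤ ((a + b) ^ 2) ^ (k + 1) + ((-a + b) ^ 2) ^ (k + 1) := by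
    have : 2 ^ k * (2 * (a ^ 2 + b ^ 2) ^ (k + 1)) ≤
        2 ^ k * (((a + b) ^ 2) ^ (k + 1) + ((-a + b) ^ 2) ^ (k + 1)) := by linarith
    exact le_of_mul_le_mul_left this h5
  rw [pow_mul, pow_mul, pow_mul, pow_mul]
  simp only [Nat.succ_eq_add_one] at h3
  linarith

section
variable {V E S : Type*} [Fintype V] [DecidableEq V] [Fintype E] [DecidableEq E] (σ : Sys V E S)

lemma enn_flip {om : Finset E} {A : Finset V} (h : Disjoint om (bdE σ.s σ.t A))
    (F : (V → S) → ℝ≥0∞) :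
    ∑' x, ENNReal.ofReal (σ.wt om x) * F (σ.flip A x) =
      ∑' x, ENNReal.ofReal (σ.wt om x) * F x := by
  rw [← (σ.flipE A).tsum_eq (fun x => ENNReal.ofReal (σ.wt om x) * F x)]
  refine tsum_congr fun x => ?_
  show _ = ENNReal.ofReal (σ.wt om (σ.flip A x)) * F (σ.flip A x)
  rw [σ.wt_flip h]

lemma disj_of_cluss {om : Finset E} {C C' : Finset V} (hC : C ∈ cluss σ.s σ.t om)
    (hC' : C' ∈ cluss σ.s σ.t om) (hne : C ≠ C') : Disjoint C C' := by
  rw [Finset.disjoint_left]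
  intro u hu hu'
  exact hne ((eq_clus_of_mem hC hu).symm.trans (eq_clus_of_mem hC' hu'))

/-- superadditivity of the even moments over the clusters, `om` fixed -/
lemma mom_aux {om : Finset E} (β : V → ℝ) {m : ℕ} (hm : m ≠ 0) (D : Finset (Finset V))
    (hD : D ⊆ cluss σ.s σ.t om) :
    ∑ C ∈ D, ∑' x, ENNReal.ofReal (σ.wt om x) * ENNReal.ofReal ((σ.pr β C x) ^ (2 * m)) ≤
      ∑' x, ENNReal.ofReal (σ.wt om x) * ENNReal.ofReal ((∑ C ∈ D, σ.pr β C x) ^ (2 * m)) := by
  classical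
  induction D using Finset.induction_on with
  | empty => simp
  | insert C D hCD ih =>
    have hC : C ∈ cluss σ.s σ.t om := hD (Finset.mem_insert_self C D)
    have hD' : D ⊆ cluss σ.s σ.t om := fun x hx => hD (Finset.mem_insert_of_mem hx)
    have ih' := ih hD'
    rw [Finset.sum_insert hCD]
    have hbd : Disjoint om (bdE σ.s σ.t C) := by
      obtain ⟨u, _, rfl⟩ := Finset.mem_image.1 hC
      exact σ.disj_clus om u
    set F : (V → S) → ℝ≥0∞ := fun x =>
      ENNReal.ofReal ((∑ C' ∈ insert C D, σ.pr β C' x) ^ (2 * m)) with hF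
    have h1 := enn_flip σ hbd F
    have h2 : ∀ x, 2 * (ENNReal.ofReal ((σ.pr β C x) ^ (2 * m)) +
        ENNReal.ofReal ((∑ C' ∈ D, σ.pr β C' x) ^ (2 * m))) ≤ F x + F (σ.flip C x) := by
      intro x
      have e1 : ∑ C' ∈ insert C D, σ.pr β C' x = σ.pr β C x + ∑ C' ∈ D, σ.pr β C' x :=
        Finset.sum_insert hCD
      have e2 : ∑ C' ∈ insert C D, σ.pr β C' (σ.flip C x) = -σ.pr β C x + ∑ C' ∈ D, σ.pr β C' x := by
        rw [Finset.sum_insert hCD, σ.pr_flip_sub (Finset.Subset.refl C)]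
        congr 1
        refine Finset.sum_congr rfl fun C' hC' => ?_
        apply σ.pr_flip_disj
        exact (disj_of_cluss σ (hD' hC') hC (fun h => hCD (h ▸ hC')))
      simp only [hF]
      rw [e1, e2, ← ENNReal.ofReal_add (Even.pow_nonneg (even_two_mul m) _)
        (Even.pow_nonneg (even_two_mul m) _),
        ← ENNReal.ofReal_add (Even.pow_nonneg (even_two_mul m) _)
        (Even.pow_nonneg (even_two_mul m) _)]
      have : (2 : ℝ≥0∞) = ENNReal.ofReal 2 := by simp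
      rw [this, ← ENNReal.ofReal_mul (by norm_num)]
      exact ENNReal.ofReal_le_ofReal (pow_even_le _ _ hm)
    have h3 : 2 * (∑' x, ENNReal.ofReal (σ.wt om x) * ENNReal.ofReal ((σ.pr β C x) ^ (2 * m)) +
        ∑' x, ENNReal.ofReal (σ.wt om x) * ENNReal.ofReal ((∑ C' ∈ D, σ.pr β C' x) ^ (2 * m))) ≤
        2 * ∑' x, ENNReal.ofReal (σ.wt om x) * F x := by
      calc _ = ∑' x, ENNReal.ofReal (σ.wt om x) * (2 * (ENNReal.ofReal ((σ.pr β C x) ^ (2 * m)) +
            ENNReal.ofReal ((∑ C' ∈ D, σ.pr β C' x) ^ (2 * m)))) := by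
            rw [← ENNReal.tsum_add, ← ENNReal.tsum_mul_left]
            refine tsum_congr fun x => ?_
            ring
        _ ≤ ∑' x, ENNReal.ofReal (σ.wt om x) * (F x + F (σ.flip C x)) := by
            refine ENNReal.tsum_le_tsum fun x => ?_
            exact mul_le_mul_right (h2 x) _
        _ = ∑' x, ENNReal.ofReal (σ.wt om x) * F x +
            ∑' x, ENNReal.ofReal (σ.wt om x) * F (σ.flip C x) := by
            rw [← ENNReal.tsum_add]
            refine tsum_congr fun x => mul_add _ _ _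
        _ = _ := by rw [h1, two_mul]
    have h4 := (ENNReal.mul_le_mul_iff_right (by norm_num : (2 : ℝ≥0∞) ≠ 0)
      (by norm_num : (2 : ℝ≥0∞) ≠ ∞)).1 h3
    exact (add_le_add_right ih' _).trans h4

lemma pr_even {om : Finset E} {x : V → S} (h : σ.wt om x ≠ 0) (β : V → ℝ) {C : Finset V}
    (hC : C ∈ cluss σ.s σ.t om) (m : ℕ) : (σ.pa β C x) ^ (2 * m) = (σ.pr β C x) ^ (2 * m) := by
  obtain ⟨u, _, rfl⟩ := Finset.mem_image.1 hC
  have h1 : ∀ v ∈ clus σ.s σ.t om u, σ.D x v = (SignType.sign (σ.D x u) : ℝ) * |σ.D x v| :=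
    fun v hv => σ.D_sign h (mem_clus.1 hv)
  have h2 : σ.pr β (clus σ.s σ.t om u) x =
      (SignType.sign (σ.D x u) : ℝ) * σ.pa β (clus σ.s σ.t om u) x := σ.pr_sign h β u
  rcases lt_trichotomy (σ.D x u) 0 with h3 | h3 | h3
  · rw [h2, sign_neg h3]; simp [pow_mul]
  · have h4 : σ.pa β (clus σ.s σ.t om u) x = 0 := by
      unfold Sys.pa
      apply Finset.sum_eq_zero
      intro v hv
      have := h1 v hv
      rw [h3] at this
      simp at this
      rw [this]; simp
    rw [h2, h4]; simp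
  · rw [h2, sign_pos h3]; simp

lemma sum_pr_cluss (om : Finset E) (β : V → ℝ) (x : V → S) :
    ∑ C ∈ cluss σ.s σ.t om, σ.pr β C x = σ.pr β univ x := by
  have := sum_cluss σ.s σ.t om (fun u _ => β u * σ.D x u)
  unfold Sys.pr
  exact this.symm

/-- **the even moments of the cluster masses are superadditive** -/
theorem mom_le (β : V → ℝ) {m : ℕ} (hm : m ≠ 0) :
    Ex σ (fun x om => ∑ C ∈ cluss σ.s σ.t om, ENNReal.ofReal ((σ.pa β C x) ^ (2 * m))) ≤
      Ex σ (fun x _ => ENNReal.ofReal ((σ.pr β univ x) ^ (2 * m))) := by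
  classical
  have h0 : Ex σ (fun x om => ∑ C ∈ cluss σ.s σ.t om, ENNReal.ofReal ((σ.pa β C x) ^ (2 * m))) =
      Ex σ (fun x om => ∑ C ∈ cluss σ.s σ.t om, ENNReal.ofReal ((σ.pr β C x) ^ (2 * m))) := by
    refine Ex_congr fun x om hw => Finset.sum_congr rfl fun C hC => ?_
    rw [pr_even σ hw β hC m]
  have h1 : ∀ F : (V → S) → Finset E → ℝ≥0∞, Ex σ F =
      ∑ om : Finset E, ∑' x, ENNReal.ofReal (σ.wt om x) * F x om := by
    intro F
    unfold Ex
    rw [← tsum_fintype (L := SummationFilter.unconditional _), ENNReal.tsum_comm]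
    refine tsum_congr fun x => ?_
    rw [tsum_fintype]
  rw [h0, h1, h1]
  refine Finset.sum_le_sum fun om _ => ?_
  have h2 := mom_aux σ (om := om) β hm (cluss σ.s σ.t om) (Finset.Subset.refl _)
  simp only [sum_pr_cluss] at h2
  refine le_trans (le_of_eq ?_) h2
  rw [← Summable.tsum_finsetSum (fun C _ => ENNReal.summable)]
  exact tsum_congr fun x => by rw [Finset.mul_sum]

end

end Vale.Agent.P159.TM.H352
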