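import Vale.Agent.P159.TM.H352.Decay
import Vale.Agent.P159.TM.H576.Fat
import Vale.Agent.P159.TM.H459.Blocks
import Vale.Agent.P159.TM.H60.Swap

/-! # The gas of clusters of an FK system on the torus (row A34I, helper352) -/

open scoped ENNReal NNReal BigOperators
open Finset

set_option linter.unusedSectionVars false
set_option linter.unusedDecidableInType false

namespace Vale.Agent.P159.TM.H352

open Vale.Agent.P159.TM.H60 Vale.Agent.P159.TM.H459 Vale.Agent.P159.TM.H576

section clusters
variable {V E : Type*} [Fintype V] [DecidableEq V] [Fintype E] [DecidableEq E]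

/-- the set of the open clusters -/
noncomputable def cluss (s t : E → V) (om : Finset E) : Finset (Finset V) :=
  univ.image (clus s t om)

lemma clus_mem_cluss (s t : E → V) (om : Finset E) (u : V) : clus s t om u ∈ cluss s t om :=
  Finset.mem_image_of_mem _ (Finset.mem_univ u)

lemma clus_eq {s t : E → V} {om : Finset E} {u v : V} (h : v ∈ clus s t om u) :
    clus s t om v = clus s t om u := by
  rw [mem_clus] at h
  ext w
  rw [mem_clus, mem_clus]
  exact ⟨fun h' => h.trans h', fun h' => h.symm.trans h'⟩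

lemma eq_clus_of_mem {s t : E → V} {om : Finset E} {C : Finset V} (hC : C ∈ cluss s t om)
    {u : V} (hu : u ∈ C) : clus s t om u = C := by
  obtain ⟨v, _, rfl⟩ := Finset.mem_image.1 hC
  exact clus_eq hu

/-- **sums over sites as sums over clusters** -/
theorem sum_cluss {R : Type*} [AddCommMonoid R] (s t : E → V) (om : Finset E)
    (f : V → Finset V → R) :
    ∑ u, f u (clus s t om u) = ∑ C ∈ cluss s t om, ∑ u ∈ C, f u C := by
  classical
  rw [← Finset.sum_fiberwise_of_maps_to (s := (univ : Finset V)) (t := cluss s t om)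
    (g := fun u => clus s t om u) (fun u _ => clus_mem_cluss s t om u)]
  refine Finset.sum_congr rfl fun C hC => ?_
  have h1 : (univ.filter fun u => clus s t om u = C) = C := by
    ext u
    simp only [Finset.mem_filter, Finset.mem_univ, true_and]
    constructor
    · intro h; rw [← h]; exact self_mem_clus u
    · intro h; exact eq_clus_of_mem hC h
  calc ∑ u ∈ univ.filter (fun u => clus s t om u = C), f u (clus s t om u)
      = ∑ u ∈ univ.filter (fun u => clus s t om u = C), f u C := by
        refine Finset.sum_congr rfl fun u hu => ?_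
        rw [(Finset.mem_filter.1 hu).2]
    _ = _ := by rw [h1]

end clusters

/-! ### geometry of the blocks -/

section geo
variable {n : ℕ} [NeZero n]

lemma card_vma_eq (k : ℕ) :
    ((univ : Finset (ZMod n)).filter fun a => a.valMinAbs.natAbs = k).card ≤ 2 := by
  classical
  have h1 : ((univ : Finset (ZMod n)).filter fun a => a.valMinAbs.natAbs = k).card ≤
      ({(k : ℤ), -(k : ℤ)} : Finset ℤ).card := by
    refine Finset.card_le_card_of_injOn (fun a => a.valMinAbs) ?_ ?_
    · intro a ha
      have := (Finset.mem_filter.1 (Finset.mem_coe.1 ha)).2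
      simp only [Finset.coe_insert, Finset.coe_singleton, Set.mem_insert_iff,
        Set.mem_singleton_iff]
      omega
    · intro a _ b _ h
      exact ZMod.injective_valMinAbs h
  exact h1.trans (Finset.card_le_two)

lemma card_vma_le (k : ℕ) :
    ((univ : Finset (ZMod n)).filter fun a => a.valMinAbs.natAbs ≤ k).card ≤ 2 * k + 1 := by
  classical
  have h1 : ((univ : Finset (ZMod n)).filter fun a => a.valMinAbs.natAbs ≤ k).card ≤
      (Finset.Icc (-(k : ℤ)) k).card := by
    refine Finset.card_le_card_of_injOn (fun a => a.valMinAbs) ?_ ?_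
    · intro a ha
      have := (Finset.mem_filter.1 (Finset.mem_coe.1 ha)).2
      simp only [Finset.coe_Icc, Set.mem_Icc]
      omega
    · intro a _ b _ h
      exact ZMod.injective_valMinAbs h
  refine h1.trans ?_
  rw [Int.card_Icc]
  omega

lemma card_sn_eq (k : ℕ) :
    ((univ : Finset (ZMod n × ZMod n)).filter fun w => sn w = k).card ≤ 8 * (k + 1) := by
  classical
  have h1 : ((univ : Finset (ZMod n × ZMod n)).filter fun w => sn w = k) ⊆
      (((univ : Finset (ZMod n)).filter fun a => a.valMinAbs.natAbs = k) ×ˢ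
        ((univ : Finset (ZMod n)).filter fun a => a.valMinAbs.natAbs ≤ k)) ∪
      (((univ : Finset (ZMod n)).filter fun a => a.valMinAbs.natAbs ≤ k) ×ˢ
        ((univ : Finset (ZMod n)).filter fun a => a.valMinAbs.natAbs = k)) := by
    intro w hw
    have hw' := (Finset.mem_filter.1 hw).2
    unfold sn at hw'
    simp only [Finset.mem_union, Finset.mem_product, Finset.mem_filter, Finset.mem_univ, true_and]
    omega
  refine (Finset.card_le_card h1).trans ((Finset.card_union_le _ _).trans ?_)
  rw [Finset.card_product, Finset.card_product]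
  have h2 := card_vma_eq (n := n) k
  have h3 := card_vma_le (n := n) k
  calc _ ≤ 2 * (2 * k + 1) + (2 * k + 1) * 2 :=
        Nat.add_le_add (Nat.mul_le_mul h2 h3) (Nat.mul_le_mul h3 h2)
    _ ≤ _ := by omega

/-- the geometry of the torus of blocks -/
def torGeo (n : ℕ) [NeZero n] : Geo (ZMod n × ZMod n) where
  d := sd
  d_comm := sd_symm
  d_tri := sd_tri
  d_self := sd_self
  ball_card := fun a k => by
    have := card_ball_le (N := n) a k
    exact this
  sph_card := fun a k => by
    classical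
    have h1 : ((univ : Finset (ZMod n × ZMod n)).filter fun b => sd a b = k).card ≤
        ((univ : Finset (ZMod n × ZMod n)).filter fun w => sn w = k).card := by
      refine Finset.card_le_card_of_injOn (fun b => b - a) ?_ ?_
      · intro b hb
        have := (Finset.mem_filter.1 (Finset.mem_coe.1 hb)).2
        simp only [Finset.coe_filter, Set.mem_setOf_eq, Finset.mem_univ, true_and]
        exact this
      · intro b _ c _ h
        exact sub_left_injective h
    exact h1.trans (card_sn_eq k)

lemma torGeo_ball (a : ZMod n × ZMod n) (k : ℕ) : (torGeo n).ball a k = ball a k := rfl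

end geo

/-! ### the gas -/

section gas
variable {N n : ℕ} [NeZero N] [NeZero n] {S : Type*}

/-- the vertices and the edges of the torus -/
abbrev TV (N : ℕ) := ZMod N × ZMod N
/-- the edges -/
abbrev TE (N : ℕ) := (ZMod N × ZMod N) × Bool

/-- partition function in `[0,∞]` -/
noncomputable def ZZ (σ : Sys (TV N) (TE N) S) : ℝ≥0∞ := Ex σ (fun _ _ => 1)

open Classical in
/-- the gas of the clusters, masses in units `1 / ε` -/
noncomputable def gas (σ : Sys (TV N) (TE N) S) (hs : σ.s = tS) (ht : σ.t = tT) (ε : ℝ≥0)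
    {l : ℕ} (hl : 0 < l) (hN : N = n * l) :
    Gas (Finset (TE N) × (TV N → S) × Finset (TV N)) (ZMod n × ZMod n) (torGeo n) where
  p := fun i => (ZZ σ)⁻¹ * ENNReal.ofReal (σ.wt i.1 i.2.1) *
    (if i.2.2 ∈ cluss σ.s σ.t i.1 then 1 else 0)
  X := fun i b => if i.2.2 ∈ cluss σ.s σ.t i.1 then
    (ε : ℝ≥0∞) * ∑ z ∈ i.2.2.filter (fun z => bk n l z = b), ((σ.d (i.2.1 z)).natAbs : ℝ≥0∞) else 0
  vis := fun i => if i.2.2 ∈ cluss σ.s σ.t i.1 then i.2.2.image (bk n l) else ∅
  X_vis := fun i b hb => by
    split_ifs with h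
    · rw [if_pos h] at hb
      have : i.2.2.filter (fun z => bk n l z = b) = ∅ := by
        rw [Finset.filter_eq_empty_iff]
        intro z hz h'
        exact hb (Finset.mem_image.2 ⟨z, hz, h'⟩)
      rw [this]; simp
    · rfl
  conn := fun i a b ha hb j hj => by
    by_cases h : i.2.2 ∈ cluss σ.s σ.t i.1
    · rw [if_pos h] at ha hb ⊢
      obtain ⟨p, hp, rfl⟩ := Finset.mem_image.1 ha
      obtain ⟨q, hq, rfl⟩ := Finset.mem_image.1 hb
      have h1 := eq_clus_of_mem h hp
      rw [← h1] at hq
      have hpq : Conn tS tT i.1 p q := by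
        rw [hs, ht] at hq
        exact mem_clus.1 hq
      obtain ⟨z, hz, hzj⟩ := exists_blk_at (n := n) hl hN hpq (k := j) (b := bk n l p)
        (by rw [sd_self]; omega) hj
      refine ⟨bk n l z, Finset.mem_image.2 ⟨z, ?_, rfl⟩, hzj⟩
      rw [← h1, hs, ht]
      exact mem_clus.2 hz
    · rw [if_neg h] at ha
      exact absurd ha (by simp)

variable {σ : Sys (TV N) (TE N) S} {hs : σ.s = tS} {ht : σ.t = tT} {ε : ℝ≥0}
  {l : ℕ} {hl : 0 < l} {hN : N = n * l}

/-- **the integral over the gas** -/
theorem S_gas (F : Finset (TE N) × (TV N → S) × Finset (TV N) → ℝ≥0∞) :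
    H352.S (gas σ hs ht ε hl hN).p F =
      (ZZ σ)⁻¹ * Ex σ (fun x om => ∑ C ∈ cluss σ.s σ.t om, F (om, x, C)) := by
  classical
  unfold H352.S gas Ex
  simp only
  rw [ENNReal.tsum_prod (f := fun om (p : (TV N → S) × Finset (TV N)) =>
    (ZZ σ)⁻¹ * ENNReal.ofReal (σ.wt om p.1) * (if p.2 ∈ cluss σ.s σ.t om then 1 else 0) *
      F (om, p.1, p.2)), tsum_fintype]
  rw [← ENNReal.tsum_mul_left]
  have h2 : ∀ om : Finset (TE N), ∑' p : (TV N → S) × Finset (TV N),
      (ZZ σ)⁻¹ * ENNReal.ofReal (σ.wt om p.1) * (if p.2 ∈ cluss σ.s σ.t om then 1 else 0) *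
        F (om, p.1, p.2) =
      ∑' x : TV N → S, (ZZ σ)⁻¹ * (ENNReal.ofReal (σ.wt om x) *
        ∑ C ∈ cluss σ.s σ.t om, F (om, x, C)) := by
    intro om
    rw [ENNReal.tsum_prod (f := fun (x : TV N → S) (C : Finset (TV N)) =>
      (ZZ σ)⁻¹ * ENNReal.ofReal (σ.wt om x) * (if C ∈ cluss σ.s σ.t om then 1 else 0) *
        F (om, x, C))]
    refine tsum_congr fun x => ?_
    rw [tsum_fintype, ← mul_assoc, Finset.mul_sum]
    have h3 : ∀ C : Finset (TV N), (ZZ σ)⁻¹ * ENNReal.ofReal (σ.wt om x) *
        (if C ∈ cluss σ.s σ.t om then 1 else 0) * F (om, x, C) =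
        if C ∈ cluss σ.s σ.t om then (ZZ σ)⁻¹ * ENNReal.ofReal (σ.wt om x) * F (om, x, C) else 0 := by
      intro C; split_ifs <;> simp
    simp only [h3]
    rw [← Finset.sum_filter]
    congr 1
    ext C; simp
  rw [Finset.sum_congr rfl fun om _ => h2 om, ← tsum_fintype (L := SummationFilter.unconditional _)
    (f := fun om : Finset (TE N) => ∑' x : TV N → S, (ZZ σ)⁻¹ * (ENNReal.ofReal (σ.wt om x) *
        ∑ C ∈ cluss σ.s σ.t om, F (om, x, C))), ENNReal.tsum_comm]
  refine tsum_congr fun x => ?_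
  rw [tsum_fintype, Finset.mul_sum]

lemma gas_X {om : Finset (TE N)} {x : TV N → S} {C : Finset (TV N)} (hC : C ∈ cluss σ.s σ.t om)
    (b : ZMod n × ZMod n) : (gas σ hs ht ε hl hN).X (om, x, C) b =
      (ε : ℝ≥0∞) * ∑ z ∈ C.filter (fun z => bk n l z = b), ((σ.d (x z)).natAbs : ℝ≥0∞) := by
  unfold gas; simp only; rw [if_pos hC]

lemma gas_vis {om : Finset (TE N)} {x : TV N → S} {C : Finset (TV N)} (hC : C ∈ cluss σ.s σ.t om) :
    (gas σ hs ht ε hl hN).vis (om, x, C) = C.image (bk n l) := by
  unfold gas; simp only; rw [if_pos hC]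

/-- **one block mass as a sum over the sites** -/
theorem S_gas_X (b : ZMod n × ZMod n) (F : Finset (TE N) × (TV N → S) × Finset (TV N) → ℝ≥0∞) :
    H352.S (gas σ hs ht ε hl hN).p (fun i => (gas σ hs ht ε hl hN).X i b * F i) =
      (ZZ σ)⁻¹ * ε * ∑ u ∈ blk N n l b, Ex σ (fun x om =>
        ((σ.d (x u)).natAbs : ℝ≥0∞) * F (om, x, clus σ.s σ.t om u)) := by
  classical
  rw [S_gas, mul_assoc]
  congr 1
  rw [← Ex_sum, ← Ex_mul]
  refine Ex_congr fun x om _ => ?_
  have h1 : ∑ u ∈ blk N n l b, ((σ.d (x u)).natAbs : ℝ≥0∞) * F (om, x, clus σ.s σ.t om u) =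
      ∑ u, (if bk n l u = b then ((σ.d (x u)).natAbs : ℝ≥0∞) * F (om, x, clus σ.s σ.t om u)
        else 0) := by
    unfold blk; rw [Finset.sum_filter]
  rw [h1, sum_cluss σ.s σ.t om (fun u C => if bk n l u = b then
    ((σ.d (x u)).natAbs : ℝ≥0∞) * F (om, x, C) else 0), Finset.mul_sum]
  refine Finset.sum_congr rfl fun C hC => ?_
  rw [gas_X hC, ← Finset.sum_filter, mul_assoc, Finset.sum_mul]

end gas

end Vale.Agent.P159.TM.H352
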