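import Vale.Agent.P159.TM.H352.CvOne
import Vale.Agent.P159.TM.H634.TiltT

/-! # Theorem A on the torus (row A34I, helper352) -/

open scoped ENNReal NNReal BigOperators
open Finset

set_option linter.unusedSectionVars false
set_option linter.unusedDecidableInType false

namespace Vale.Agent.P159.TM.H352

open Vale.Agent.P159.TM.H60 Vale.Agent.P159.TM.H459 Vale.Agent.P159.TM.H576

/-- row TILT, from 634 -/
theorem tiltOne (b1 b2 a : ℝ) : TiltOne b1 b2 a := by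
  have h0 : 0 ≤ max a 0 := le_max_right _ _
  have hc : ((Real.toNNReal (100 + 640 * max a 0) : ℝ≥0) : ℝ) = 100 + 640 * max a 0 :=
    Real.coe_toNNReal _ (by positivity)
  refine ⟨Real.toNNReal (100 + 640 * max a 0), 0, ?_, ?_⟩
  · rw [← NNReal.coe_le_coe, hc]
    push_cast
    linarith
  intro N n _ _ b hb _ _ ξ hξ hN y _ _ hy _ hQ c R M _ hM hXi
  refine H634.tiltT_one hb hξ hN le_rfl ?_ hy hQ (by linarith) hXi ?_ ?_
  · push_cast
    rw [one_div]
  · rw [hc]; linarith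
  · rw [hc]; linarith

/-- a larger `a` -/
lemma Rng.mono {b1 b2 a a' W ys : ℝ} {X N : ℕ} [NeZero N] {b : ℝ} {ξ : ℕ} {y : ℝ}
    (h : Spec.Rng b1 b2 a W ys X N b ξ y) (haa : a ≤ a') : Spec.Rng b1 b2 a' W ys X N b ξ y :=
  { h with hyp := h.hyp.mono (by norm_num) le_rfl (Nat.cast_nonneg ξ) le_rfl haa }

/-- **THEOREM A** (`Spec.ThmA`), unconditional: `0 < b1` -/
theorem thmA {b1 : ℝ} (hb1 : 0 < b1) (b2 a : ℝ) : Spec.ThmA b1 b2 a := by
  obtain ⟨W₀, h⟩ := thmA_of (b2 := b2) (a := max a 0) hb1 (le_max_right _ _)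
    (fun N _ b ξ hb hξ => kerOne N b ξ hb hξ) (tiltOne b1 b2 (max a 0))
  refine ⟨W₀, fun W hW => ?_⟩
  obtain ⟨c, C, ys, X, h1, h2, h3, h4, h5⟩ := h W hW
  refine ⟨c, C, ys, X, h1, h2, h3, h4, ?_⟩
  intro N _ b hb ξ y hR x0 m hm
  exact h5 N b hb ξ y (Rng.mono hR (le_max_left _ _)) x0 m hm

end Vale.Agent.P159.TM.H352
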