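import Vale.Agent.P159.TM.H352.ThmA

/-! # Theorem A, summed form (row A34I, helper352) -/

open scoped ENNReal NNReal BigOperators
open Finset

set_option linter.unusedSectionVars false
set_option linter.unusedDecidableInType false

namespace Vale.Agent.P159.TM.H352

open Vale.Agent.P159.TM.H60 Vale.Agent.P159.TM.H459 Vale.Agent.P159.TM.H576

/-- **the gas of one copy satisfies all the hypotheses of A3 + A4**, constants independent of `W` -/
theorem hyp_all {b1 : ℝ} (hb1 : 0 < b1) (b2 a : ℝ) : ∃ W₀ : ℝ, ∃ X : ℕ, ∃ K : ℝ≥0, 2 ≤ X ∧ 1 ≤ K ∧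
    ∀ W : ℝ, W₀ ≤ W → ∀ (N n : ℕ) [NeZero N] [NeZero n] (b : ℝ) (hb : 0 ≤ b) (ξ : ℕ)
      (hξ : 0 < ξ) (hN : N = n * ξ) (y ys : ℝ), ys ≤ 1 → Spec.Rng b1 b2 a W ys X N b ξ y →
      (gas (Spec.σ1 N b ξ hb) rfl rfl (((ξ : ℝ≥0) ^ 2)⁻¹) hξ hN).Hyp K 4 y := by
  obtain ⟨W0, X0, Kf, hKf, hfath⟩ := H77.fath (C2 := 10) (bb := max b2 1) (by norm_num)
    (lt_of_lt_of_le one_pos (le_max_right _ _))
  obtain ⟨Kt, Xt, hKt, htilt⟩ := tiltOne b1 b2 (max a 0)
  have ha : 0 ≤ max a 0 := le_max_right _ _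
  set a' := max a 0 with ha'
  set K : ℝ≥0 := max (max Kf Kt) (max K20 ⟨104 + 4000 * a', by positivity⟩) with hKdef
  have k1 : Kf ≤ K := (le_max_left _ _).trans (le_max_left _ _)
  have k2 : Kt ≤ K := (le_max_right _ _).trans (le_max_left _ _)
  have k3 : K20 ≤ K := (le_max_left _ _).trans (le_max_right _ _)
  have k4 : 104 + 4000 * a' ≤ (K : ℝ) := by
    have : (⟨104 + 4000 * a', by positivity⟩ : ℝ≥0) ≤ K :=
      (le_max_right _ _).trans (le_max_right _ _)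
    exact_mod_cast this
  have kone : 1 ≤ K := hKf.trans k1
  refine ⟨W0, max (max X0 Xt) 2, K, le_max_right _ _, kone, ?_⟩
  intro W hW N n _ _ b hb ξ hξ hN y ys hys hR0
  have hR : Spec.Rng b1 b2 a' W ys (max (max X0 Xt) 2) N b ξ y := Rng.mono hR0 (le_max_left _ _)
  have hX0 : X0 ≤ max (max X0 Xt) 2 := (le_max_left _ _).trans (le_max_left _ _)
  have hXt : Xt ≤ max (max X0 Xt) 2 := (le_max_right _ _).trans (le_max_left _ _)
  have hX2 : 2 ≤ max (max X0 Xt) 2 := le_max_right _ _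
  have hnX : max (max X0 Xt) 2 ≤ n := by
    have h1 := hR.hK
    rw [hN] at h1
    exact Nat.le_of_mul_le_mul_right h1 hξ
  have hn2 : 2 ≤ n := hX2.trans hnX
  have hb0 : 0 < b := hb1.trans_le hR.hb1
  have hker := kerOne N b ξ hb hξ
  have hy := hR.y0
  have hF := hfath N n b hb hb0 (hR.hb2.trans (le_max_left _ _)) ξ (hX0.trans hR.hX) hξ hn2 hN W hW
    hR.hyp.h2 4 le_rfl
  exact hyp_s1 (K := K) (D := 4) hb hξ hN hy ha hker.nn hker.sw hker.sum
    (hker.tl a' y hR.hyp.qu hy ha) hker.cv hF k1 k3 k4 (fun c R M h2 h3 h4 => by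
      have h5 := htilt N n b hb hR.hb1 hR.hb2 ξ hξ hN y (hXt.trans hR.hX) (hXt.trans hnX) hy
        (hR.y1.trans hys) hR.hyp.qu c R M h2 h3 h4
      exact Gas.Tilt.mono (by exact_mod_cast (zero_lt_one.trans_le hKt)) (by exact_mod_cast k2) hy
        (by linarith) h5)

section
variable {N n : ℕ} [NeZero N] [NeZero n]

/-- every block has `l^2` sites -/
theorem card_blk_eq {l : ℕ} (hl : 0 < l) (hN : N = n * l) (b : ZMod n × ZMod n) :
    (blk N n l b).card = l ^ 2 := by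
  classical
  have h1 : ∑ b : ZMod n × ZMod n, (blk N n l b).card = ∑ _b : ZMod n × ZMod n, l ^ 2 := by
    have h2 : ∑ b : ZMod n × ZMod n, (blk N n l b).card = (univ : Finset (TV N)).card := by
      symm
      exact Finset.card_eq_sum_card_fiberwise (f := fun z => bk n l z) (fun _ _ => Finset.mem_univ _)
    rw [h2, Finset.sum_const, Finset.card_univ, Finset.card_univ, Fintype.card_prod,
      Fintype.card_prod, ZMod.card, ZMod.card, hN, smul_eq_mul]
    ring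
  exact (Finset.sum_eq_sum_iff_of_le (fun b _ => card_blk_le hl hN b)).1 h1 b (Finset.mem_univ b)

variable {S : Type*} {σ : Sys (TV N) (TE N) S} {hs : σ.s = tS} {ht : σ.t = tT} {ε : ℝ≥0}
  {l : ℕ} {hl : 0 < l} {hN : N = n * l}

open Classical in
/-- exact form of the block covariance -/
theorem S_XX_eq {κ : ℝ} {G : TV N → ℝ} (hκ : 0 ≤ κ) (hG : ∀ w, 0 ≤ G w)
    (hC : ∀ u v, Ex σ (fun x om => ((σ.d (x u)).natAbs : ℝ≥0∞) *
    (if v ∈ clus σ.s σ.t om u then ((σ.d (x v)).natAbs : ℝ≥0∞) else 0)) =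
      ENNReal.ofReal (κ * G (v - u)) * ZZ σ)
    (h0 : ZZ σ ≠ 0) (h1 : ZZ σ ≠ ∞) (b β : ZMod n × ZMod n) :
    H352.S (gas σ hs ht ε hl hN).p (fun i => (gas σ hs ht ε hl hN).X i b *
      (gas σ hs ht ε hl hN).X i β) =
      ENNReal.ofReal ((ε : ℝ) ^ 2 * κ * ∑ u ∈ blk N n l b, ∑ z ∈ blk N n l β, G (z - u)) := by
  rw [S_gas_X]
  have e1 : ∀ u ∈ blk N n l b, Ex σ (fun x om => ((σ.d (x u)).natAbs : ℝ≥0∞) *
      (gas σ hs ht ε hl hN).X (om, x, clus σ.s σ.t om u) β) =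
      ε * ∑ z ∈ blk N n l β, ENNReal.ofReal (κ * G (z - u)) * ZZ σ := by
    intro u _
    have e2 : Ex σ (fun x om => ((σ.d (x u)).natAbs : ℝ≥0∞) *
        (gas σ hs ht ε hl hN).X (om, x, clus σ.s σ.t om u) β) =
        ε * ∑ z ∈ blk N n l β, Ex σ (fun x om => ((σ.d (x u)).natAbs : ℝ≥0∞) *
          (if z ∈ clus σ.s σ.t om u then ((σ.d (x z)).natAbs : ℝ≥0∞) else 0)) := by
      rw [← Ex_sum, ← Ex_mul]
      refine Ex_congr fun x om _ => ?_
      rw [gas_X (clus_mem_cluss σ.s σ.t om u), ← Finset.mul_sum]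
      have e3 : ∑ z ∈ (clus σ.s σ.t om u).filter (fun z => bk n l z = β),
          ((σ.d (x z)).natAbs : ℝ≥0∞) = ∑ z ∈ blk N n l β,
          (if z ∈ clus σ.s σ.t om u then ((σ.d (x z)).natAbs : ℝ≥0∞) else 0) := by
        unfold blk
        rw [← Finset.sum_filter, Finset.filter_filter]
        congr 1
        ext z; simp [and_comm]
      rw [e3]; ring
    rw [e2]
    congr 1
    exact Finset.sum_congr rfl fun z _ => hC u z
  calc (ZZ σ)⁻¹ * ε * ∑ u ∈ blk N n l b, Ex σ (fun x om => ((σ.d (x u)).natAbs : ℝ≥0∞) *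
        (gas σ hs ht ε hl hN).X (om, x, clus σ.s σ.t om u) β)
      = (ZZ σ)⁻¹ * ε * ∑ u ∈ blk N n l b,
        (ε * ∑ z ∈ blk N n l β, ENNReal.ofReal (κ * G (z - u)) * ZZ σ) := by
        congr 1
        exact Finset.sum_congr rfl e1
    _ = ((ZZ σ)⁻¹ * ZZ σ) * (ε ^ 2 * ∑ u ∈ blk N n l b, ∑ z ∈ blk N n l β,
          ENNReal.ofReal (κ * G (z - u))) := by
        simp only [← Finset.sum_mul, ← Finset.mul_sum]
        ring
    _ = _ := by
        rw [ENNReal.inv_mul_cancel h0 h1, one_mul, mul_assoc, ENNReal.ofReal_mul (by positivity),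
          ENNReal.ofReal_pow (NNReal.coe_nonneg ε), ENNReal.ofReal_coe_nnreal]
        congr 1
        rw [Finset.mul_sum, ENNReal.ofReal_sum_of_nonneg (fun u _ =>
          mul_nonneg hκ (Finset.sum_nonneg fun z _ => hG _))]
        refine Finset.sum_congr rfl fun u _ => ?_
        rw [Finset.mul_sum, ENNReal.ofReal_sum_of_nonneg (fun z _ => mul_nonneg hκ (hG _))]

end

namespace Gas
variable {ι 𝔹 : Type*} [Fintype 𝔹] [DecidableEq 𝔹] {G : Geo 𝔹} {A : Gas ι 𝔹 G}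

/-- two blocks at distance `k` -/
lemma XX_le (b b' : 𝔹) : S A.p (fun i => A.X i b * A.X i b') ≤
    A.W b (G.d b b') + A.W b' (G.d b b') := by
  unfold W
  rw [← S_add]
  refine S_mono fun i => ?_
  by_cases hb : b ∈ A.vis i
  · by_cases hb' : b' ∈ A.vis i
    · rw [ind_true (show A.J b (G.d b b') i from ⟨hb, b', hb', le_rfl⟩),
        ind_true (show A.J b' (G.d b b') i from ⟨hb', b, hb, (G.d_comm b b').le⟩), one_mul, one_mul]
      exact mul_le_sq_add _ _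
    · rw [A.X_vis i b' hb']; simp
  · rw [A.X_vis i b hb]; simp

end Gas

lemma exp_series {r : ℝ} (hr : 0 < r) (n : ℕ) :
    ∑ k ∈ Finset.range n, ((k : ℝ) + 1) * Real.exp (-(r * k)) ≤ 72 * Real.exp r / r ^ 4 := by
  have h1 : ∀ k ∈ Finset.range n, ((k : ℝ) + 1) * Real.exp (-(r * k)) ≤
      24 * Real.exp r / r ^ 4 * (((k : ℝ) + 1) ^ 3)⁻¹ := by
    intro k _
    have hk : (0 : ℝ) < (k : ℝ) + 1 := by positivity
    have h2 := Real.pow_div_factorial_le_exp (r * ((k : ℝ) + 1)) (by positivity) 4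
    have h3 : Real.exp (-(r * ((k : ℝ) + 1))) ≤ 24 / (r * ((k : ℝ) + 1)) ^ 4 := by
      rw [Real.exp_neg, inv_le_comm₀ (Real.exp_pos _) (by positivity), inv_div]
      norm_num [Nat.factorial] at h2
      exact h2
    have e1 : Real.exp (-(r * k)) = Real.exp r * Real.exp (-(r * ((k : ℝ) + 1))) := by
      rw [← Real.exp_add]; congr 1; ring
    rw [e1]
    calc ((k : ℝ) + 1) * (Real.exp r * Real.exp (-(r * ((k : ℝ) + 1))))
        ≤ ((k : ℝ) + 1) * (Real.exp r * (24 / (r * ((k : ℝ) + 1)) ^ 4)) := by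
          gcongr
      _ = _ := by field_simp
  calc ∑ k ∈ Finset.range n, ((k : ℝ) + 1) * Real.exp (-(r * k))
      ≤ ∑ k ∈ Finset.range n, 24 * Real.exp r / r ^ 4 * (((k : ℝ) + 1) ^ 3)⁻¹ :=
        Finset.sum_le_sum h1
    _ = 24 * Real.exp r / r ^ 4 * ∑ k ∈ Finset.range n, (((k : ℝ) + 1) ^ 3)⁻¹ := by
        rw [Finset.mul_sum]
    _ ≤ 24 * Real.exp r / r ^ 4 * 3 := by
        have h4 := sum_inv_cube n
        have h5 : (0 : ℝ) ≤ 2 / ((n : ℝ) + 1) := by positivity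
        gcongr
        linarith
    _ = _ := by ring

/-- sums over the blocks of a function of the distance -/
lemma Geo.sum_dist {𝔹 : Type*} [Fintype 𝔹] (G : Geo 𝔹) (β : 𝔹) {r : ℝ} (hr : 0 < r) :
    ∑ b, Real.exp (-(r * G.d β b)) ≤ 8 * (72 * Real.exp r / r ^ 4) := by
  classical
  obtain ⟨N, hN⟩ : ∃ N, ∀ b, G.d β b < N :=
    ⟨(univ.sup fun b => G.d β b) + 1, fun b =>
      Nat.lt_succ_of_le (Finset.le_sup (f := fun b => G.d β b) (Finset.mem_univ b))⟩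
  have h1 : ∑ b, Real.exp (-(r * G.d β b)) =
      ∑ k ∈ Finset.range N, ∑ b ∈ univ.filter (fun b => G.d β b = k),
        Real.exp (-(r * G.d β b)) := by
    rw [Finset.sum_fiberwise_of_maps_to]
    intro b _
    rw [Finset.mem_range]; exact hN b
  rw [h1]
  calc ∑ k ∈ Finset.range N, ∑ b ∈ univ.filter (fun b => G.d β b = k),
        Real.exp (-(r * G.d β b))
      ≤ ∑ k ∈ Finset.range N, 8 * (((k : ℝ) + 1) * Real.exp (-(r * k))) := by
        refine Finset.sum_le_sum fun k _ => ?_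
        have e1 : ∑ b ∈ univ.filter (fun b => G.d β b = k), Real.exp (-(r * G.d β b)) =
            ((univ.filter (fun b => G.d β b = k)).card : ℝ) * Real.exp (-(r * k)) := by
          rw [← nsmul_eq_mul, ← Finset.sum_const]
          refine Finset.sum_congr rfl fun b hb => ?_
          rw [Finset.mem_filter] at hb
          rw [hb.2]
        rw [e1]
        have e2 : ((univ.filter (fun b => G.d β b = k)).card : ℝ) ≤ 8 * ((k : ℝ) + 1) := by
          exact_mod_cast G.sph_card β k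
        calc ((univ.filter (fun b => G.d β b = k)).card : ℝ) * Real.exp (-(r * k))
            ≤ (8 * ((k : ℝ) + 1)) * Real.exp (-(r * k)) :=
              mul_le_mul_of_nonneg_right e2 (Real.exp_pos _).le
          _ = _ := by ring
    _ = 8 * ∑ k ∈ Finset.range N, ((k : ℝ) + 1) * Real.exp (-(r * k)) := by
        rw [Finset.mul_sum]
    _ ≤ _ := by
        have := exp_series hr N
        linarith

section
variable {N n : ℕ} [NeZero N] [NeZero n] {b : ℝ} {ξ : ℕ}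

/-- the constant -/
noncomputable def CE (K : ℝ≥0) : ℝ :=
  Real.exp (rate K 4 / 2) * (2 * (K * Real.exp (rate K 4 * 8) * Real.exp (-rate K 4))) *
    (8 * (72 * Real.exp (rate K 4 / 2) / (rate K 4 / 2) ^ 4))

/-- **summed form of Theorem A** -/
theorem sum_GT (hb : 0 ≤ b) (hξ : 0 < ξ) (hN : N = n * ξ) {K : ℝ≥0} {y : ℝ}
    (h : (gas (Spec.σ1 N b ξ hb) rfl rfl (((ξ : ℝ≥0) ^ 2)⁻¹) hξ hN).Hyp K 4 y)
    (hy : y * ((n : ℝ) + 1) ≤ 1) :
    ∑ w : TV N, Spec.GT N b ξ w * Real.exp (rate K 4 / 2 * sn w / ξ) ≤ CE K * (ξ : ℝ) ^ 2 := by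
  classical
  set ρ := rate K 4 with hρ
  have hρ0 : 0 < ρ := rate_pos h.one_le 4
  have hξR : (0 : ℝ) < ξ := by exact_mod_cast hξ
  have hG : ∀ w, 0 ≤ Spec.GT N b ξ w := fun w => H41.G_nonneg hb hξR w
  have h0 := ZZ_s1_ne_zero (N := N) hb hξ
  have h1 := ZZ_s1_ne_top (N := N) hb hξ
  have hK0 : (0 : ℝ) ≤ K := NNReal.coe_nonneg K
  set w0 : ℝ := K * Real.exp (ρ * 8) * Real.exp (-ρ) with hw0
  have hw00 : 0 ≤ w0 := by positivity
  -- block covariances
  have hblk : ∀ β β' : ZMod n × ZMod n,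
      ∑ u ∈ blk N n ξ β, ∑ z ∈ blk N n ξ β', Spec.GT N b ξ (z - u) ≤
        (ξ : ℝ) ^ 4 * (2 * (w0 * Real.exp (-(ρ * sd β β')))) := by
    intro β β'
    have h2 := Gas.XX_le (A := gas (Spec.σ1 N b ξ hb) rfl rfl (((ξ : ℝ≥0) ^ 2)⁻¹) hξ hN) β β'
    rw [S_XX_eq (hs := rfl) (ht := rfl) (hl := hξ) (hN := hN) zero_le_one hG (cv_s1_eq hb hξ)
      h0 h1] at h2
    have hd : (torGeo n).d β β' = sd β β' := rfl
    have hdn : sd β β' ≤ n := by
      have e1 := ZMod.natAbs_valMinAbs_le (β' - β).1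
      have e2 := ZMod.natAbs_valMinAbs_le (β' - β).2
      unfold sd sn
      omega
    have hyk : y * ((sd β β' : ℝ) + 1) ≤ 1 := by
      refine le_trans (mul_le_mul_of_nonneg_left ?_ h.y_nonneg) hy
      have : (sd β β' : ℝ) ≤ n := by exact_mod_cast hdn
      linarith
    have hW : ∀ γ, (gas (Spec.σ1 N b ξ hb) rfl rfl (((ξ : ℝ≥0) ^ 2)⁻¹) hξ hN).W γ (sd β β') ≤
        ENNReal.ofReal (w0 * Real.exp (-(ρ * sd β β'))) := by
      intro γ
      refine (Gas.W_exp' h hyk γ).trans (ENNReal.ofReal_le_ofReal (le_of_eq ?_))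
      rw [hw0]
      have e1 : Real.exp (-(ρ * ((sd β β' : ℝ) + 1))) =
          Real.exp (-ρ) * Real.exp (-(ρ * sd β β')) := by
        rw [← Real.exp_add]; congr 1; ring
      rw [e1]
      push_cast
      rw [show ρ * (2 * (4 : ℝ)) = ρ * 8 by ring]
      ring
    rw [hd] at h2
    have h3 := h2.trans (add_le_add (hW β) (hW β'))
    rw [← ENNReal.ofReal_add (by positivity) (by positivity),
      ENNReal.ofReal_le_ofReal_iff (by positivity)] at h3
    have e3 : (((((ξ : ℝ≥0) ^ 2)⁻¹ : ℝ≥0) : ℝ)) ^ 2 = ((ξ : ℝ) ^ 4)⁻¹ := by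
      push_cast
      rw [inv_pow, ← pow_mul]
    rw [e3, mul_one] at h3
    have h4 : (0 : ℝ) < (ξ : ℝ) ^ 4 := by positivity
    rw [inv_mul_le_iff₀ h4] at h3
    linarith
  set β0 : ZMod n × ZMod n := 0 with hβ0
  have hcard : ((blk N n ξ β0).card : ℝ) = (ξ : ℝ) ^ 2 := by
    rw [card_blk_eq hξ hN]; push_cast; rfl
  have hpos : (0 : ℝ) < (ξ : ℝ) ^ 2 := by positivity
  set F : TV N → ℝ := fun w => Spec.GT N b ξ w * Real.exp (ρ / 2 * sn w / ξ) with hF
  have e1 : (ξ : ℝ) ^ 2 * ∑ w, F w = ∑ u ∈ blk N n ξ β0, ∑ z, F (z - u) := by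
    have e2 : ∀ u ∈ blk N n ξ β0, ∑ z, F (z - u) = ∑ w, F w := fun u _ =>
      Equiv.sum_comp (Equiv.subRight u) F
    rw [Finset.sum_congr rfl e2, Finset.sum_const, nsmul_eq_mul, hcard]
  have e2 : ∀ u ∈ blk N n ξ β0, ∑ z, F (z - u) ≤
      ∑ β', Real.exp (ρ / 2) * Real.exp (ρ / 2 * sd β0 β') *
        ∑ z ∈ blk N n ξ β', Spec.GT N b ξ (z - u) := by
    intro u hu
    rw [mem_blk] at hu
    have e3 : ∑ z, F (z - u) = ∑ β' : ZMod n × ZMod n, ∑ z ∈ blk N n ξ β', F (z - u) := by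
      unfold blk
      rw [← Finset.sum_fiberwise (s := univ) (g := fun z => bk n ξ z) (f := fun z => F (z - u))]
    rw [e3]
    refine Finset.sum_le_sum fun β' _ => ?_
    rw [Finset.mul_sum]
    refine Finset.sum_le_sum fun z hz => ?_
    rw [mem_blk] at hz
    simp only [hF]
    rw [mul_comm]
    refine mul_le_mul_of_nonneg_right ?_ (hG _)
    rw [← Real.exp_add]
    apply Real.exp_le_exp.2
    have h5 := le_bk (n := n) hξ hN u z
    rw [hu, hz] at h5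
    have h6 : sn (z - u) ≤ ξ * (sd β0 β' + 1) := by
      have : sd u z = sn (z - u) := rfl
      rw [← this]
      have e4 : ξ * (sd β0 β' + 1) = ξ * sd β0 β' + ξ := by ring
      omega
    have h7 : (sn (z - u) : ℝ) ≤ ξ * ((sd β0 β' : ℝ) + 1) := by exact_mod_cast h6
    rw [mul_div_assoc]
    have h8 : (sn (z - u) : ℝ) / ξ ≤ (sd β0 β' : ℝ) + 1 := by
      rw [div_le_iff₀ hξR]; linarith
    have h9 := mul_le_mul_of_nonneg_left h8 (by positivity : 0 ≤ ρ / 2)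
    linarith
  have e3 : (ξ : ℝ) ^ 2 * ∑ w, F w ≤ (ξ : ℝ) ^ 4 * CE K := by
    rw [e1]
    calc ∑ u ∈ blk N n ξ β0, ∑ z, F (z - u)
        ≤ ∑ u ∈ blk N n ξ β0, ∑ β', Real.exp (ρ / 2) * Real.exp (ρ / 2 * sd β0 β') *
          ∑ z ∈ blk N n ξ β', Spec.GT N b ξ (z - u) := Finset.sum_le_sum e2
      _ = ∑ β', Real.exp (ρ / 2) * Real.exp (ρ / 2 * sd β0 β') *
          ∑ u ∈ blk N n ξ β0, ∑ z ∈ blk N n ξ β', Spec.GT N b ξ (z - u) := by
          rw [Finset.sum_comm]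
          refine Finset.sum_congr rfl fun β' _ => ?_
          rw [Finset.mul_sum]
      _ ≤ ∑ β', Real.exp (ρ / 2) * Real.exp (ρ / 2 * sd β0 β') *
          ((ξ : ℝ) ^ 4 * (2 * (w0 * Real.exp (-(ρ * sd β0 β'))))) := by
          gcongr with β' _
          exact hblk β0 β'
      _ = (ξ : ℝ) ^ 4 * (Real.exp (ρ / 2) * (2 * w0) *
          ∑ β', Real.exp (-(ρ / 2 * sd β0 β'))) := by
          rw [Finset.mul_sum, Finset.mul_sum]
          refine Finset.sum_congr rfl fun β' _ => ?_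
          have e4 : Real.exp (-(ρ / 2 * sd β0 β')) = Real.exp (ρ / 2 * sd β0 β') *
              Real.exp (-(ρ * sd β0 β')) := by
            rw [← Real.exp_add]; congr 1; ring
          rw [e4]; ring
      _ ≤ (ξ : ℝ) ^ 4 * (Real.exp (ρ / 2) * (2 * w0) *
          (8 * (72 * Real.exp (ρ / 2) / (ρ / 2) ^ 4))) := by
          have := (torGeo n).sum_dist β0 (r := ρ / 2) (by positivity)
          have e5 : ∑ β', Real.exp (-(ρ / 2 * sd β0 β')) ≤
              8 * (72 * Real.exp (ρ / 2) / (ρ / 2) ^ 4) := this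
          gcongr
      _ = _ := by unfold CE; rw [hw0]
  have e4 : (ξ : ℝ) ^ 2 * ∑ w, F w ≤ (ξ : ℝ) ^ 2 * (CE K * (ξ : ℝ) ^ 2) := by
    calc _ ≤ _ := e3
      _ = _ := by ring
  exact le_of_mul_le_mul_left e4 hpos

end

/-- **THEOREM A, summed form, tori with `N y ≤ c ξ`** -/
theorem thmAexp' {b1 : ℝ} (hb1 : 0 < b1) (b2 a : ℝ) :
    ∃ W₀ : ℝ, ∃ c C ys : ℝ, ∃ X : ℕ, 0 < c ∧ 0 < C ∧ 0 < ys ∧ 1 ≤ X ∧ ∀ W : ℝ, W₀ ≤ W →
    ∀ (N : ℕ) [NeZero N] (b : ℝ) (ξ : ℕ) (y : ℝ),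
      Spec.Rng b1 b2 a W ys X N b ξ y → (N : ℝ) * y ≤ c * ξ →
        ∑ w : Spec.V N, Spec.GT N b ξ w * Real.exp (c * H459.sn w / ξ) ≤ C * (ξ : ℝ) ^ 2 := by
  obtain ⟨W0, X, K, hX2, hK1, hall⟩ := hyp_all hb1 b2 a
  have hρ := rate_pos hK1 4
  have hKpos : (0 : ℝ) < K := by exact_mod_cast (zero_lt_one.trans_le hK1)
  refine ⟨W0, min (rate K 4 / 2) (1 / 2), CE K, 1 / 2, X, lt_min (by positivity) (by norm_num),
    by unfold CE; positivity, by norm_num, by omega, ?_⟩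
  intro W hW N _ b ξ y hR hNy
  have hξ : 0 < ξ := by have := hR.hX; omega
  have hξR : (0 : ℝ) < ξ := by exact_mod_cast hξ
  have hb : 0 ≤ b := hb1.le.trans hR.hb1
  obtain ⟨n, hn⟩ := hR.hd
  have hN : N = n * ξ := by rw [hn, mul_comm]
  have hn0 : n ≠ 0 := by
    rintro rfl
    rw [zero_mul] at hN
    exact NeZero.ne N hN
  have : NeZero n := ⟨hn0⟩
  have h := hall W hW N n b hb ξ hξ hN y (1 / 2) (by norm_num) hR
  have hy1 : y ≤ 1 / 2 := hR.y1
  have hny : (n : ℝ) * y ≤ 1 / 2 := by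
    have e1 : (N : ℝ) = n * ξ := by rw [hN]; push_cast; rfl
    rw [e1] at hNy
    have e2 : (n : ℝ) * y * ξ ≤ (1 / 2) * ξ := by
      calc (n : ℝ) * y * ξ = n * ξ * y := by ring
        _ ≤ min (rate K 4 / 2) (1 / 2) * ξ := hNy
        _ ≤ (1 / 2) * ξ := by gcongr; exact min_le_right _ _
    exact le_of_mul_le_mul_right e2 hξR
  have h2 := sum_GT hb hξ hN h (by linarith)
  refine le_trans (Finset.sum_le_sum fun w _ => ?_) h2
  refine mul_le_mul_of_nonneg_left (Real.exp_le_exp.2 ?_) (H41.G_nonneg hb hξR w)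
  have : min (rate K 4 / 2) (1 / 2) ≤ rate K 4 / 2 := min_le_left _ _
  gcongr

end Vale.Agent.P159.TM.H352
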