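import Vale.Agent.P159.TM.H352.Two
import Vale.Agent.P159.TM.H58.Abs
import Vale.Agent.P159.TM.H58.Spec
import Vale.Agent.P159.TM.H857.H2B1

/-!
Row R8 (helper352, second source): circuits without mass give circuits with mass,
`Circ b1 b2 a → Spec.ThmA6 b1 b2 a`. Abstract part: `H58.mass_abs`.
-/

open Finset
open scoped ENNReal

set_option linter.unusedSectionVars false

namespace Vale.Agent.P159.TM.H352

open Vale.Agent.P159 Vale.Agent.P159.H353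
open Vale.Agent.P159.TM.H60 Vale.Agent.P159.TM.H504 Vale.Agent.P159.TM.H312
open Vale.Agent.P159.TM.H426 Vale.Agent.P159.TM.H576 Vale.Agent.P159.TM.H77
open Vale.Agent.P159.TM.H459 (tS tT ball sd sn mem_ball OEv)
open Vale.Agent.P159.TM.SpecC (wT ms)
open Vale.Agent.P159.TM.H764 (H2)

section pz

variable {N : ℕ} [NeZero N] {b : ℝ}

/-- **two copies: `P(F ≥ sqrt (v/2))` from the variance of one copy** -/
theorem pz_two (hb : 0 ≤ b) {bb : ℝ} (hbb : b ≤ bb) {ξ : ℕ} (hξ : 0 < ξ) {p q : ℤ} {L : ℕ}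
    (hL : 1 ≤ L) (κ : ℕ) (hn : L * 2 ^ κ ≤ N)
    (hC : 4 ≤ (L : ℝ) ^ 2 * cst bb κ (1 / (ξ : ℝ) ^ 2) L) {cc : ℝ}
    (hcc : cst bb κ (1 / (ξ : ℝ) ^ 2) L ≤ cc) {v : ℝ} (hv : 0 < v)
    (hvar : v * ∑' h : Spec.V N → ℤ, W1T N b ξ h ≤
      ∑' h : Spec.V N → ℤ, W1T N b ξ h * (bav N p q L fun x => (h x : ℝ)) ^ 2) :
    ENNReal.ofReal (v ^ 2 / (1152 * cc ^ 2) / 2) * Ex (Spec.σ2 N b ξ hb 0) (fun _ _ => 1) ≤
      Ex (Spec.σ2 N b ξ hb 0) (fun x _ =>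
        ind (Real.sqrt (v / 2) ≤ (Spec.σ2 N b ξ hb 0).pr (bw1 N p q L) univ x)) := by
  classical
  have hLN : L ≤ N := (Nat.le_mul_of_pos_right _ (by positivity)).trans hn
  have hm0 : (0 : ℝ) < 1 / (ξ : ℝ) ^ 2 := by
    have : (0 : ℝ) < ξ := by exact_mod_cast hξ
    positivity
  have h1 := pz_box (s := tS (N := N)) (t := tT) (p := p) (q := q) hL κ (grid_tor N p q _) hn
    (b := fun _ => b) (fun _ => hb) (fun _ => hbb) (hb.trans hbb) (m := ms (ξ : ℝ)) hm0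
    (fun _ => le_rfl) hC hcc hv hvar
  have h2 := half_neg (N := N) hb ξ p q L
  set A := ∑' h : Spec.V N → ℤ, ENNReal.ofReal (W1T N b ξ h) *
    ind (Real.sqrt (v / 2) ≤ bav N p q L fun x => (h x : ℝ)) with hA
  set B := ∑' h : Spec.V N → ℤ, ENNReal.ofReal (W1T N b ξ h) *
      ind ((bav N p q L fun v => (h v : ℝ)) ≤ 0) with hB
  have h3 : ENNReal.ofReal (v ^ 2 / (1152 * cc ^ 2)) * Z1 N b ξ ≤ A := by
    refine h1.trans (le_of_eq (tsum_congr fun h => ?_))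
    congr 1
  rw [Ex_one_s2]
  have h4 : ENNReal.ofReal (v ^ 2 / (1152 * cc ^ 2) / 2) * (Z1 N b ξ * Z1 N b ξ) ≤ A * B := by
    have h5 : ENNReal.ofReal (v ^ 2 / (1152 * cc ^ 2) / 2) * 2 =
        ENNReal.ofReal (v ^ 2 / (1152 * cc ^ 2)) := by
      rw [show (2 : ℝ≥0∞) = ENNReal.ofReal 2 by simp, ← ENNReal.ofReal_mul (by positivity)]
      congr 1
      ring
    calc ENNReal.ofReal (v ^ 2 / (1152 * cc ^ 2) / 2) * (Z1 N b ξ * Z1 N b ξ)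
        ≤ ENNReal.ofReal (v ^ 2 / (1152 * cc ^ 2) / 2) * (Z1 N b ξ * (2 * B)) :=
          mul_le_mul_right (mul_le_mul_right h2 _) _
      _ = (ENNReal.ofReal (v ^ 2 / (1152 * cc ^ 2) / 2) * 2) * Z1 N b ξ * B := by ring
      _ = ENNReal.ofReal (v ^ 2 / (1152 * cc ^ 2)) * Z1 N b ξ * B := by rw [h5]
      _ ≤ A * B := mul_le_mul_left h3 _
  refine h4.trans ?_
  rw [hA, hB, ← Ex_s2 hb ξ (fun h => ind (Real.sqrt (v / 2) ≤ bav N p q L fun x => (h x : ℝ)))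
    (fun h => ind ((bav N p q L fun v => (h v : ℝ)) ≤ 0))]
  refine Ex_mono fun x om _ => ?_
  rw [ind_mul]
  refine ind_mono fun h => ?_
  rw [pr_s2 hb ξ hLN]
  linarith [h.1, h.2]

end pz

section geo

variable {N : ℕ} [NeZero N]

lemma vma_small {m : ℤ} (h1 : 0 ≤ m) (h2 : 2 * m ≤ N) :
    ((m : ZMod N)).valMinAbs.natAbs = m.natAbs := by
  obtain ⟨n, rfl⟩ := Int.eq_ofNat_of_zero_le h1
  have h3 : n ≤ N / 2 := by omega
  have h4 := ZMod.valMinAbs_natCast_of_le_half h3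
  push_cast at h4 ⊢
  rw [h4]

/-- every point of the torus is the image of an integer point -/
lemma pt_surj (x : Spec.V N) : ∃ p q : ℤ, pt N (p, q) = x := by
  refine ⟨(x.1.val : ℤ), (x.2.val : ℤ), ?_⟩
  unfold pt
  ext <;> simp

lemma sd_pt {p q : ℤ} {i j : ℤ} (hi : 0 ≤ i) (hj : 0 ≤ j) (hi2 : 2 * i ≤ N) (hj2 : 2 * j ≤ N) :
    sd (pt N (p, q)) (pt N (p + i, q + j)) = max i.natAbs j.natAbs := by
  unfold H459.sd H459.sn
  have h1 : pt N (p + i, q + j) - pt N (p, q) = ((i : ZMod N), (j : ZMod N)) := by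
    unfold pt
    ext <;> simp
  rw [h1, vma_small hi hi2, vma_small hj hj2]

end geo

/-- choice of the scale -/
lemma k_ex {c bb : ℝ} (hc : 0 < c) (hbb : 0 < bb) (A₁ : ℕ) : ∃ k : ℕ, 3 ≤ k ∧ A₁ ≤ 8 * 2 ^ k ∧
    Real.exp (-(1 * (Real.sqrt ((k : ℝ) / 8040 / 2) / 2))) * Real.exp (2 * bb * (1 ^ 2 * 3)) ≤
      c * (((k : ℝ) / 8040) ^ 2 / (1152 * (3 * ((k : ℝ) + 3) ^ 2 * bb + 2) ^ 2) / 2) / 2 := by
  set M : ℝ := 4 * 1152 * 16 * (3 * bb + 2) ^ 2 * 8040 ^ 2 * Real.exp (6 * bb) / c with hM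
  have hM0 : 0 < M := by positivity
  obtain ⟨k0, hk0⟩ := exists_nat_ge (M * (720 * 64320 ^ 3))
  refine ⟨max 3 (max A₁ k0), le_max_left _ _, ?_, ?_⟩
  · have h1 : A₁ ≤ max 3 (max A₁ k0) := (le_max_left _ _).trans (le_max_right _ _)
    have h2 : max 3 (max A₁ k0) < 2 ^ max 3 (max A₁ k0) := Nat.lt_two_pow_self
    omega
  · set k := max 3 (max A₁ k0) with hk
    have hk3 : (3 : ℝ) ≤ k := by
      have : 3 ≤ k := le_max_left _ _
      exact_mod_cast this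
    have hkk : (k0 : ℝ) ≤ k := by
      have : k0 ≤ k := (le_max_right _ _).trans (le_max_right _ _)
      exact_mod_cast this
    have hk0' : M * (720 * 64320 ^ 3) ≤ k := hk0.trans hkk
    have hkpos : (0 : ℝ) < k := by linarith
    set x : ℝ := Real.sqrt ((k : ℝ) / 8040 / 2) / 2 with hx
    have hx0 : 0 ≤ x := by positivity
    have hx2 : x ^ 2 = k / 64320 := by
      rw [hx, div_pow, Real.sq_sqrt (by positivity)]
      ring
    have hx6 : x ^ 6 = k ^ 3 / 64320 ^ 3 := by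
      calc x ^ 6 = (x ^ 2) ^ 3 := by ring
        _ = _ := by rw [hx2]; ring
    have h1 : x ^ 6 / 720 ≤ Real.exp x := by
      have := Real.pow_div_factorial_le_exp x hx0 6
      simpa [Nat.factorial] using this
    have h2 : M * (k : ℝ) ^ 2 ≤ Real.exp x := by
      refine le_trans ?_ h1
      rw [hx6, le_div_iff₀ (by norm_num), le_div_iff₀ (by positivity)]
      calc M * (k : ℝ) ^ 2 * 720 * 64320 ^ 3 = M * (720 * 64320 ^ 3) * (k : ℝ) ^ 2 := by ring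
        _ ≤ k * (k : ℝ) ^ 2 := mul_le_mul_of_nonneg_right hk0' (sq_nonneg _)
        _ = (k : ℝ) ^ 3 := by ring
    have h3 : (3 * ((k : ℝ) + 3) ^ 2 * bb + 2) ^ 2 ≤ 16 * (3 * bb + 2) ^ 2 * (k : ℝ) ^ 4 := by
      have h4 : ((k : ℝ) + 3) ^ 2 ≤ (2 * k) ^ 2 := by
        have : (k : ℝ) + 3 ≤ 2 * k := by linarith
        gcongr
      have h5 : 3 * ((k : ℝ) + 3) ^ 2 * bb + 2 ≤ (3 * bb + 2) * (2 * k) ^ 2 := by
        have h6 : (1 : ℝ) ≤ (2 * (k : ℝ)) ^ 2 := by nlinarith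
        nlinarith [mul_le_mul_of_nonneg_right h4 hbb.le]
      calc (3 * ((k : ℝ) + 3) ^ 2 * bb + 2) ^ 2 ≤ ((3 * bb + 2) * (2 * k) ^ 2) ^ 2 := by
            gcongr
        _ = 16 * (3 * bb + 2) ^ 2 * (k : ℝ) ^ 4 := by ring
    rw [one_mul, Real.exp_neg, inv_mul_le_iff₀ (Real.exp_pos _)]
    have e1 : 2 * bb * (1 ^ 2 * 3) = 6 * bb := by ring
    rw [e1]
    have h7 : Real.exp (6 * bb) = c * M * (k : ℝ) ^ 2 / (4 * 1152 * 8040 ^ 2 *
        (16 * (3 * bb + 2) ^ 2 * (k : ℝ) ^ 4)) * (k : ℝ) ^ 2 := by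
      rw [hM]
      field_simp
    have h8 : c * M * (k : ℝ) ^ 2 / (4 * 1152 * 8040 ^ 2 *
        (16 * (3 * bb + 2) ^ 2 * (k : ℝ) ^ 4)) * (k : ℝ) ^ 2 ≤ c * M * (k : ℝ) ^ 2 /
        (4 * 1152 * 8040 ^ 2 * (3 * ((k : ℝ) + 3) ^ 2 * bb + 2) ^ 2) * (k : ℝ) ^ 2 := by
      gcongr
    rw [h7]
    refine h8.trans ?_
    calc c * M * (k : ℝ) ^ 2 / (4 * 1152 * 8040 ^ 2 *
          (3 * ((k : ℝ) + 3) ^ 2 * bb + 2) ^ 2) * (k : ℝ) ^ 2
        = (M * (k : ℝ) ^ 2) * (c * (((k : ℝ) / 8040) ^ 2 /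
          (1152 * (3 * ((k : ℝ) + 3) ^ 2 * bb + 2) ^ 2) / 2) / 2) := by
          field_simp
          ring
      _ ≤ Real.exp x * (c * (((k : ℝ) / 8040) ^ 2 /
          (1152 * (3 * ((k : ℝ) + 3) ^ 2 * bb + 2) ^ 2) / 2) / 2) :=
          mul_le_mul_of_nonneg_right h2 (by positivity)


section main

variable {N : ℕ} [NeZero N] {b : ℝ}

lemma num_cst {bb : ℝ} (hbb0 : 0 < bb) {ξ k A r : ℕ} (hA : A = 8 * 2 ^ k) (hr4 : 4 ≤ r)
    (hξ0 : 0 < ξ) (hrA : r * A ≤ ξ) (hrA2 : ξ ≤ 2 * (r * A)) :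
    cst bb (k + 3) (1 / (ξ : ℝ) ^ 2) r ≤ 3 * ((k : ℝ) + 3) ^ 2 * bb + 2 ∧
      4 ≤ (r : ℝ) ^ 2 * cst bb (k + 3) (1 / (ξ : ℝ) ^ 2) r := by
  have hξR : (0 : ℝ) < ξ := by exact_mod_cast hξ0
  have hA0 : 0 < A := by rw [hA]; positivity
  have hrR : (0 : ℝ) < r := by
    have : 0 < r := by omega
    exact_mod_cast this
  have hAR : (0 : ℝ) < A := by exact_mod_cast hA0
  have hcst : cst bb (k + 3) (1 / (ξ : ℝ) ^ 2) r = 3 * ((k : ℝ) + 3) ^ 2 * bb +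
      (ξ : ℝ) ^ 2 / (2 * ((r : ℝ) * A) ^ 2) := by
    unfold cst
    push_cast
    congr 1
    have e1 : (r : ℝ) * 2 ^ (k + 3) = r * A := by
      rw [hA, pow_add]
      push_cast
      ring
    rw [e1]
    field_simp
  have hrAR : (r : ℝ) * A ≤ ξ := by exact_mod_cast hrA
  have hrA2R : (ξ : ℝ) ≤ 2 * ((r : ℝ) * A) := by exact_mod_cast hrA2
  have hrA0 : (0 : ℝ) < (r : ℝ) * A := by positivity
  have hup : (ξ : ℝ) ^ 2 / (2 * ((r : ℝ) * A) ^ 2) ≤ 2 := by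
    rw [div_le_iff₀ (by positivity)]
    nlinarith
  have hlo : (1 : ℝ) / 2 ≤ (ξ : ℝ) ^ 2 / (2 * ((r : ℝ) * A) ^ 2) := by
    rw [le_div_iff₀ (by positivity)]
    nlinarith
  rw [hcst]
  refine ⟨by linarith, ?_⟩
  have h1 : (4 : ℝ) ≤ r := by exact_mod_cast hr4
  have h3 : (16 : ℝ) ≤ (r : ℝ) ^ 2 := by nlinarith
  have h4 : (1 : ℝ) / 2 ≤ 3 * ((k : ℝ) + 3) ^ 2 * bb +
      (ξ : ℝ) ^ 2 / (2 * ((r : ℝ) * A) ^ 2) := by
    have : 0 ≤ 3 * ((k : ℝ) + 3) ^ 2 * bb := by positivity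
    linarith
  calc (4 : ℝ) ≤ 16 * (1 / 2) := by norm_num
    _ ≤ _ := mul_le_mul h3 h4 (by norm_num) (by positivity)

lemma num_mu {δ s : ℝ} (hs : 0 ≤ s) {ξ A r : ℕ} (hA0 : 0 < A) (hr0 : 0 < r)
    (hrA2 : ξ ≤ 2 * (r * A)) (hδ : δ = s / (8 * (A : ℝ) ^ 2)) :
    ((⌊δ * (ξ : ℝ) ^ 2⌋₊ : ℕ) : ℝ) * (1 / (r : ℝ) ^ 2) ≤ s / 2 := by
  have hAR : (0 : ℝ) < A := by exact_mod_cast hA0
  have hrR : (0 : ℝ) < r := by exact_mod_cast hr0
  have hrA2R : (ξ : ℝ) ≤ 2 * ((r : ℝ) * A) := by exact_mod_cast hrA2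
  have hδ0 : 0 ≤ δ * (ξ : ℝ) ^ 2 := by rw [hδ]; positivity
  have h3 : ((⌊δ * (ξ : ℝ) ^ 2⌋₊ : ℕ) : ℝ) ≤ δ * (ξ : ℝ) ^ 2 := Nat.floor_le hδ0
  have h4 : (ξ : ℝ) ^ 2 ≤ (2 * ((r : ℝ) * A)) ^ 2 := by gcongr
  calc ((⌊δ * (ξ : ℝ) ^ 2⌋₊ : ℕ) : ℝ) * (1 / (r : ℝ) ^ 2)
      ≤ δ * (ξ : ℝ) ^ 2 * (1 / (r : ℝ) ^ 2) := mul_le_mul_of_nonneg_right h3 (by positivity)
    _ ≤ δ * (2 * ((r : ℝ) * A)) ^ 2 * (1 / (r : ℝ) ^ 2) := by
        refine mul_le_mul_of_nonneg_right (mul_le_mul_of_nonneg_left h4 ?_) (by positivity)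
        rw [hδ]
        positivity
    _ = s / 2 := by
        rw [hδ]
        field_simp
        ring

lemma bw1_nonneg (p q : ℤ) (r : ℕ) (v : Spec.V N) : 0 ≤ bw1 N p q r v := by
  unfold bw1
  split_ifs
  · positivity
  · exact le_rfl

lemma bw1_le (p q : ℤ) (r : ℕ) (v : Spec.V N) : bw1 N p q r v ≤ 1 / (r : ℝ) ^ 2 := by
  unfold bw1
  split_ifs
  · exact le_rfl
  · positivity

lemma pt_rel (p q : ℤ) (z : ℤ × ℤ) : pt N z = pt N (p + (z.1 - p), q + (z.2 - q)) := by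
  congr 1
  ext <;> simp

/-- a box outside a ball, or inside -/
lemma bw1_off {p q : ℤ} {d r : ℕ} {P : ℕ → Prop} (hd : 2 * (d + r) ≤ N)
    (hP : ∀ n, d ≤ n → n < d + r → P n) (v : Spec.V N)
    (hv : ¬ P (sd (pt N (p, q)) v)) : bw1 N (p + (d : ℤ)) q r v = 0 ∨ d < r := by
  by_cases hdr : d < r
  · exact Or.inr hdr
  left
  unfold bw1
  rw [if_neg]
  intro h
  rw [mem_image] at h
  obtain ⟨z, hz, rfl⟩ := h
  apply hv
  rw [Bx, mem_product, mem_Ico, mem_Ico] at hz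
  rw [pt_rel p q z, sd_pt (by omega) (by omega) (by omega) (by omega)]
  refine hP _ ?_ ?_ <;> omega

/-- the mass lemma at one scale -/
theorem mass_one (hb : 0 < b) {bb : ℝ} (hbb : b ≤ bb) {ξ : ℕ} {k A r : ℕ} (hk : 3 ≤ k)
    (hA : A = 8 * 2 ^ k) (hr : r = ξ / A) (hξA : 4 * A ≤ ξ) {K : ℕ} (hK : 8 ≤ K)
    (hN : N = K * ξ) {W : ℝ} (hW : 8 * 2 ^ k ≤ W) (h2 : H2 10 W (ξ : ℝ) (H41.G b N ξ))
    {c : ℝ} (hc : 0 < c) (x0 : Spec.V N)
    (hO : ENNReal.ofReal c * Ex (Spec.σ2 N b ξ hb.le 0) (fun _ _ => 1) ≤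
      Ex (Spec.σ2 N b ξ hb.le 0) (fun x om => ind (Spec.OT 0 r x0 x om)))
    {v cc δ : ℝ} (hv : v = (k : ℝ) / 8040) (hcc : cc = 3 * ((k : ℝ) + 3) ^ 2 * bb + 2)
    (hδ : δ = Real.sqrt (v / 2) / (8 * (A : ℝ) ^ 2))
    (hkc : Real.exp (-(1 * (Real.sqrt (v / 2) / 2))) * Real.exp (2 * bb * (1 ^ 2 * 3)) ≤
      c * (v ^ 2 / (1152 * cc ^ 2) / 2) / 2) :
    ENNReal.ofReal (c * (v ^ 2 / (1152 * cc ^ 2) / 2) / 2) *
      Ex (Spec.σ2 N b ξ hb.le 0) (fun _ _ => 1) ≤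
      Ex (Spec.σ2 N b ξ hb.le 0)
        (fun x om => ind (Spec.OT ⌊δ * (ξ : ℝ) ^ 2⌋₊ r x0 x om)) := by
  classical
  have hbb0 : 0 < bb := lt_of_lt_of_le hb hbb
  have hA0 : 0 < A := by rw [hA]; positivity
  have hξ0 : 0 < ξ := by omega
  have hξR : (0 : ℝ) < ξ := by exact_mod_cast hξ0
  have hr4 : 4 ≤ r := by
    rw [hr, Nat.le_div_iff_mul_le hA0]
    omega
  have hrR : (0 : ℝ) < r := by
    have : 0 < r := by omega
    exact_mod_cast this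
  have hrA : r * A ≤ ξ := by
    rw [hr]
    exact Nat.div_mul_le_self _ _
  have hrA2 : ξ ≤ 2 * (r * A) := by
    have h1 : ξ < A * (ξ / A + 1) := Nat.lt_mul_div_succ ξ hA0
    rw [← hr] at h1
    nlinarith
  have hA64 : 64 ≤ A := by
    rw [hA]
    have : 2 ^ 3 ≤ 2 ^ k := Nat.pow_le_pow_right (by norm_num) hk
    omega
  have hNξ : 8 * ξ ≤ N := by
    rw [hN]
    exact Nat.mul_le_mul_right _ hK
  have hr64 : 64 * r ≤ ξ := by
    calc 64 * r ≤ A * r := Nat.mul_le_mul_right _ hA64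
      _ = r * A := mul_comm _ _
      _ ≤ ξ := hrA
  obtain ⟨p, q, hpq⟩ := pt_surj x0
  have hv0 : 0 < v := by
    rw [hv]
    have : (0 : ℝ) < k := by
      have : 0 < k := by omega
      exact_mod_cast this
    positivity
  -- variance
  have hvar := var_tor (N := N) hb.le (C2 := 10) (by norm_num) (by omega : 1 ≤ ξ) hN hW h2
    (L := r) (by omega) (by
      calc 8 * 2 ^ k * r = r * A := by rw [hA]; ring
        _ ≤ ξ := hrA) p q
  have hvar' : v * ∑' h : Spec.V N → ℤ, W1T N b ξ h ≤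
      ∑' h : Spec.V N → ℤ, W1T N b ξ h * (bav N p q r fun x => (h x : ℝ)) ^ 2 := by
    have e1 : (k : ℝ) / (804 * 10) = v := by rw [hv]; norm_num
    rw [e1] at hvar
    exact hvar
  -- constants of the Paley Zygmund step
  obtain ⟨hcc1, hC4⟩ := num_cst hbb0 hA hr4 hξ0 hrA hrA2
  rw [← hcc] at hcc1
  have hn : r * 2 ^ (k + 3) ≤ N := by
    calc r * 2 ^ (k + 3) = r * A := by rw [hA, pow_add]; ring
      _ ≤ ξ := hrA
      _ ≤ N := by omega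
  have hq := pz_two (N := N) hb.le hbb hξ0 (p := p) (q := q) (L := r) (by omega) (k + 3) hn hC4
    hcc1 hv0 hvar'
  -- exponential moments
  have hKm := mgf_diff2 (N := N) hb.le hξ0 p q (d := 3 * r) (L := r) (by omega) (by omega)
    (by omega) (θ := 1) (by
      rw [abs_one]
      have : (4 : ℝ) ≤ r := by exact_mod_cast hr4
      linarith)
  have hKm' : Ex (Spec.σ2 N b ξ hb.le 0) (fun x _ => ENNReal.ofReal (Real.exp
      ((Spec.σ2 N b ξ hb.le 0).pr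
        (fun v => 1 * (bw1 N p q r v - bw1 N (p + (3 * r : ℕ)) q r v)) univ x))) ≤
      ENNReal.ofReal (Real.exp (2 * bb * (1 ^ 2 * 3))) *
        Ex (Spec.σ2 N b ξ hb.le 0) fun _ _ => 1 := by
    refine hKm.trans (mul_le_mul_left (ENNReal.ofReal_le_ofReal (Real.exp_le_exp.2 ?_)) _)
    have e1 : (((3 * r : ℕ) : ℝ)) / r = 3 := by
      push_cast
      field_simp
    rw [e1]
    nlinarith
  -- geometry
  have hnb : ∀ y ∈ ball x0 (2 * r), ∀ z, Adj (tS (N := N)) tT univ y z → z ∈ ball x0 (4 * r) := by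
    intro y hy z hz
    rw [mem_ball] at hy ⊢
    have h3 := H459.sd_tri x0 y z
    have h4 := H459.sd_adj hz
    omega
  have hβ1 : ∀ v, v ∉ ball x0 r → bw1 N p q r v = 0 := by
    intro v hv
    unfold bw1
    rw [if_neg]
    intro h
    rw [mem_image] at h
    obtain ⟨z, hz, rfl⟩ := h
    apply hv
    rw [Bx, mem_product, mem_Ico, mem_Ico] at hz
    rw [mem_ball, ← hpq]
    rw [pt_rel p q z, sd_pt (by omega) (by omega) (by omega) (by omega)]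
    omega
  have hγ : ∀ v ∈ ball x0 (2 * r), bw1 N (p + (3 * r : ℕ)) q r v = 0 := by
    intro v hv
    rw [mem_ball, ← hpq] at hv
    rcases bw1_off (N := N) (p := p) (q := q) (d := 3 * r) (r := r)
      (P := fun n => 2 * r < n) (by omega) (fun n h1 _ => by omega) v (by omega) with h | h
    · exact h
    · omega
  have hβ0 : ∀ v, 0 ≤ bw1 N p q r v := bw1_nonneg p q r
  have hβs : ∀ v, bw1 N p q r v ≤ 1 / (r : ℝ) ^ 2 := bw1_le p q r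
  have hμ := num_mu (Real.sqrt_nonneg (v / 2)) hA0 (by omega : 0 < r) hrA2 hδ
  have main := H58.mass_abs (H857.fk_T (N := N) hb hξ0 0) (B1 := ball x0 r)
    (B2 := ball x0 (2 * r)) (B4 := ball x0 (4 * r)) (H459.ball_mono (by omega))
    (H459.ball_mono (by omega)) hnb hβ0 hβ1 hγ (H := Real.sqrt (v / 2)) hβs (by positivity) hμ
    (p := ENNReal.ofReal c) (q := ENNReal.ofReal (v ^ 2 / (1152 * cc ^ 2) / 2)) (θ := 1)
    (K := Real.exp (2 * bb * (1 ^ 2 * 3))) (by norm_num) hO hq hKm'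
  set Z := Ex (Spec.σ2 N b ξ hb.le 0) (fun _ _ => 1) with hZ
  have hZt : Z ≠ ∞ := (H857.fk_T (N := N) hb hξ0 0).Zt
  have h5 : ENNReal.ofReal c * ENNReal.ofReal (v ^ 2 / (1152 * cc ^ 2) / 2) * Z =
      ENNReal.ofReal (c * (v ^ 2 / (1152 * cc ^ 2) / 2) / 2) * Z +
      ENNReal.ofReal (c * (v ^ 2 / (1152 * cc ^ 2) / 2) / 2) * Z := by
    rw [← add_mul, ← ENNReal.ofReal_add (by positivity) (by positivity),
      ← ENNReal.ofReal_mul hc.le]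
    congr 2
    ring
  rw [h5] at main
  have h6 : ENNReal.ofReal (Real.exp (-(1 * (Real.sqrt (v / 2) / 2))) *
      Real.exp (2 * bb * (1 ^ 2 * 3))) * Z ≤
      ENNReal.ofReal (c * (v ^ 2 / (1152 * cc ^ 2) / 2) / 2) * Z :=
    mul_le_mul_left (ENNReal.ofReal_le_ofReal hkc) _
  have h7 := main.trans (add_le_add le_rfl h6)
  exact (ENNReal.add_le_add_iff_right (ENNReal.mul_ne_top ENNReal.ofReal_ne_top hZt)).1 h7

/-- **ROW R8: circuits give circuits with mass** -/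
theorem a6_of {b1 b2 a : ℝ} (hb1 : 0 < b1) (h : H58.Circ b1 b2 a) : Spec.ThmA6 b1 b2 a := by
  obtain ⟨c, hc, A₁, h⟩ := h
  set bb : ℝ := |b2| + 1 with hbb
  have hbb0 : 0 < bb := by positivity
  obtain ⟨k, hk3, hkA, hkc⟩ := k_ex hc hbb0 A₁
  obtain ⟨W₀, h⟩ := h (8 * 2 ^ k) hkA
  refine ⟨max W₀ (8 * 2 ^ k), fun W hW => ?_⟩
  obtain ⟨ys, X, hys, h⟩ := h W ((le_max_left _ _).trans hW)
  set A : ℕ := 8 * 2 ^ k with hA
  set v : ℝ := (k : ℝ) / 8040 with hv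
  set cc : ℝ := 3 * ((k : ℝ) + 3) ^ 2 * bb + 2 with hcc
  have hk0 : (0 : ℝ) < k := by
    have : 0 < k := by omega
    exact_mod_cast this
  have hv0 : 0 < v := by positivity
  have hcc0 : 0 < cc := by positivity
  have hA0 : (0 : ℝ) < A := by
    have : 0 < A := by positivity
    exact_mod_cast this
  have hA64 : 64 ≤ A := by
    rw [hA]
    have : 2 ^ 3 ≤ 2 ^ k := Nat.pow_le_pow_right (by norm_num) hk3
    omega
  have hs0 : 0 < Real.sqrt (v / 2) := Real.sqrt_pos.2 (by positivity)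
  refine ⟨c * (v ^ 2 / (1152 * cc ^ 2) / 2) / 2, Real.sqrt (v / 2) / (8 * (A : ℝ) ^ 2), ys, A,
    max X (4 * A), by positivity, by positivity, hys, by omega, by omega, ?_⟩
  intro N _ b hb ξ y R x0
  have hb0 : 0 < b := lt_of_lt_of_le hb1 R.hb1
  have hbbb : b ≤ bb := R.hb2.trans ((le_abs_self b2).trans (by rw [hbb]; linarith))
  have hX : max X (4 * A) ≤ ξ := R.hX
  have hX' : X ≤ ξ := (le_max_left _ _).trans hX
  have hξA : 4 * A ≤ ξ := (le_max_right _ _).trans hX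
  have hξ0 : 0 < ξ := by omega
  have R' : Spec.Rng b1 b2 a W ys X N b ξ y := ⟨R.hb1, R.hb2, hX',
    (Nat.mul_le_mul_right _ (le_max_left _ _)).trans R.hK, R.hd, R.y0, R.y1, R.hyp⟩
  have hc1 := h N b hb ξ y R' x0
  obtain ⟨K, hK⟩ := R.hd
  have hK8 : 8 ≤ K := by
    have h1 : 4 * A * ξ ≤ N := (Nat.mul_le_mul_right _ (le_max_right X (4 * A))).trans R.hK
    rw [hK, mul_comm ξ K] at h1
    have h2 := Nat.le_of_mul_le_mul_right h1 hξ0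
    omega
  have M := H857.fk_T (N := N) hb0 hξ0 0
  set Z := Ex (Spec.σ2 N b ξ hb 0) (fun _ _ => 1) with hZ
  have hO : ENNReal.ofReal c * Z ≤
      Ex (Spec.σ2 N b ξ hb 0) (fun x om => ind (Spec.OT 0 (ξ / A) x0 x om)) := by
    have hle : Ex (Spec.σ2 N b ξ hb 0) (fun x om => ind (Spec.OT 0 (ξ / A) x0 x om)) ≤ Z :=
      Ex_mono fun x om _ => ind_le_one _
    have hne : Ex (Spec.σ2 N b ξ hb 0) (fun x om => ind (Spec.OT 0 (ξ / A) x0 x om)) / Z ≠ ∞ :=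
      ne_top_of_le_ne_top ENNReal.one_ne_top (ENNReal.div_le_of_le_mul (by rwa [one_mul]))
    have h3 := (ENNReal.ofReal_le_iff_le_toReal hne).2 hc1
    rw [ENNReal.le_div_iff_mul_le (Or.inl M.Z0) (Or.inl M.Zt)] at h3
    exact h3
  have hW8 : (8 : ℝ) * 2 ^ k ≤ W := by
    have := (le_max_right W₀ (8 * 2 ^ k)).trans hW
    exact this
  have h2 : H2 10 W (ξ : ℝ) (H41.G b N ξ) := R.hyp.h2
  have key := mass_one (N := N) hb0 hbbb hk3 hA rfl hξA hK8 (hK.trans (mul_comm _ _)) hW8 h2 hc x0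
    hO hv hcc rfl hkc
  unfold Spec.PO
  have hne : Ex (Spec.σ2 N b ξ hb 0) (fun x om => ind (Spec.OT
      ⌊Real.sqrt (v / 2) / (8 * (A : ℝ) ^ 2) * (ξ : ℝ) ^ 2⌋₊ (ξ / A) x0 x om)) / Z ≠ ∞ :=
    ne_top_of_le_ne_top ENNReal.one_ne_top (ENNReal.div_le_of_le_mul (by
      rw [one_mul]
      exact Ex_mono fun x om _ => ind_le_one _))
  refine (ENNReal.ofReal_le_iff_le_toReal hne).1 ?_
  rw [ENNReal.le_div_iff_mul_le (Or.inl M.Z0) (Or.inl M.Zt)]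
  exact key

end main

end Vale.Agent.P159.TM.H352
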