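import Vale.Agent.P159.TM.H352.Mom

/-! # Moments of the block masses from exponential moments (row A34I, helper352) -/

open scoped ENNReal NNReal BigOperators
open Finset

set_option linter.unusedSectionVars false
set_option linter.unusedDecidableInType false

namespace Vale.Agent.P159.TM.H352

open Vale.Agent.P159.TM.H60 Vale.Agent.P159.TM.H459 Vale.Agent.P159.TM.H576

lemma pow_even_le_exp (t : ℝ) (m : ℕ) :
    t ^ (2 * m) ≤ (Nat.factorial (2 * m) : ℕ) * (Real.exp t + Real.exp (-t)) := by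
  have hf : (0 : ℝ) < (Nat.factorial (2 * m) : ℕ) := by exact_mod_cast Nat.factorial_pos _
  have h1 := Real.pow_div_factorial_le_exp |t| (abs_nonneg t) (2 * m)
  rw [div_le_iff₀ hf, (even_two_mul m).pow_abs] at h1
  have h2 : Real.exp |t| ≤ Real.exp t + Real.exp (-t) := by
    rcases abs_choice t with h | h <;> rw [h]
    · linarith [Real.exp_pos (-t)]
    · linarith [Real.exp_pos t]
  nlinarith

section
variable {V E S : Type*} [Fintype V] [DecidableEq V] [Fintype E] [DecidableEq E] {σ : Sys V E S}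

/-- functions of the configuration -/
lemma Ex_conf (F : (V → S) → ℝ≥0∞) :
    Ex σ (fun x _ => F x) = ∑' x, ENNReal.ofReal (σ.tot x) * F x := by
  unfold Ex
  refine tsum_congr fun x => ?_
  rw [← Finset.sum_mul, ← ENNReal.ofReal_sum_of_nonneg (fun om _ => σ.wt_nonneg om x), σ.sum_wt]

lemma Ex_one_eq : Ex σ (fun _ _ => 1) = ∑' x, ENNReal.ofReal (σ.tot x) := by
  rw [Ex_conf (F := fun _ => 1)]; simp

/-- even moments from exponential moments -/
theorem Ex_pow_le (g : V → ℝ) (m : ℕ) {Z K : ℝ≥0∞}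
    (h1 : ∑' x, ENNReal.ofReal (σ.tot x * Real.exp (σ.pr g univ x)) ≤ K * Z)
    (h2 : ∑' x, ENNReal.ofReal (σ.tot x * Real.exp (σ.pr (fun v => -g v) univ x)) ≤ K * Z) :
    Ex σ (fun x _ => ENNReal.ofReal ((σ.pr g univ x) ^ (2 * m))) ≤
      2 * (Nat.factorial (2 * m) : ℕ) * K * Z := by
  rw [Ex_conf]
  have hneg : ∀ x, σ.pr (fun v => -g v) univ x = -σ.pr g univ x := by
    intro x
    unfold Sys.pr
    rw [← Finset.sum_neg_distrib]
    exact Finset.sum_congr rfl fun v _ => by ring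
  have h : ∀ x, ENNReal.ofReal (σ.tot x) * ENNReal.ofReal ((σ.pr g univ x) ^ (2 * m)) ≤
      (Nat.factorial (2 * m) : ℕ) * (ENNReal.ofReal (σ.tot x * Real.exp (σ.pr g univ x)) +
        ENNReal.ofReal (σ.tot x * Real.exp (σ.pr (fun v => -g v) univ x))) := by
    intro x
    have ht := σ.tot_nonneg x
    rw [← ENNReal.ofReal_mul ht, ← ENNReal.ofReal_natCast, ← ENNReal.ofReal_add
      (mul_nonneg ht (Real.exp_pos _).le) (mul_nonneg ht (Real.exp_pos _).le),
      ← ENNReal.ofReal_mul (by positivity)]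
    apply ENNReal.ofReal_le_ofReal
    rw [hneg]
    have := mul_le_mul_of_nonneg_left (pow_even_le_exp (σ.pr g univ x) m) ht
    linarith
  calc _ ≤ ∑' x, (Nat.factorial (2 * m) : ℕ) *
        (ENNReal.ofReal (σ.tot x * Real.exp (σ.pr g univ x)) +
        ENNReal.ofReal (σ.tot x * Real.exp (σ.pr (fun v => -g v) univ x))) :=
        ENNReal.tsum_le_tsum h
    _ = (Nat.factorial (2 * m) : ℕ) *
        (∑' x, ENNReal.ofReal (σ.tot x * Real.exp (σ.pr g univ x)) +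
        ∑' x, ENNReal.ofReal (σ.tot x * Real.exp (σ.pr (fun v => -g v) univ x))) := by
        rw [ENNReal.tsum_mul_left, ENNReal.tsum_add]
    _ ≤ (Nat.factorial (2 * m) : ℕ) * (K * Z + K * Z) := by gcongr
    _ = _ := by ring

end

section gas
variable {N n : ℕ} [NeZero N] [NeZero n] {S : Type*}
variable {σ : Sys (TV N) (TE N) S} {hs : σ.s = tS} {ht : σ.t = tT} {ε : ℝ≥0}
  {l : ℕ} {hl : 0 < l} {hN : N = n * l}

/-- the block test function -/
noncomputable def bf (N n l : ℕ) [NeZero N] (ε : ℝ) (b : ZMod n × ZMod n) (v : TV N) : ℝ :=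
  if bk n l v = b then ε else 0

lemma pa_bf (b : ZMod n × ZMod n) (x : TV N → S) (C : Finset (TV N)) :
    (ε : ℝ≥0∞) * ∑ z ∈ C.filter (fun z => bk n l z = b), ((σ.d (x z)).natAbs : ℝ≥0∞) =
      ENNReal.ofReal (σ.pa (bf N n l (ε : ℝ) b) C x) := by
  unfold Sys.pa bf Sys.D
  have h1 : ∑ v ∈ C, (if bk n l v = b then (ε : ℝ) else 0) * |(σ.d (x v) : ℝ)| =
      (ε : ℝ) * ∑ z ∈ C.filter (fun z => bk n l z = b), ((σ.d (x z)).natAbs : ℝ) := by
    rw [Finset.mul_sum, Finset.sum_filter]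
    refine Finset.sum_congr rfl fun v _ => ?_
    rw [Nat.cast_natAbs, Int.cast_abs]
    split_ifs <;> simp
  rw [h1, ENNReal.ofReal_mul (NNReal.coe_nonneg ε), ENNReal.ofReal_coe_nnreal,
    ENNReal.ofReal_sum_of_nonneg (fun _ _ => Nat.cast_nonneg _)]
  simp only [ENNReal.ofReal_natCast]

/-- exponential moments of the block averages -/
def EMB (σ : Sys (TV N) (TE N) S) (n l : ℕ) (ε : ℝ≥0) (K : ℝ≥0∞) : Prop :=
  ∀ b : ZMod n × ZMod n,
    ∑' x, ENNReal.ofReal (σ.tot x * Real.exp (σ.pr (bf N n l (ε : ℝ) b) univ x)) ≤ K * ZZ σ ∧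
    ∑' x, ENNReal.ofReal (σ.tot x * Real.exp (σ.pr (fun v => -bf N n l (ε : ℝ) b v) univ x)) ≤
      K * ZZ σ

theorem mom_gas {K : ℝ≥0∞} (hE : EMB σ n l ε K) (h0 : ZZ σ ≠ 0) (h1 : ZZ σ ≠ ∞)
    (b : ZMod n × ZMod n) {m : ℕ} (hm : m ≠ 0) :
    H352.S (gas σ hs ht ε hl hN).p (fun i => (gas σ hs ht ε hl hN).X i b ^ (2 * m)) ≤
      2 * (Nat.factorial (2 * m) : ℕ) * K := by
  rw [S_gas]
  have e1 : Ex σ (fun x om => ∑ C ∈ cluss σ.s σ.t om,
      (gas σ hs ht ε hl hN).X (om, x, C) b ^ (2 * m)) =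
      Ex σ (fun x om => ∑ C ∈ cluss σ.s σ.t om,
        ENNReal.ofReal ((σ.pa (bf N n l (ε : ℝ) b) C x) ^ (2 * m))) := by
    refine Ex_congr fun x om _ => Finset.sum_congr rfl fun C hC => ?_
    rw [gas_X hC, pa_bf, ENNReal.ofReal_pow]
    exact σ.pa_nonneg (fun v => by unfold bf; split_ifs <;> simp) C x
  rw [e1]
  have e2 := (mom_le σ (bf N n l (ε : ℝ) b) hm).trans
    (Ex_pow_le (bf N n l (ε : ℝ) b) m (hE b).1 (hE b).2)
  calc (ZZ σ)⁻¹ * _ ≤ (ZZ σ)⁻¹ * (2 * (Nat.factorial (2 * m) : ℕ) * K * ZZ σ) := by gcongr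
    _ = (ZZ σ)⁻¹ * ZZ σ * (2 * (Nat.factorial (2 * m) : ℕ) * K) := by ring
    _ = _ := by rw [ENNReal.inv_mul_cancel h0 h1, one_mul]

end gas

end Vale.Agent.P159.TM.H352
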