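import Vale.Agent.P159.TM.H77.Win
import Vale.Agent.P159.TM.H146.Num
import Vale.Agent.P159.TM.H285.Up
import Vale.Agent.P159.TM.H285.Circ
import Vale.Agent.P159.TM.H352.Mass

/-!
Row R6, last binding (helper352, spare source): the free arms of the torus law in the window, and
A6.
-/

open Finset
open scoped ENNReal

set_option linter.unusedSectionVars false

namespace Vale.Agent.P159.TM.H352

open Vale.Agent.P159 Vale.Agent.P159.H353
open Vale.Agent.P159.TM.H60 Vale.Agent.P159.TM.H504 Vale.Agent.P159.TM.H312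
open Vale.Agent.P159.TM.H426 Vale.Agent.P159.TM.H576 Vale.Agent.P159.TM.H77
open Vale.Agent.P159.TM.H459 (tS tT ball sd sn)

/-- the free arms -/
theorem armTor {b1 b2 a : ℝ} (hb1 : 0 < b1) : H285.ArmTorW b1 b2 a := by
  classical
  set bb : ℝ := |b2| + 1 with hbb
  have hbb0 : 0 < bb := by positivity
  obtain ⟨K4, C1, hK4, hC1, hwin⟩ := win (C2 := 10) (by norm_num) hbb0
  obtain ⟨A₁, hA₁, hwin⟩ := hwin (2 * C1)
  refine ⟨1 / (32 * K4), by positivity, A₁, fun A hA => ⟨(A : ℝ), fun W hW => ⟨1, 6, one_pos, ?_⟩⟩⟩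
  intro N _ b hb ξ hξ y R t ht h1 h2
  have hA0 : 0 < A := by omega
  obtain ⟨n, rfl⟩ := Int.eq_ofNat_of_zero_le (by omega : 0 ≤ t)
  have ht1 : 1 ≤ n := by omega
  have h1' : ξ / A ≤ 200 * n := by omega
  have h2' : n ≤ ξ / A := by omega
  have hup : A * n ≤ ξ := by
    rw [mul_comm]
    exact (Nat.le_div_iff_mul_le hA0).1 h2'
  have hlo : ξ ≤ 10001 * A * n := by
    have h3 : ξ < A * (ξ / A + 1) := Nat.lt_mul_div_succ ξ hA0
    have h4 : A * (ξ / A + 1) ≤ A * (200 * n + 1) := Nat.mul_le_mul_left _ (by omega)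
    have h5 : A * (200 * n + 1) ≤ 10001 * A * n := by nlinarith
    omega
  obtain ⟨K, hK⟩ := R.hd
  have hK6 : 6 ≤ K := by
    have h3 := R.hK
    rw [hK, mul_comm ξ K] at h3
    exact Nat.le_of_mul_le_mul_right h3 hξ
  have hbbb : b ≤ bb := R.hb2.trans ((le_abs_self b2).trans (by rw [hbb]; linarith))
  have h2w : H764.H2 10 W (ξ : ℝ) (Spec.GT N b ξ) := R.hyp.h2
  obtain ⟨V, hV0, hV, s0, s2, s4, sI, e2, e4, eI⟩ := hwin A hA N b hb.le hbbb ξ K n W hW ht1 hup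
    hlo (by omega) (hK.trans (mul_comm _ _)) h2w 0 0
  have hnξ : n ≤ ξ := (Nat.le_mul_of_pos_left _ hA0).trans hup
  have hN6 : 6 * n ≤ N := by
    calc 6 * n ≤ K * ξ := Nat.mul_le_mul hK6 hnξ
      _ = N := by rw [hK]; ring
  have hdis : Disjoint ((Bx 0 0 n).image (pt N)) ((Bx (0 + 3 * (n : ℤ)) 0 n).image (pt N)) := by
    rw [Finset.disjoint_left]
    intro v hv hv'
    rw [mem_image] at hv hv'
    obtain ⟨z, hz, rfl⟩ := hv
    obtain ⟨z', hz', h⟩ := hv'
    have h3 := congrArg Prod.fst h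
    rw [Bx, mem_product, mem_Ico, mem_Ico] at hz hz'
    have h4 : z'.1 = z.1 := cast_inj_Ico (p := 0) (6 * n) hN6 (by
      rw [mem_Ico]; push_cast; omega) (by rw [mem_Ico]; push_cast; omega) h3
    omega
  have key := H146.arm_num (N := N) hb.le ht1 (by omega) hdis hV hK4 hV0 s0 s2 s4 sI e2 e4 eI
  set Z := Ex (Spec.σ2 N b ξ hb.le 0) (fun _ _ => 1) with hZ
  have M := H857.fk_T (N := N) hb hξ 0
  set J := Ex (Spec.σ2 N b ξ hb.le 0) (fun x om => ind (Joins H459.tS H459.tT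
        (plus (Spec.σ2 N b ξ hb.le 0) x om) ((Bx 0 0 n).image (pt N))
          ((Bx (0 + 3 * (n : ℤ)) 0 n).image (pt N)))) with hJ
  have hJe : J ≤ eQ N b ξ hb.le 0 (H121.Out (n : ℤ)) := by
    refine Ex_mono fun x om _ => ind_mono fun h => ?_
    refine H285.out_of_joins (N := N) ht1 hN6 ?_ ?_
    · intro e he
      exact plus_pos (σ := Spec.σ2 N b ξ hb.le 0) he
    · rw [zero_add] at h
      exact h
  have hle : eQ N b ξ hb.le 0 (H121.Out (n : ℤ)) ≤ Z :=
    Ex_mono fun x om _ => ind_le_one _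
  have hne : eQ N b ξ hb.le 0 (H121.Out (n : ℤ)) / Z ≠ ∞ :=
    ne_top_of_le_ne_top ENNReal.one_ne_top (ENNReal.div_le_of_le_mul (by rwa [one_mul]))
  show 1 / (32 * K4) ≤ pQ N b ξ hb.le 0 (H121.Out (n : ℤ))
  unfold pQ
  refine (ENNReal.ofReal_le_iff_le_toReal hne).1 ?_
  rw [ENNReal.le_div_iff_mul_le (Or.inl M.Z0) (Or.inl M.Zt)]
  calc ENNReal.ofReal (1 / (32 * K4)) * Z
      ≤ ENNReal.ofReal (1 / (32 * K4)) * (ENNReal.ofReal (32 * K4) * J) := mul_le_mul_right key _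
    _ = J := by
        rw [← mul_assoc, ← ENNReal.ofReal_mul (by positivity)]
        rw [show 1 / (32 * K4) * (32 * K4) = 1 by field_simp, ENNReal.ofReal_one, one_mul]
    _ ≤ _ := hJe

/-- **A6**: circuits with mass, unconditional -/
theorem a6 {b1 : ℝ} (hb1 : 0 < b1) (b2 a : ℝ) : Spec.ThmA6 b1 b2 a :=
  a6_of hb1 (H285.circ_arm hb1 (armTor hb1))

end Vale.Agent.P159.TM.H352
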