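import Vale.Agent.P159.TM.H352.GFat
import Vale.Agent.P159.TM.Spec.Tor

/-! # From the gas to `WF`, `XF` of `Spec/Tor.lean` (row A34I, helper352) -/

open scoped ENNReal NNReal BigOperators
open Finset

set_option linter.unusedSectionVars false
set_option linter.unusedDecidableInType false

namespace Vale.Agent.P159.TM.H352

open Vale.Agent.P159.TM.H60 Vale.Agent.P159.TM.H459 Vale.Agent.P159.TM.H576

section
variable {N n : ℕ} [NeZero N] [NeZero n] {S : Type*}
variable {σ : Sys (TV N) (TE N) S} {hs : σ.s = tS} {ht : σ.t = tT} {ε : ℝ≥0}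
  {l : ℕ} {hl : 0 < l} {hN : N = n * l}

lemma ind_eq (p : Prop) : H352.ind p = H576.ind p := by
  unfold H352.ind H576.ind; rfl

/-- blocks visited by the mass `m` -/
def vs (n l : ℕ) (m : TV N → ℕ) (c : ZMod n × ZMod n) : Prop := ∃ z, bk n l z = c ∧ m z ≠ 0

/-- pair functional -/
noncomputable def pf (σ : Sys (TV N) (TE N) S) (n l : ℕ) [NeZero n] (b b' : ZMod n × ZMod n)
    (P : (ZMod n × ZMod n → Prop) → Prop) (x : TV N → S) (om : Finset (TE N)) : ℝ≥0∞ :=
  ∑ u ∈ blk N n l b, ∑ v ∈ blk N n l b', ((mf σ x om u u * mf σ x om u v : ℕ) : ℝ≥0∞) *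
    H352.ind (P (vs n l (mf σ x om u)))

variable {b b' β : ZMod n × ZMod n} {P : (ZMod n × ZMod n → Prop) → Prop}

/-- **the pair functional in the gas** -/
theorem Ex_pf (h0 : ZZ σ ≠ 0) (h1 : ZZ σ ≠ ∞) :
    (ε : ℝ≥0∞) ^ 2 * Ex σ (pf σ n l b b' P) =
      ZZ σ * H352.S (gas σ hs ht ε hl hN).p (fun i =>
        H352.ind (P fun c => c ∈ (gas σ hs ht ε hl hN).vis i) *
        ((gas σ hs ht ε hl hN).X i b * (gas σ hs ht ε hl hN).X i b')) := by
  classical
  have e1 : H352.S (gas σ hs ht ε hl hN).p (fun i =>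
      H352.ind (P fun c => c ∈ (gas σ hs ht ε hl hN).vis i) *
        ((gas σ hs ht ε hl hN).X i b * (gas σ hs ht ε hl hN).X i b')) =
      (ZZ σ)⁻¹ * ε * ∑ u ∈ blk N n l b, Ex σ (fun x om => Gam n l ε b' P u (mf σ x om u)) := by
    rw [show (fun i => H352.ind (P fun c => c ∈ (gas σ hs ht ε hl hN).vis i) *
        ((gas σ hs ht ε hl hN).X i b * (gas σ hs ht ε hl hN).X i b')) =
        fun i => (gas σ hs ht ε hl hN).X i b *
          (H352.ind (P fun c => c ∈ (gas σ hs ht ε hl hN).vis i) *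
            (gas σ hs ht ε hl hN).X i b') from by funext i; ring, S_gas_X]
    congr 1
    refine Finset.sum_congr rfl fun u _ => ?_
    exact Ex_congr fun x om hw => Gam_eq hw
  rw [e1]
  have e2 : Ex σ (pf σ n l b b' P) = ∑ u ∈ blk N n l b, Ex σ (fun x om =>
      ∑ v ∈ blk N n l b', ((mf σ x om u u * mf σ x om u v : ℕ) : ℝ≥0∞) *
        H352.ind (P (vs n l (mf σ x om u)))) := by
    unfold pf
    rw [Ex_sum]
  have e3 : ∀ u, ε * Ex σ (fun x om =>
      ∑ v ∈ blk N n l b', ((mf σ x om u u * mf σ x om u v : ℕ) : ℝ≥0∞) *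
        H352.ind (P (vs n l (mf σ x om u)))) =
        Ex σ (fun x om => Gam n l ε b' P u (mf σ x om u)) := by
    intro u
    rw [← Ex_mul]
    refine Ex_congr fun x om _ => ?_
    unfold Gam
    rw [Finset.mul_sum, Finset.mul_sum, Finset.mul_sum, Finset.mul_sum]
    refine Finset.sum_congr rfl fun v _ => ?_
    have : (fun c => ∃ z, bk n l z = c ∧ mf σ x om u z ≠ 0) = vs n l (mf σ x om u) := rfl
    rw [this]
    push_cast
    ring
  calc (ε : ℝ≥0∞) ^ 2 * Ex σ (pf σ n l b b' P)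
      = ε * ∑ u ∈ blk N n l b, ε * Ex σ (fun x om =>
      ∑ v ∈ blk N n l b', ((mf σ x om u u * mf σ x om u v : ℕ) : ℝ≥0∞) *
        H352.ind (P (vs n l (mf σ x om u)))) := by rw [e2, ← Finset.mul_sum]; ring
    _ = (ZZ σ * (ZZ σ)⁻¹) * (ε * ∑ u ∈ blk N n l b,
          Ex σ (fun x om => Gam n l ε b' P u (mf σ x om u))) := by
        rw [ENNReal.mul_inv_cancel h0 h1, one_mul]
        congr 1
        exact Finset.sum_congr rfl fun u _ => e3 u
    _ = _ := by ring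

/-- sums over sites of near blocks -/
lemma sum_le_blk (T : Finset (ZMod n × ZMod n)) (B : Finset (TV N)) (hB : ∀ u ∈ B, bk n l u ∈ T)
    (f : TV N → ℝ≥0∞) : ∑ u ∈ B, f u ≤ ∑ b ∈ T, ∑ u ∈ blk N n l b, f u := by
  classical
  calc ∑ u ∈ B, f u ≤ ∑ u ∈ univ.filter (fun u => bk n l u ∈ T), f u := by
        refine Finset.sum_le_sum_of_subset fun u hu => ?_
        rw [Finset.mem_filter]; exact ⟨Finset.mem_univ _, hB u hu⟩
    _ = ∑ b ∈ T, ∑ u ∈ blk N n l b, f u := by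
        rw [← Finset.sum_fiberwise_of_maps_to (s := univ.filter (fun u : TV N => bk n l u ∈ T))
          (t := T) (g := fun u => bk n l u) (fun u hu => (Finset.mem_filter.1 hu).2)]
        refine Finset.sum_congr rfl fun b hb => ?_
        congr 1
        ext u
        simp only [Finset.mem_filter, Finset.mem_univ, true_and, mem_blk]
        constructor
        · rintro ⟨_, h⟩; exact h
        · intro h; rw [h]; exact ⟨hb, rfl⟩

/-- sums over pairs -/
lemma sum_pair_le (T : Finset (ZMod n × ZMod n)) (B : Finset (TV N))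
    (hB : ∀ u ∈ B, bk n l u ∈ T) (f : TV N → TV N → ℝ≥0∞) :
    ∑ u ∈ B, ∑ v ∈ B, f u v ≤
      ∑ b ∈ T, ∑ b' ∈ T, ∑ u ∈ blk N n l b, ∑ v ∈ blk N n l b', f u v := by
  classical
  calc ∑ u ∈ B, ∑ v ∈ B, f u v ≤ ∑ u ∈ B, ∑ b' ∈ T, ∑ v ∈ blk N n l b', f u v :=
        Finset.sum_le_sum fun u _ => sum_le_blk T B hB _
    _ ≤ ∑ b ∈ T, ∑ u ∈ blk N n l b, ∑ b' ∈ T, ∑ v ∈ blk N n l b', f u v :=
        sum_le_blk T B hB _
    _ = _ := by
        refine Finset.sum_congr rfl fun b _ => ?_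
        rw [Finset.sum_comm]

lemma bk_ball (hl : 0 < l) (hN : N = n * l) {x0 u : TV N} {r : ℕ} (h : u ∈ ball x0 r) :
    bk n l u ∈ ball (bk n l x0) (r / l + 1) := by
  rw [mem_ball] at h ⊢
  have h1 := bk_le (n := n) hl hN x0 u
  by_contra h2
  push Not at h2
  have h3 : l * (r / l + 2) ≤ l * sd (bk n l x0) (bk n l u) := Nat.mul_le_mul_left _ h2
  have h4 : l * (r / l + 2) = l * (r / l) + 2 * l := by ring
  have h5 := Nat.div_add_mod r l
  have h6 := Nat.mod_lt r hl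
  omega

lemma bk_ball_one (hl : 0 < l) (hN : N = n * l) {x0 u : TV N} (h : u ∈ ball x0 l) :
    bk n l u ∈ ball (bk n l x0) 1 := by
  rw [mem_ball] at h ⊢
  have h1 := bk_le (n := n) hl hN x0 u
  by_contra h2
  push Not at h2
  have h3 : l * 2 ≤ l * sd (bk n l x0) (bk n l u) := Nat.mul_le_mul_left _ h2
  omega

lemma far_bk (hl : 0 < l) (hN : N = n * l) {x0 z : TV N} {m : ℕ} (h : z ∉ ball x0 m) :
    m / l ≤ sd (bk n l x0) (bk n l z) := by
  rw [mem_ball] at h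
  push Not at h
  have h1 := le_bk (n := n) hl hN x0 z
  by_contra h2
  push Not at h2
  have h3 : l * (sd (bk n l x0) (bk n l z) + 1) ≤ l * (m / l) := Nat.mul_le_mul_left _ h2
  have h4 : l * (sd (bk n l x0) (bk n l z) + 1) = l * sd (bk n l x0) (bk n l z) + l := by ring
  have h5 := Nat.div_add_mod m l
  omega

/-- pointwise bound of `WF` -/
lemma WF_le (hl : 0 < l) (hN : N = n * l) (x0 : TV N) (m : ℕ) (x : TV N → S)
    (om : Finset (TE N)) :
    Spec.WF σ (ball x0 l) (ball x0 m) x om ≤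
      ∑ b ∈ ball (bk n l x0) 1, ∑ b' ∈ ball (bk n l x0) 1,
        pf σ n l b b' (fun v => v b ∧ ∃ c, v c ∧ m / l - 1 ≤ sd b c) x om := by
  classical
  unfold Spec.WF
  have h1 : ∀ u ∈ ball x0 l, ∀ v ∈ ball x0 l,
      ((mf σ x om u u * mf σ x om u v : ℕ) : ℝ≥0∞) *
        H576.ind (∃ z, z ∉ ball x0 m ∧ mf σ x om u z ≠ 0) ≤
      ((mf σ x om u u * mf σ x om u v : ℕ) : ℝ≥0∞) *
        H352.ind ((fun v : ZMod n × ZMod n → Prop => v (bk n l u) ∧ ∃ c, v c ∧
          m / l - 1 ≤ sd (bk n l u) c) (vs n l (mf σ x om u))) := by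
    intro u hu v _
    by_cases hm : mf σ x om u u = 0
    · rw [hm]; simp
    gcongr
    rw [← ind_eq]
    apply H352.ind_mono
    rintro ⟨z, hz, hmz⟩
    refine ⟨⟨u, rfl, hm⟩, bk n l z, ⟨z, rfl, hmz⟩, ?_⟩
    have h2 := far_bk (n := n) hl hN hz
    have h3 := bk_ball_one (n := n) hl hN hu
    rw [mem_ball] at h3
    have h4 := sd_tri (bk n l x0) (bk n l u) (bk n l z)
    omega
  refine (Finset.sum_le_sum fun u hu => Finset.sum_le_sum fun v hv => h1 u hu v hv).trans ?_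
  refine (sum_pair_le (ball (bk n l x0) 1) (ball x0 l)
    (fun u hu => bk_ball_one hl hN hu) _).trans (le_of_eq ?_)
  refine Finset.sum_congr rfl fun b _ => Finset.sum_congr rfl fun b' _ => ?_
  unfold pf
  refine Finset.sum_congr rfl fun u hu => Finset.sum_congr rfl fun v _ => ?_
  rw [mem_blk] at hu
  rw [hu]

/-- pointwise bound of `XF` -/
lemma XF_le (hl : 0 < l) (hN : N = n * l) (x0 : TV N) (m R : ℕ) (hR : m / l + 1 ≤ R)
    (x : TV N → S) (om : Finset (TE N)) :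
    Spec.XF σ (ball x0 m) (ball x0 l) x om ≤
      ∑ β ∈ ball (bk n l x0) 1, ∑ b ∈ ball (bk n l x0) R, ∑ b' ∈ ball (bk n l x0) R,
        pf σ n l b b' (fun v => v β) x om := by
  classical
  unfold Spec.XF
  have h1 : ∀ u ∈ ball x0 m, ∀ v ∈ ball x0 m,
      ((mf σ x om u u * mf σ x om u v : ℕ) : ℝ≥0∞) *
        H576.ind (∃ z ∈ ball x0 l, mf σ x om u z ≠ 0) ≤
      ∑ β ∈ ball (bk n l x0) 1, ((mf σ x om u u * mf σ x om u v : ℕ) : ℝ≥0∞) *
        H352.ind (vs n l (mf σ x om u) β) := by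
    intro u _ v _
    rw [← Finset.mul_sum, ← ind_eq]
    gcongr
    by_cases h2 : ∃ z ∈ ball x0 l, mf σ x om u z ≠ 0
    · obtain ⟨z, hz, hmz⟩ := h2
      refine (H352.ind_le_one _).trans ?_
      have h3 := bk_ball_one (n := n) hl hN hz
      refine le_trans ?_ (Finset.single_le_sum (f := fun β =>
        H352.ind (vs n l (mf σ x om u) β)) (fun _ _ => bot_le) h3)
      exact (H352.ind_true ⟨z, rfl, hmz⟩).ge
    · rw [H352.ind_false h2]; exact bot_le
  refine (Finset.sum_le_sum fun u hu => Finset.sum_le_sum fun v hv => h1 u hu v hv).trans ?_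
  refine (sum_pair_le (n := n) (l := l) (ball (bk n l x0) R) (ball x0 m)
    (fun u hu => ball_mono hR (bk_ball hl hN hu)) _).trans (le_of_eq ?_)
  unfold pf
  refine Eq.symm ?_
  exact Finset.sum_comm.trans (Finset.sum_congr rfl fun b _ => Finset.sum_comm.trans
    (Finset.sum_congr rfl fun b' _ => Finset.sum_comm.trans
      (Finset.sum_congr rfl fun u _ => Finset.sum_comm)))

end

namespace Gas
variable {ι 𝔹 : Type*} [Fintype 𝔹] [DecidableEq 𝔹] {G : Geo 𝔹} {A : Gas ι 𝔹 G}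
variable {K : ℝ≥0} {D : ℕ} {y : ℝ}

/-- exponential decay at every radius -/
lemma W_exp' (h : A.Hyp K D y) {R : ℕ} (hyR : y * ((R : ℝ) + 1) ≤ 1) (a : 𝔹) :
    A.W a R ≤ ENNReal.ofReal (K * Real.exp (rate K D * (2 * D)) *
      Real.exp (-(rate K D * ((R : ℝ) + 1)))) := by
  have hr := (rate_pos h.one_le D).le
  have hD0 : (0 : ℝ) ≤ D := Nat.cast_nonneg D
  have hWt : A.W a R ≠ ∞ := ne_top_of_le_ne_top ENNReal.coe_ne_top (W_le h.toFat a R)
  have hK0 : (0 : ℝ) ≤ K := NNReal.coe_nonneg K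
  by_cases hR : 2 * D ≤ R
  · rw [← ENNReal.ofReal_toReal hWt]
    apply ENNReal.ofReal_le_ofReal
    refine (W_exp h hR hyR a).trans ?_
    have h1 : (1 : ℝ) ≤ Real.exp (rate K D * (2 * D)) := Real.one_le_exp (by positivity)
    have h2 := (Real.exp_pos (-(rate K D * ((R : ℝ) + 1)))).le
    have h3 : (K : ℝ) * 1 ≤ K * Real.exp (rate K D * (2 * D)) := by gcongr
    nlinarith
  · refine (W_le h.toFat a R).trans ?_
    rw [← ENNReal.ofReal_coe_nnreal]
    apply ENNReal.ofReal_le_ofReal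
    rw [mul_assoc, ← Real.exp_add]
    have h1 : 0 ≤ rate K D * (2 * D) + -(rate K D * ((R : ℝ) + 1)) := by
      have : (R : ℝ) + 1 ≤ 2 * D := by
        push Not at hR
        have : R + 1 ≤ 2 * D := hR
        exact_mod_cast this
      have := mul_le_mul_of_nonneg_left this hr
      linarith
    have h2 := Real.one_le_exp h1
    nlinarith

/-- pairs of near blocks -/
lemma pair_le {b b' : 𝔹} (hbb : G.d b b' ≤ 2) (R : ℕ) :
    S A.p (fun i => ind (b ∈ A.vis i ∧ ∃ c, c ∈ A.vis i ∧ R ≤ G.d b c) *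
      (A.X i b * A.X i b')) ≤ A.W b (R - 2) + A.W b' (R - 2) := by
  unfold W
  rw [← S_add]
  refine S_mono fun i => ?_
  by_cases h : b ∈ A.vis i ∧ ∃ c, c ∈ A.vis i ∧ R ≤ G.d b c
  · by_cases hb' : b' ∈ A.vis i
    · obtain ⟨hb, c, hc, hRc⟩ := h
      rw [ind_true ⟨hb, c, hc, hRc⟩, one_mul, ind_true (show A.J b (R - 2) i from
        ⟨hb, c, hc, by omega⟩), ind_true (show A.J b' (R - 2) i from ⟨hb', c, hc, by
          have := G.d_tri b b' c
          omega⟩), one_mul, one_mul]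
      exact mul_le_sq_add _ _
    · rw [A.X_vis i b' hb']; simp
  · rw [ind_false h, zero_mul]; exact bot_le

lemma Xi_mono {a β : 𝔹} {R R' : ℕ} (h : R ≤ R') : A.Xi a R β ≤ A.Xi a R' β := by
  refine S_mono fun i => ?_
  gcongr
  unfold XB
  refine Finset.sum_le_sum_of_subset fun b hb => ?_
  rw [G.mem_ball] at hb ⊢
  exact hb.trans h

end Gas

section
variable {N n : ℕ} [NeZero N] [NeZero n] {S : Type*}
variable {σ : Sys (TV N) (TE N) S} {hs : σ.s = tS} {ht : σ.t = tT} {ε : ℝ≥0}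
  {l : ℕ} {hl : 0 < l} {hN : N = n * l} {K : ℝ≥0} {D : ℕ} {y : ℝ}

lemma scale_back {a c : ℝ≥0∞} (hε : (ε : ℝ) * (l : ℝ) ^ 2 = 1) (h : (ε : ℝ≥0∞) ^ 2 * a = c) :
    a = (l : ℝ≥0∞) ^ 4 * c := by
  have h1 : (ε : ℝ≥0∞) * (l : ℝ≥0∞) ^ 2 = 1 := by
    have h2 : ε * (l : ℝ≥0) ^ 2 = 1 := by
      apply NNReal.coe_injective
      push_cast
      exact hε
    exact_mod_cast h2
  calc a = ((ε : ℝ≥0∞) * (l : ℝ≥0∞) ^ 2) ^ 2 * a := by rw [h1]; simp
    _ = (l : ℝ≥0∞) ^ 4 * ((ε : ℝ≥0∞) ^ 2 * a) := by ring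
    _ = _ := by rw [h]

lemma ofReal_w {w : ℝ} (hw : 0 ≤ w) : ENNReal.ofReal (9 ^ 2 * (l : ℝ) ^ 4 * (w + w)) =
    (9 : ℝ≥0∞) ^ 2 * (l : ℝ≥0∞) ^ 4 * (ENNReal.ofReal w + ENNReal.ofReal w) := by
  rw [ENNReal.ofReal_mul (by positivity), ENNReal.ofReal_mul (by positivity),
    ENNReal.ofReal_add hw hw, ENNReal.ofReal_pow (by positivity),
    ENNReal.ofReal_pow (by positivity), ENNReal.ofReal_natCast]
  have e2 : ENNReal.ofReal 9 = 9 := by
    rw [show (9 : ℝ) = ((9 : ℕ) : ℝ) by norm_num, ENNReal.ofReal_natCast]; norm_num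
  rw [e2]

/-- the constant of `WF` -/
noncomputable def CW (K : ℝ≥0) (D : ℕ) : ℝ :=
  162 * (K * Real.exp (rate K D * (2 * D)) * Real.exp (3 * rate K D))

/-- **`WF` from the gas** -/
theorem WF_bound (h : (gas σ hs ht ε hl hN).Hyp K D y) (hε : (ε : ℝ) * (l : ℝ) ^ 2 = 1)
    (h0 : ZZ σ ≠ 0) (h1 : ZZ σ ≠ ∞) (hy1 : y ≤ 1) (x0 : TV N) (m : ℕ) (hm : (m : ℝ) * y ≤ l) :
    Spec.Ele σ (Spec.WF σ (ball x0 l) (ball x0 m))
      (CW K D * (l : ℝ) ^ 4 * Real.exp (-(rate K D * m / l))) := by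
  classical
  have hr := (rate_pos h.one_le D).le
  have hlR : (0 : ℝ) < l := by exact_mod_cast hl
  unfold Spec.Ele
  set R' := m / l - 3 with hR'
  have hfl : (m : ℝ) / l - 1 ≤ ((m / l : ℕ) : ℝ) := by
    have h5 := Nat.div_add_mod m l
    have h6 := Nat.mod_lt m hl
    have h7 : m < l * (m / l + 1) := by
      calc m = l * (m / l) + m % l := h5.symm
        _ < l * (m / l) + l := by omega
        _ = _ := by ring
    have h8 : (m : ℝ) < l * (((m / l : ℕ) : ℝ) + 1) := by exact_mod_cast h7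
    rw [sub_le_iff_le_add, div_le_iff₀ hlR]
    linarith
  have hfl2 : ((m / l : ℕ) : ℝ) ≤ (m : ℝ) / l := Nat.cast_div_le
  have hyR : y * ((R' : ℝ) + 1) ≤ 1 := by
    rcases Nat.lt_or_ge (m / l) 3 with h2 | h2
    · have : R' = 0 := by omega
      rw [this]; simpa using hy1
    · have h3 : (R' : ℝ) + 1 ≤ (m : ℝ) / l := by
        have h4 : R' + 1 ≤ m / l := by omega
        have h5 : ((R' : ℝ) + 1) ≤ ((m / l : ℕ) : ℝ) := by exact_mod_cast h4
        linarith
      calc y * ((R' : ℝ) + 1) ≤ y * ((m : ℝ) / l) := mul_le_mul_of_nonneg_left h3 h.y_nonneg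
        _ = (m * y) / l := by ring
        _ ≤ 1 := by rw [div_le_one hlR]; exact hm
  set w : ℝ := K * Real.exp (rate K D * (2 * D)) * (Real.exp (3 * rate K D) *
      Real.exp (-(rate K D * m / l))) with hw
  have hw0 : 0 ≤ w := by positivity
  have hW : ∀ b, (gas σ hs ht ε hl hN).W b R' ≤ ENNReal.ofReal w := by
    intro b
    refine (Gas.W_exp' h hyR b).trans (ENNReal.ofReal_le_ofReal ?_)
    rw [hw]
    gcongr
    rw [← Real.exp_add]
    apply Real.exp_le_exp.2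
    have h3 : (m : ℝ) / l - 3 ≤ (R' : ℝ) + 1 := by
      have h4 : ((m / l : ℕ) : ℝ) ≤ (R' : ℝ) + 3 := by
        have : m / l ≤ R' + 3 := by omega
        exact_mod_cast this
      linarith
    have h5 := mul_le_mul_of_nonneg_left h3 hr
    have h6 : rate K D * m / l = rate K D * (m / l) := by ring
    rw [h6]
    linarith
  have hpair : ∀ b ∈ ball (bk n l x0) 1, ∀ b' ∈ ball (bk n l x0) 1,
      Ex σ (pf σ n l b b' (fun v => v b ∧ ∃ c, v c ∧ m / l - 1 ≤ sd b c)) ≤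
        (l : ℝ≥0∞) ^ 4 * (ZZ σ * (ENNReal.ofReal w + ENNReal.ofReal w)) := by
    intro b hb b' hb'
    rw [scale_back hε (Ex_pf (hs := hs) (ht := ht) (hl := hl) (hN := hN) h0 h1)]
    gcongr
    rw [mem_ball] at hb hb'
    have h2 : (torGeo n).d b b' ≤ 2 := by
      have h3 := sd_tri b (bk n l x0) b'
      have h4 := sd_symm b (bk n l x0)
      show sd b b' ≤ 2
      omega
    have h3 := Gas.pair_le (A := gas σ hs ht ε hl hN) h2 (m / l - 1)
    have h4 : m / l - 1 - 2 = R' := by omega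
    rw [h4] at h3
    exact h3.trans (add_le_add (hW b) (hW b'))
  calc Ex σ (Spec.WF σ (ball x0 l) (ball x0 m))
      ≤ Ex σ (fun x om => ∑ b ∈ ball (bk n l x0) 1, ∑ b' ∈ ball (bk n l x0) 1,
        pf σ n l b b' (fun v => v b ∧ ∃ c, v c ∧ m / l - 1 ≤ sd b c) x om) :=
        Ex_mono fun x om _ => WF_le hl hN x0 m x om
    _ = ∑ b ∈ ball (bk n l x0) 1, ∑ b' ∈ ball (bk n l x0) 1,
        Ex σ (pf σ n l b b' (fun v => v b ∧ ∃ c, v c ∧ m / l - 1 ≤ sd b c)) := by
        rw [Ex_sum]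
        refine Finset.sum_congr rfl fun b _ => ?_
        rw [Ex_sum]
    _ ≤ ∑ b ∈ ball (bk n l x0) 1, ∑ b' ∈ ball (bk n l x0) 1,
        (l : ℝ≥0∞) ^ 4 * (ZZ σ * (ENNReal.ofReal w + ENNReal.ofReal w)) :=
        Finset.sum_le_sum fun b hb => Finset.sum_le_sum fun b' hb' => hpair b hb b' hb'
    _ = ((ball (bk n l x0) 1).card : ℝ≥0∞) ^ 2 *
        ((l : ℝ≥0∞) ^ 4 * (ZZ σ * (ENNReal.ofReal w + ENNReal.ofReal w))) := by
        rw [Finset.sum_const, Finset.sum_const, nsmul_eq_mul, nsmul_eq_mul]; ring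
    _ ≤ (9 : ℝ≥0∞) ^ 2 * ((l : ℝ≥0∞) ^ 4 * (ZZ σ * (ENNReal.ofReal w + ENNReal.ofReal w))) := by
        gcongr
        have := card_ball_le (bk n l x0) 1
        have h9 : (ball (bk n l x0) 1).card ≤ 9 := by simpa using this
        exact_mod_cast h9
    _ = ENNReal.ofReal (CW K D * (l : ℝ) ^ 4 * Real.exp (-(rate K D * m / l))) *
        Ex σ (fun _ _ => 1) := by
        have e1 : CW K D * (l : ℝ) ^ 4 * Real.exp (-(rate K D * m / l)) =
            9 ^ 2 * (l : ℝ) ^ 4 * (w + w) := by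
          unfold CW; rw [hw]; ring
        rw [e1, ofReal_w hw0]
        unfold ZZ
        ring

/-- **`XF` from the gas** -/
theorem XF_bound (h : (gas σ hs ht ε hl hN).Hyp K D y) (hε : (ε : ℝ) * (l : ℝ) ^ 2 = 1)
    (h0 : ZZ σ ≠ 0) (h1 : ZZ σ ≠ ∞) (hy1 : y * (2 * D + 2) ≤ 1) (x0 : TV N) (m : ℕ)
    (hm : (m : ℝ) * y ≤ l / 2) (hy2 : y ≤ 1 / 4) :
    Spec.Ele σ (Spec.XF σ (ball x0 m) (ball x0 l)) (9 * K2 K D * (l : ℝ) ^ 4) := by
  classical
  have hlR : (0 : ℝ) < l := by exact_mod_cast hl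
  have hD0 : (0 : ℝ) ≤ D := Nat.cast_nonneg D
  unfold Spec.Ele
  set R := max (m / l + 1) (2 * D) with hR
  have hR1 : m / l + 1 ≤ R := le_max_left _ _
  have hR2 : 2 * D ≤ R := le_max_right _ _
  have hfl2 : ((m / l : ℕ) : ℝ) ≤ (m : ℝ) / l := Nat.cast_div_le
  have hyR : y * ((R : ℝ) + 1) ≤ 1 := by
    rcases max_choice (m / l + 1) (2 * D) with h2 | h2
    · rw [hR, h2]
      push_cast
      have h3 : y * ((m / l : ℕ) : ℝ) ≤ 1 / 2 := by
        calc y * ((m / l : ℕ) : ℝ) ≤ y * ((m : ℝ) / l) :=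
              mul_le_mul_of_nonneg_left hfl2 h.y_nonneg
          _ = (m * y) / l := by ring
          _ ≤ (l / 2) / l := by gcongr
          _ = 1 / 2 := by field_simp
      linarith
    · rw [hR, h2]
      push_cast
      have := h.y_nonneg
      nlinarith
  have hXi : ∀ β ∈ ball (bk n l x0) 1,
      (gas σ hs ht ε hl hN).Xi (bk n l x0) R β ≤ (K2 K D : ℝ≥0∞) := by
    intro β hβ
    refine Gas.Xi_bound h hR2 hyR _ _ ?_
    rw [torGeo_ball]
    exact ball_mono ((Nat.le_add_left 1 _).trans hR1) hβ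
  calc Ex σ (Spec.XF σ (ball x0 m) (ball x0 l))
      ≤ Ex σ (fun x om => ∑ β ∈ ball (bk n l x0) 1, ∑ b ∈ ball (bk n l x0) R,
        ∑ b' ∈ ball (bk n l x0) R, pf σ n l b b' (fun v => v β) x om) :=
        Ex_mono fun x om _ => XF_le hl hN x0 m R hR1 x om
    _ = ∑ β ∈ ball (bk n l x0) 1, ∑ b ∈ ball (bk n l x0) R, ∑ b' ∈ ball (bk n l x0) R,
        Ex σ (pf σ n l b b' (fun v => v β)) := by
        rw [Ex_sum]
        refine Finset.sum_congr rfl fun β _ => ?_
        rw [Ex_sum]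
        refine Finset.sum_congr rfl fun b _ => ?_
        rw [Ex_sum]
    _ = ∑ β ∈ ball (bk n l x0) 1, (l : ℝ≥0∞) ^ 4 *
          (ZZ σ * (gas σ hs ht ε hl hN).Xi (bk n l x0) R β) := by
        refine Finset.sum_congr rfl fun β _ => ?_
        have e1 : (gas σ hs ht ε hl hN).Xi (bk n l x0) R β =
            ∑ b ∈ ball (bk n l x0) R, ∑ b' ∈ ball (bk n l x0) R,
            H352.S (gas σ hs ht ε hl hN).p (fun i =>
              H352.ind (β ∈ (gas σ hs ht ε hl hN).vis i) *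
              ((gas σ hs ht ε hl hN).X i b * (gas σ hs ht ε hl hN).X i b')) := by
          have e2 : ∀ i, H352.ind (β ∈ (gas σ hs ht ε hl hN).vis i) *
              ((gas σ hs ht ε hl hN).XB (bk n l x0) R i) ^ 2 =
              ∑ b ∈ ball (bk n l x0) R, ∑ b' ∈ ball (bk n l x0) R,
              H352.ind (β ∈ (gas σ hs ht ε hl hN).vis i) *
              ((gas σ hs ht ε hl hN).X i b * (gas σ hs ht ε hl hN).X i b') := by
            intro i
            unfold Gas.XB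
            rw [torGeo_ball, sq, Finset.sum_mul_sum, Finset.mul_sum]
            refine Finset.sum_congr rfl fun b _ => ?_
            rw [Finset.mul_sum]
          unfold Gas.Xi
          rw [S_congr e2, S_sum]
          refine Finset.sum_congr rfl fun b _ => ?_
          rw [S_sum]
        rw [e1]
        simp only [Finset.mul_sum]
        refine Finset.sum_congr rfl fun b _ => Finset.sum_congr rfl fun b' _ => ?_
        exact scale_back hε (Ex_pf (hs := hs) (ht := ht) (hl := hl) (hN := hN) h0 h1)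
    _ ≤ ∑ β ∈ ball (bk n l x0) 1, (l : ℝ≥0∞) ^ 4 * (ZZ σ * (K2 K D : ℝ≥0∞)) := by
        gcongr with β hβ
        exact hXi β hβ
    _ = ((ball (bk n l x0) 1).card : ℝ≥0∞) * ((l : ℝ≥0∞) ^ 4 * (ZZ σ * (K2 K D : ℝ≥0∞))) := by
        rw [Finset.sum_const, nsmul_eq_mul]
    _ ≤ 9 * ((l : ℝ≥0∞) ^ 4 * (ZZ σ * (K2 K D : ℝ≥0∞))) := by
        gcongr
        have := card_ball_le (bk n l x0) 1
        have h9 : (ball (bk n l x0) 1).card ≤ 9 := by simpa using this
        exact_mod_cast h9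
    _ = ENNReal.ofReal (9 * K2 K D * (l : ℝ) ^ 4) * Ex σ (fun _ _ => 1) := by
        rw [ENNReal.ofReal_mul (by positivity), ENNReal.ofReal_mul (by positivity),
          ENNReal.ofReal_coe_nnreal, ENNReal.ofReal_pow (by positivity), ENNReal.ofReal_natCast]
        have e2 : ENNReal.ofReal 9 = 9 := by
          rw [show (9 : ℝ) = ((9 : ℕ) : ℝ) by norm_num, ENNReal.ofReal_natCast]; norm_num
        rw [e2]
        unfold ZZ
        ring

end

end Vale.Agent.P159.TM.H352
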