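import Vale.Agent.P159.TM.H352.Cl

/-! # Fatness of the gas from fatness in the letters of `H576` (row A34I, helper352) -/

open scoped ENNReal NNReal BigOperators
open Finset

set_option linter.unusedSectionVars false
set_option linter.unusedDecidableInType false

namespace Vale.Agent.P159.TM.H352

open Vale.Agent.P159.TM.H60 Vale.Agent.P159.TM.H459 Vale.Agent.P159.TM.H576

lemma ind_and (p q : Prop) : H352.ind p * H352.ind q = H352.ind (p ∧ q) := by
  unfold H352.ind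
  by_cases hp : p <;> by_cases hq : q <;> simp [hp, hq]

section gas
variable {N n : ℕ} [NeZero N] [NeZero n] {S : Type*}

/-- fatness of the clusters in the letters of `H576`, blocks of side `l`, unit of mass `1/ε` -/
def FATH (σ : Sys (TV N) (TE N) S) (n l : ℕ) [NeZero n] (ε : ℝ≥0) (K : ℝ≥0) (D : ℕ) : Prop :=
  ∀ (β : ZMod n × ZMod n) (u : TV N) (Γ : (TV N → ℕ) → ℝ≥0∞), Monotone Γ →
    (∀ m, m u = 0 → Γ m = 0) →
    (∀ m, Γ m ≠ 0 → (∃ z, bk n l z = β ∧ m z ≠ 0) ∧ ∃ z, D ≤ sd β (bk n l z) ∧ m z ≠ 0) →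
    Ex σ (fun x om => Γ (mf σ x om u)) ≠ ∞ →
    Ex σ (fun x om => Γ (mf σ x om u)) ≤ K * Ex σ (fun x om => Γ (mf σ x om u) *
      (ε * ∑ z ∈ univ.filter (fun z => sd β (bk n l z) ≤ D), (mf σ x om u z : ℝ≥0∞)))

variable {σ : Sys (TV N) (TE N) S} {hs : σ.s = tS} {ht : σ.t = tT} {ε : ℝ≥0}
  {l : ℕ} {hl : 0 < l} {hN : N = n * l}

/-- block mass of the cluster of `u` by `mf` -/
lemma X_mf (x : TV N → S) (om : Finset (TE N)) (u : TV N) (b : ZMod n × ZMod n) :
    (gas σ hs ht ε hl hN).X (om, x, clus σ.s σ.t om u) b =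
      ε * ∑ z ∈ blk N n l b, (mf σ x om u z : ℝ≥0∞) := by
  classical
  rw [gas_X (clus_mem_cluss σ.s σ.t om u)]
  congr 1
  unfold blk mf
  rw [Finset.sum_filter, Finset.sum_filter]
  have h1 : ∀ z, (if bk n l z = b then
      (((if z ∈ clus σ.s σ.t om u then (σ.d (x z)).natAbs else 0 : ℕ)) : ℝ≥0∞) else 0) =
      if z ∈ clus σ.s σ.t om u then
        (if bk n l z = b then ((σ.d (x z)).natAbs : ℝ≥0∞) else 0) else 0 := by
    intro z
    by_cases h1 : bk n l z = b <;> by_cases h2 : z ∈ clus σ.s σ.t om u <;> simp [h1, h2]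
  simp only [h1]
  rw [Finset.sum_ite_mem, Finset.univ_inter]

lemma XB_mf (x : TV N → S) (om : Finset (TE N)) (u : TV N) (β : ZMod n × ZMod n) (D : ℕ) :
    (gas σ hs ht ε hl hN).XB β D (om, x, clus σ.s σ.t om u) =
      ε * ∑ z ∈ univ.filter (fun z => sd β (bk n l z) ≤ D), (mf σ x om u z : ℝ≥0∞) := by
  classical
  unfold Gas.XB
  simp only [X_mf]
  rw [← Finset.mul_sum]
  congr 1
  rw [← Finset.sum_fiberwise_of_maps_to (s := univ.filter (fun z : TV N =>
      sd β (bk n l z) ≤ D)) (t := (torGeo n).ball β D) (g := fun z => bk n l z) (fun z hz => by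
        rw [torGeo_ball, mem_ball]; exact (Finset.mem_filter.1 hz).2)]
  refine Finset.sum_congr rfl fun b hb => ?_
  rw [torGeo_ball, mem_ball] at hb
  congr 1
  ext z
  simp only [Finset.mem_filter, Finset.mem_univ, true_and, mem_blk]
  constructor
  · intro h; rw [h]; exact ⟨hb, rfl⟩
  · rintro ⟨_, h⟩; exact h

lemma vis_mf {x : TV N → S} {om : Finset (TE N)} {u : TV N} (hw : σ.wt om x ≠ 0)
    (hu : σ.d (x u) ≠ 0) (c : ZMod n × ZMod n) :
    c ∈ (gas σ hs ht ε hl hN).vis (om, x, clus σ.s σ.t om u) ↔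
      ∃ z, bk n l z = c ∧ mf σ x om u z ≠ 0 := by
  classical
  rw [gas_vis (clus_mem_cluss σ.s σ.t om u), Finset.mem_image]
  constructor
  · rintro ⟨z, hz, hc⟩
    refine ⟨z, hc, ?_⟩
    unfold mf
    rw [if_pos hz]
    rw [mem_clus] at hz
    rcases σ.sign_conn hw hz with h | h
    · rw [← h]; simpa using hu
    · intro h0
      rw [Int.natAbs_eq_zero] at h0
      rw [h0, mul_zero] at h
      exact lt_irrefl _ h
  · rintro ⟨z, hc, hz⟩
    refine ⟨z, ?_, hc⟩
    by_contra h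
    apply hz
    unfold mf
    rw [if_neg h]

/-- the increasing functional of the cluster of `u` -/
noncomputable def Gam (n l : ℕ) (ε : ℝ≥0) (b' : ZMod n × ZMod n)
    (P : (ZMod n × ZMod n → Prop) → Prop) (u : TV N) (m : TV N → ℕ) : ℝ≥0∞ :=
  (m u : ℝ≥0∞) * (H352.ind (P fun c => ∃ z, bk n l z = c ∧ m z ≠ 0) *
    (ε * ∑ z ∈ blk N n l b', (m z : ℝ≥0∞)))

variable {b b' β : ZMod n × ZMod n} {P : (ZMod n × ZMod n → Prop) → Prop}

lemma Gam_mono (hP : ∀ v v' : ZMod n × ZMod n → Prop, (∀ c, v c → v' c) → P v → P v')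
    (u : TV N) : Monotone (Gam (N := N) n l ε b' P u) := by
  intro m m' h
  unfold Gam
  have h1 : ∀ z, m z ≤ m' z := fun z => h z
  refine mul_le_mul' (by exact_mod_cast h1 u) (mul_le_mul' ?_ (mul_le_mul' le_rfl
    (Finset.sum_le_sum fun z _ => by exact_mod_cast h1 z)))
  apply H352.ind_mono
  apply hP
  rintro c ⟨z, hz, hm⟩
  exact ⟨z, hz, fun h0 => hm (Nat.eq_zero_of_le_zero (h0 ▸ h1 z))⟩

lemma Gam_eq {x : TV N → S} {om : Finset (TE N)} {u : TV N} (hw : σ.wt om x ≠ 0) :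
    ((σ.d (x u)).natAbs : ℝ≥0∞) *
      (H352.ind (P fun c => c ∈ (gas σ hs ht ε hl hN).vis (om, x, clus σ.s σ.t om u)) *
        (gas σ hs ht ε hl hN).X (om, x, clus σ.s σ.t om u) b') =
      Gam n l ε b' P u (mf σ x om u) := by
  unfold Gam
  rw [X_mf, mf_self]
  by_cases hu : σ.d (x u) = 0
  · rw [hu]; simp
  · have : (fun c => c ∈ (gas σ hs ht ε hl hN).vis (om, x, clus σ.s σ.t om u)) =
        fun c => ∃ z, bk n l z = c ∧ mf σ x om u z ≠ 0 := by
      funext c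
      exact propext (vis_mf hw hu c)
    rw [this]

/-- **fatness of the gas, general monotone events** -/
theorem fat_gen {K : ℝ≥0} {D : ℕ} (hF : FATH σ n l ε K D)
    (hP : ∀ v v' : ZMod n × ZMod n → Prop, (∀ c, v c → v' c) → P v → P v')
    (hPβ : ∀ v, P v → v β ∧ ∃ c, D ≤ sd β c ∧ v c)
    (hfin : ∀ u ∈ blk N n l b, Ex σ (fun x om => Gam n l ε b' P u (mf σ x om u)) ≠ ∞) :
    H352.S (gas σ hs ht ε hl hN).p (fun i =>
      H352.ind (P fun c => c ∈ (gas σ hs ht ε hl hN).vis i) *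
        ((gas σ hs ht ε hl hN).X i b * (gas σ hs ht ε hl hN).X i b')) ≤
    K * H352.S (gas σ hs ht ε hl hN).p (fun i =>
      H352.ind (P fun c => c ∈ (gas σ hs ht ε hl hN).vis i) *
        ((gas σ hs ht ε hl hN).X i b * (gas σ hs ht ε hl hN).X i b') *
          (gas σ hs ht ε hl hN).XB β D i) := by
  classical
  have e1 : H352.S (gas σ hs ht ε hl hN).p (fun i =>
      H352.ind (P fun c => c ∈ (gas σ hs ht ε hl hN).vis i) *
        ((gas σ hs ht ε hl hN).X i b * (gas σ hs ht ε hl hN).X i b')) =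
      (ZZ σ)⁻¹ * ε * ∑ u ∈ blk N n l b, Ex σ (fun x om => Gam n l ε b' P u (mf σ x om u)) := by
    rw [show (fun i => H352.ind (P fun c => c ∈ (gas σ hs ht ε hl hN).vis i) *
        ((gas σ hs ht ε hl hN).X i b * (gas σ hs ht ε hl hN).X i b')) =
        fun i => (gas σ hs ht ε hl hN).X i b *
          (H352.ind (P fun c => c ∈ (gas σ hs ht ε hl hN).vis i) *
            (gas σ hs ht ε hl hN).X i b') from by funext i; ring, S_gas_X]
    congr 1
    refine Finset.sum_congr rfl fun u _ => ?_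
    exact Ex_congr fun x om hw => Gam_eq hw
  have e2 : H352.S (gas σ hs ht ε hl hN).p (fun i =>
      H352.ind (P fun c => c ∈ (gas σ hs ht ε hl hN).vis i) *
        ((gas σ hs ht ε hl hN).X i b * (gas σ hs ht ε hl hN).X i b') *
          (gas σ hs ht ε hl hN).XB β D i) =
      (ZZ σ)⁻¹ * ε * ∑ u ∈ blk N n l b, Ex σ (fun x om => Gam n l ε b' P u (mf σ x om u) *
        (ε * ∑ z ∈ univ.filter (fun z => sd β (bk n l z) ≤ D), (mf σ x om u z : ℝ≥0∞))) := by
    rw [show (fun i => H352.ind (P fun c => c ∈ (gas σ hs ht ε hl hN).vis i) *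
        ((gas σ hs ht ε hl hN).X i b * (gas σ hs ht ε hl hN).X i b') *
          (gas σ hs ht ε hl hN).XB β D i) =
        fun i => (gas σ hs ht ε hl hN).X i b *
          (H352.ind (P fun c => c ∈ (gas σ hs ht ε hl hN).vis i) *
            (gas σ hs ht ε hl hN).X i b' * (gas σ hs ht ε hl hN).XB β D i)
        from by funext i; ring, S_gas_X]
    congr 1
    refine Finset.sum_congr rfl fun u _ => ?_
    refine Ex_congr fun x om hw => ?_
    rw [← XB_mf (hs := hs) (ht := ht) (hl := hl) (hN := hN), ← Gam_eq (hs := hs) (ht := ht)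
      (hl := hl) (hN := hN) hw]
    ring
  rw [e1, e2]
  calc (ZZ σ)⁻¹ * ε * ∑ u ∈ blk N n l b, Ex σ (fun x om => Gam n l ε b' P u (mf σ x om u))
      ≤ (ZZ σ)⁻¹ * ε * ∑ u ∈ blk N n l b, (K * Ex σ (fun x om => Gam n l ε b' P u (mf σ x om u) *
        (ε * ∑ z ∈ univ.filter (fun z => sd β (bk n l z) ≤ D), (mf σ x om u z : ℝ≥0∞)))) := by
        gcongr with u hu
        refine hF β u (Gam n l ε b' P u) (Gam_mono hP u) (fun m hm => ?_) (fun m hm => ?_)
          (hfin u hu)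
        · unfold Gam; rw [hm]; simp
        · have hPm : P fun c => ∃ z, bk n l z = c ∧ m z ≠ 0 := by
            by_contra h
            apply hm
            unfold Gam
            rw [H352.ind_false h]; simp
          obtain ⟨h1, c, h2, z, hz, h3⟩ := hPβ _ hPm
          exact ⟨h1, z, by rw [hz]; exact h2, h3⟩
    _ = _ := by rw [← Finset.mul_sum]; ring

/-- finiteness of the functionals from second moments -/
lemma Gam_fin {K : ℝ≥0} (hε : ε ≠ 0) (h1 : ZZ σ ≠ ∞)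
    (hm : ∀ b, H352.S (gas σ hs ht ε hl hN).p (fun i => (gas σ hs ht ε hl hN).X i b ^ 2) ≤ K)
    {u : TV N} (hu : u ∈ blk N n l b) :
    Ex σ (fun x om => Gam n l ε b' P u (mf σ x om u)) ≠ ∞ := by
  classical
  have e1 : (ZZ σ)⁻¹ * ε * ∑ u ∈ blk N n l b, Ex σ (fun x om => Gam n l ε b' P u (mf σ x om u)) ≤
      K + K := by
    calc (ZZ σ)⁻¹ * ε * ∑ u ∈ blk N n l b, Ex σ (fun x om => Gam n l ε b' P u (mf σ x om u))
        = (ZZ σ)⁻¹ * ε * ∑ u ∈ blk N n l b, Ex σ (fun x om => ((σ.d (x u)).natAbs : ℝ≥0∞) *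
          (H352.ind (P fun c => c ∈ (gas σ hs ht ε hl hN).vis (om, x, clus σ.s σ.t om u)) *
            (gas σ hs ht ε hl hN).X (om, x, clus σ.s σ.t om u) b')) := by
          congr 1
          refine Finset.sum_congr rfl fun u _ => ?_
          exact Ex_congr fun x om hw => (Gam_eq hw).symm
      _ = H352.S (gas σ hs ht ε hl hN).p (fun i => (gas σ hs ht ε hl hN).X i b *
          (H352.ind (P fun c => c ∈ (gas σ hs ht ε hl hN).vis i) *
            (gas σ hs ht ε hl hN).X i b')) := by rw [S_gas_X]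
      _ ≤ H352.S (gas σ hs ht ε hl hN).p (fun i => (gas σ hs ht ε hl hN).X i b ^ 2 +
            (gas σ hs ht ε hl hN).X i b' ^ 2) := by
          refine S_mono fun i => ?_
          refine le_trans ?_ (mul_le_sq_add _ _)
          gcongr
          calc _ ≤ 1 * (gas σ hs ht ε hl hN).X i b' := by gcongr; exact H352.ind_le_one _
            _ = _ := one_mul _
      _ ≤ _ := by rw [S_add]; exact add_le_add (hm b) (hm b')
  have e2 : (ZZ σ)⁻¹ * ε * Ex σ (fun x om => Gam n l ε b' P u (mf σ x om u)) ≤ K + K := by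
    refine le_trans ?_ e1
    gcongr
    exact Finset.single_le_sum (f := fun u => Ex σ (fun x om => Gam n l ε b' P u (mf σ x om u)))
      (fun _ _ => bot_le) hu
  intro htop
  rw [htop, ENNReal.mul_top] at e2
  · exact absurd e2 (not_le.2 (by
      rw [ENNReal.add_lt_top]; exact ⟨ENNReal.coe_lt_top, ENNReal.coe_lt_top⟩))
  · refine mul_ne_zero ?_ (by exact_mod_cast hε)
    rw [Ne, ENNReal.inv_eq_zero]
    exact h1

theorem fat2_gas {K K' : ℝ≥0} {D : ℕ} (hF : FATH σ n l ε K D) (hε : ε ≠ 0) (h1 : ZZ σ ≠ ∞)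
    (hm : ∀ b, H352.S (gas σ hs ht ε hl hN).p (fun i => (gas σ hs ht ε hl hN).X i b ^ 2) ≤ K')
    (β b b' : ZMod n × ZMod n) :
    H352.S (gas σ hs ht ε hl hN).p (fun i => H352.ind ((gas σ hs ht ε hl hN).J β D i) *
        ((gas σ hs ht ε hl hN).X i b * (gas σ hs ht ε hl hN).X i b')) ≤
    K * H352.S (gas σ hs ht ε hl hN).p (fun i => H352.ind ((gas σ hs ht ε hl hN).J β D i) *
        ((gas σ hs ht ε hl hN).X i b * (gas σ hs ht ε hl hN).X i b') *
          (gas σ hs ht ε hl hN).XB β D i) := by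
  exact fat_gen (P := fun v => v β ∧ ∃ c, v c ∧ D ≤ (torGeo n).d β c) hF
    (fun v v' h hv => ⟨h _ hv.1, hv.2.imp fun c hc => ⟨h _ hc.1, hc.2⟩⟩)
    (fun v hv => ⟨hv.1, hv.2.imp fun c hc => ⟨hc.2, hc.1⟩⟩)
    (fun u hu => Gam_fin (hs := hs) (ht := ht) (hl := hl) (hN := hN) hε h1 hm hu)

theorem fat1_gas {K K' : ℝ≥0} {D : ℕ} (hF : FATH σ n l ε K D) (hε : ε ≠ 0) (h1 : ZZ σ ≠ ∞)
    (hm : ∀ b, H352.S (gas σ hs ht ε hl hN).p (fun i => (gas σ hs ht ε hl hN).X i b ^ 2) ≤ K')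
    (a : ZMod n × ZMod n) (R : ℕ) (β : ZMod n × ZMod n) (hR : 2 * D ≤ R) :
    H352.S (gas σ hs ht ε hl hN).p (fun i => (gas σ hs ht ε hl hN).wJ a R i *
      H352.ind (β ∈ (gas σ hs ht ε hl hN).vis i)) ≤
    K * H352.S (gas σ hs ht ε hl hN).p (fun i => (gas σ hs ht ε hl hN).wJ a R i *
      H352.ind (β ∈ (gas σ hs ht ε hl hN).vis i) * (gas σ hs ht ε hl hN).XB β D i) := by
  have h := fat_gen (hs := hs) (ht := ht) (hl := hl) (hN := hN) (b := a) (b' := a) (β := β)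
    (P := fun v => (v a ∧ ∃ c, v c ∧ R ≤ (torGeo n).d a c) ∧ v β) hF
    (fun v v' h hv => ⟨⟨h _ hv.1.1, hv.1.2.imp fun c hc => ⟨h _ hc.1, hc.2⟩⟩, h _ hv.2⟩)
    (fun v hv => ⟨hv.2, by
      obtain ⟨⟨ha, c, hc, hRc⟩, hβ⟩ := hv
      by_cases h1 : D ≤ sd β a
      · exact ⟨a, h1, ha⟩
      · refine ⟨c, ?_, hc⟩
        have h2 := sd_tri a β c
        have h3 := sd_symm a β
        have h4 : R ≤ sd a c := hRc
        omega⟩)
    (fun u hu => Gam_fin (hs := hs) (ht := ht) (hl := hl) (hN := hN) hε h1 hm hu)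
  have e : ∀ i, (gas σ hs ht ε hl hN).wJ a R i * H352.ind (β ∈ (gas σ hs ht ε hl hN).vis i) =
      H352.ind ((a ∈ (gas σ hs ht ε hl hN).vis i ∧ ∃ c ∈ (gas σ hs ht ε hl hN).vis i,
        R ≤ (torGeo n).d a c) ∧ β ∈ (gas σ hs ht ε hl hN).vis i) *
        ((gas σ hs ht ε hl hN).X i a * (gas σ hs ht ε hl hN).X i a) := by
    intro i
    unfold Gas.wJ Gas.J
    rw [← ind_and (a ∈ (gas σ hs ht ε hl hN).vis i ∧ ∃ c ∈ (gas σ hs ht ε hl hN).vis i,
        R ≤ (torGeo n).d a c) (β ∈ (gas σ hs ht ε hl hN).vis i)]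
    ring
  simp only [e]
  exact h

end gas

end Vale.Agent.P159.TM.H352
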