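import Vale.Agent.P159.TM.H352.EmOne
import Vale.Agent.P159.TM.H352.WX
import Vale.Agent.P159.TM.H77.Fath
import Vale.Agent.P159.TM.Spec.AB

/-! # Theorem A on the torus (row A34I, helper352): assembly -/

open scoped ENNReal NNReal BigOperators
open Finset

set_option linter.unusedSectionVars false
set_option linter.unusedDecidableInType false

namespace Vale.Agent.P159.TM.H352

open Vale.Agent.P159.TM.H60 Vale.Agent.P159.TM.H459 Vale.Agent.P159.TM.H576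

namespace Gas
variable {ι 𝔹 : Type*} [Fintype 𝔹] [DecidableEq 𝔹] {G : Geo 𝔹} {A : Gas ι 𝔹 G}

lemma Tilt.mono {K K' y M : ℝ} {a : 𝔹} {R : ℕ} (hK : 0 < K) (hKK : K ≤ K') (hy : 0 ≤ y)
    (hM : 0 ≤ M) (h : A.Tilt K y a R M) : A.Tilt K' y a R M := by
  intro θ h1 h2 h3
  refine (h θ h1 h2 h3).trans ?_
  have hb : 0 ≤ y * ((R : ℝ) + 1) ^ 2 + ((R : ℝ) + 1) +
        ((A.EN a R).toReal / (A.W a R).toReal + ((R : ℝ) + 1)) * M := by positivity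
  have e1 : Real.log (K / (A.W a R).toReal) ≤ Real.log (K' / (A.W a R).toReal) := by
    rcases (ENNReal.toReal_nonneg (a := A.W a R)).eq_or_lt with h4 | h4
    · rw [← h4]; simp
    · apply Real.log_le_log (by positivity)
      gcongr
  have e2 : K * θ ^ 2 * (y * ((R : ℝ) + 1) ^ 2 + ((R : ℝ) + 1) +
        ((A.EN a R).toReal / (A.W a R).toReal + ((R : ℝ) + 1)) * M) ≤
      K' * θ ^ 2 * (y * ((R : ℝ) + 1) ^ 2 + ((R : ℝ) + 1) +
        ((A.EN a R).toReal / (A.W a R).toReal + ((R : ℝ) + 1)) * M) := by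
    apply mul_le_mul_of_nonneg_right _ hb
    gcongr
  linarith

end Gas

section
variable {N n : ℕ} [NeZero N] [NeZero n] {b : ℝ} {ξ : ℕ}

lemma FATH.mono {S : Type*} {σ : Sys (TV N) (TE N) S} {l : ℕ} {ε K K' : ℝ≥0} {D : ℕ}
    (h : FATH σ n l ε K D) (hK : K ≤ K') : FATH σ n l ε K' D := by
  intro β u Γ h1 h2 h3 h4
  refine (h β u Γ h1 h2 h3 h4).trans ?_
  gcongr

/-- the numerical constant of the moments -/
noncomputable def K20 : ℝ≥0 := 4 * (Nat.factorial 20 : ℕ)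

lemma mom_const {m : ℕ} (hm : 2 * m ≤ 20) :
    2 * ((Nat.factorial (2 * m) : ℕ) : ℝ≥0∞) * ENNReal.ofReal (Real.exp (1 / 2)) ≤
      ((K20 : ℝ≥0) : ℝ≥0∞) := by
  have h1 : ENNReal.ofReal (Real.exp (1 / 2)) ≤ 2 := by
    rw [show (2 : ℝ≥0∞) = ENNReal.ofReal 2 by simp]
    apply ENNReal.ofReal_le_ofReal
    have h2 : Real.exp (1 / 2) ^ 2 = Real.exp 1 := by
      rw [← Real.exp_nat_mul]; norm_num
    have h3 := Real.exp_one_lt_d9
    nlinarith [Real.exp_pos (1 / 2)]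
  have h2 : ((Nat.factorial (2 * m) : ℕ) : ℝ≥0∞) ≤ ((Nat.factorial 20 : ℕ) : ℝ≥0∞) := by
    exact_mod_cast Nat.factorial_le hm
  unfold K20
  calc 2 * ((Nat.factorial (2 * m) : ℕ) : ℝ≥0∞) * ENNReal.ofReal (Real.exp (1 / 2))
      ≤ 2 * ((Nat.factorial 20 : ℕ) : ℝ≥0∞) * 2 := by gcongr
    _ = _ := by push_cast; ring

/-- the hypotheses of the gas of one copy -/
theorem hyp_s1 (hb : 0 ≤ b) (hξ : 0 < ξ) (hN : N = n * ξ) {K Kf : ℝ≥0} {D : ℕ} {a y : ℝ}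
    (hy : 0 ≤ y) (ha : 0 ≤ a)
    (hG : ∀ w, 0 ≤ Spec.GT N b ξ w) (hsw : ∀ w, Spec.GT N b ξ (w.2, w.1) = Spec.GT N b ξ w)
    (hsum : ∑ w, Spec.GT N b ξ w ≤ (ξ : ℝ) ^ 2)
    (htl : ∀ s : ℕ, 1 ≤ s → H764.tl (Spec.GT N b ξ) s ≤
      (2 + 80 * a) * (ξ : ℝ) ^ 2 * (y + (ξ : ℝ) ^ 2 / (s : ℝ) ^ 2))
    (hCV : CV (Spec.σ1 N b ξ hb) 1 (Spec.GT N b ξ))
    (hF : FATH (Spec.σ1 N b ξ hb) n ξ (((ξ : ℝ≥0) ^ 2)⁻¹) Kf D)
    (hKf : Kf ≤ K) (hK20 : K20 ≤ K) (hKa : 104 + 4000 * a ≤ K)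
    (hT : ∀ (c : ZMod n × ZMod n) (R : ℕ) (M : ℝ), y * ((R : ℝ) + 1) ≤ 1 → 1 ≤ M →
      (∀ β ∈ (torGeo n).ball c R, (gas (Spec.σ1 N b ξ hb) rfl rfl (((ξ : ℝ≥0) ^ 2)⁻¹) hξ hN).Xi
        c R β ≤ ENNReal.ofReal M) →
      (gas (Spec.σ1 N b ξ hb) rfl rfl (((ξ : ℝ≥0) ^ 2)⁻¹) hξ hN).Tilt K y c R M) :
    (gas (Spec.σ1 N b ξ hb) rfl rfl (((ξ : ℝ≥0) ^ 2)⁻¹) hξ hN).Hyp K D y := by
  have h0 := ZZ_s1_ne_zero (N := N) hb hξ
  have h1 := ZZ_s1_ne_top (N := N) hb hξ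
  have hξR : (0 : ℝ) < ξ := by exact_mod_cast hξ
  have hε : (((ξ : ℝ≥0) ^ 2)⁻¹ : ℝ≥0) ≠ 0 := by
    have : (ξ : ℝ≥0) ≠ 0 := by exact_mod_cast hξ.ne'
    positivity
  have hm2 : ∀ c, H352.S (gas (Spec.σ1 N b ξ hb) rfl rfl (((ξ : ℝ≥0) ^ 2)⁻¹) hξ hN).p
      (fun i => (gas (Spec.σ1 N b ξ hb) rfl rfl (((ξ : ℝ≥0) ^ 2)⁻¹) hξ hN).X i c ^ 2) ≤ K := by
    intro c
    have := mom_gas (hs := rfl) (ht := rfl) (hl := hξ) (hN := hN) (emb_s1 hb hξ hN) h0 h1 c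
      (m := 1) (by norm_num)
    refine this.trans ((mom_const (by norm_num)).trans ?_)
    exact_mod_cast hK20
  have hF' := hF.mono hKf
  refine
    { one_le := ?_
      mom2 := hm2
      mom20 := ?_
      fat2 := ?_
      y_nonneg := hy
      cov := ?_
      fat1 := ?_
      tilt := fun c R M _ h2 h3 h4 => hT c R M h2 h3 h4 }
  · refine le_trans ?_ hK20
    unfold K20
    have : (1 : ℝ≥0) ≤ (Nat.factorial 20 : ℕ) := by
      exact_mod_cast Nat.factorial_pos 20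
    calc (1 : ℝ≥0) ≤ (Nat.factorial 20 : ℕ) := this
      _ ≤ 4 * (Nat.factorial 20 : ℕ) := le_mul_of_one_le_left (by positivity) (by norm_num)
  · intro c
    have := mom_gas (hs := rfl) (ht := rfl) (hl := hξ) (hN := hN) (emb_s1 hb hξ hN) h0 h1 c
      (m := 10) (by norm_num)
    refine this.trans ((mom_const (by norm_num)).trans ?_)
    exact_mod_cast hK20
  · intro β c c'
    exact fat2_gas hF' hε h1 hm2 β c c'
  · intro β R hyR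
    have hε2 : ((((ξ : ℝ≥0) ^ 2)⁻¹ : ℝ≥0) : ℝ) * (ξ : ℝ) ^ 2 ≤ 1 := by
      push_cast
      rw [inv_mul_cancel₀ (by positivity)]
    have h2 := cov_gas (hs := rfl) (ht := rfl) (hl := hξ) (hN := hN) (κ := 1)
      (A := 2 + 80 * a) zero_le_one hG hsw hCV h0 h1 (by positivity) hy hsum htl hε2 β R hyR
    refine h2.trans ?_
    gcongr
    rw [← ENNReal.ofReal_coe_nnreal]
    apply ENNReal.ofReal_le_ofReal
    linarith
  · intro c R β hR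
    exact fat1_gas hF' hε h1 hm2 c R β hR

/-- the bound `Ele` is monotone -/
lemma Ele.mono {S : Type*} {σ : Sys (TV N) (TE N) S}
    {F : (TV N → S) → Finset (TE N) → ℝ≥0∞} {r r' : ℝ} (h : Spec.Ele σ F r) (hr : r ≤ r') :
    Spec.Ele σ F r' := by
  unfold Spec.Ele at h ⊢
  refine h.trans ?_
  gcongr

end

/-- the tilt inequality on the torus, one copy: what is needed from row TILT -/
def TiltOne (b1 b2 a : ℝ) : Prop :=
  ∃ K0 : ℝ≥0, ∃ X : ℕ, 1 ≤ K0 ∧ ∀ (N n : ℕ) [NeZero N] [NeZero n] (b : ℝ) (hb : 0 ≤ b), b1 ≤ b → b ≤ b2 →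
    ∀ (ξ : ℕ) (hξ : 0 < ξ) (hN : N = n * ξ) (y : ℝ), X ≤ ξ → X ≤ n → 0 ≤ y → y ≤ 1 →
      H764.QU (ξ : ℝ) (Spec.GT N b ξ) y a → ∀ (c : ZMod n × ZMod n) (R : ℕ) (M : ℝ), y * ((R : ℝ) + 1) ≤ 1 → 1 ≤ M →
      (∀ β ∈ (torGeo n).ball c R, (gas (Spec.σ1 N b ξ hb) rfl rfl (((ξ : ℝ≥0) ^ 2)⁻¹) hξ hN).Xi
        c R β ≤ ENNReal.ofReal M) →
      (gas (Spec.σ1 N b ξ hb) rfl rfl (((ξ : ℝ≥0) ^ 2)⁻¹) hξ hN).Tilt K0 y c R M

/-- the facts on the kernel -/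
structure KerOne (N : ℕ) [NeZero N] (b : ℝ) (ξ : ℕ) (hb : 0 ≤ b) : Prop where
  nn : ∀ w, 0 ≤ Spec.GT N b ξ w
  sw : ∀ w, Spec.GT N b ξ (w.2, w.1) = Spec.GT N b ξ w
  sum : ∑ w, Spec.GT N b ξ w ≤ (ξ : ℝ) ^ 2
  tl : ∀ a y : ℝ, H764.QU (ξ : ℝ) (Spec.GT N b ξ) y a → 0 ≤ y → 0 ≤ a → ∀ s : ℕ, 1 ≤ s →
    H764.tl (Spec.GT N b ξ) s ≤ (2 + 80 * a) * (ξ : ℝ) ^ 2 * (y + (ξ : ℝ) ^ 2 / (s : ℝ) ^ 2)
  cv : CV (Spec.σ1 N b ξ hb) 1 (Spec.GT N b ξ)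

/-- **Theorem A from the tilt inequality** -/
theorem thmA_of {b1 b2 a : ℝ} (hb1 : 0 < b1) (ha : 0 ≤ a)
    (hK : ∀ (N : ℕ) [NeZero N] (b : ℝ) (ξ : ℕ) (hb : 0 ≤ b), 0 < ξ → KerOne N b ξ hb)
    (hT : TiltOne b1 b2 a) : Spec.ThmA b1 b2 a := by
  obtain ⟨W0, X0, Kf, hKf, hfath⟩ := H77.fath (C2 := 10) (bb := max b2 1) (by norm_num)
    (lt_of_lt_of_le one_pos (le_max_right _ _))
  obtain ⟨Kt, Xt, hKt, htilt⟩ := hT
  refine ⟨W0, fun W hW => ?_⟩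
  set K : ℝ≥0 := max (max Kf Kt) (max K20 ⟨104 + 4000 * a, by positivity⟩) with hKdef
  have k1 : Kf ≤ K := (le_max_left _ _).trans (le_max_left _ _)
  have k2 : Kt ≤ K := (le_max_right _ _).trans (le_max_left _ _)
  have k3 : K20 ≤ K := (le_max_left _ _).trans (le_max_right _ _)
  have k4 : 104 + 4000 * a ≤ (K : ℝ) := by
    have : (⟨104 + 4000 * a, by positivity⟩ : ℝ≥0) ≤ K :=
      (le_max_right _ _).trans (le_max_right _ _)
    exact_mod_cast this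
  have kone : 1 ≤ K := hKf.trans k1
  have hr := rate_pos kone 4
  have hCW : 0 < CW K 4 := by
    unfold CW
    have : (0 : ℝ) < K := by exact_mod_cast (zero_lt_one.trans_le kone)
    positivity
  refine ⟨min (rate K 4) (1 / 2), max (CW K 4) (9 * K2 K 4), 1 / 10, max (max X0 Xt) 2,
    lt_min hr (by norm_num), lt_max_of_lt_left hCW, by norm_num, ?_, ?_⟩
  · exact (by norm_num : 1 ≤ 2).trans (le_max_right _ _)
  intro N _ b hb ξ y hR x0 m hm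
  have hX0 : X0 ≤ max (max X0 Xt) 2 := (le_max_left _ _).trans (le_max_left _ _)
  have hXt : Xt ≤ max (max X0 Xt) 2 := (le_max_right _ _).trans (le_max_left _ _)
  have hX2 : 2 ≤ max (max X0 Xt) 2 := le_max_right _ _
  have hξ2 : 2 ≤ ξ := hX2.trans hR.hX
  have hξ : 0 < ξ := by omega
  have hξR : (0 : ℝ) < ξ := by exact_mod_cast hξ
  obtain ⟨n, hn⟩ := hR.hd
  have hN : N = n * ξ := by rw [hn, mul_comm]
  have hnX : max (max X0 Xt) 2 ≤ n := by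
    have h1 := hR.hK
    rw [hN] at h1
    exact Nat.le_of_mul_le_mul_right h1 hξ
  have hn2 : 2 ≤ n := hX2.trans hnX
  have : NeZero n := ⟨by omega⟩
  have hb0 : 0 < b := hb1.trans_le hR.hb1
  have hker := hK N b ξ hb hξ
  have hy := hR.y0
  have hF := hfath N n b hb hb0 (hR.hb2.trans (le_max_left _ _)) ξ (hX0.trans hR.hX) hξ hn2 hN W hW
    hR.hyp.h2 4 le_rfl
  have hyp := hyp_s1 (K := K) (D := 4) hb hξ hN hy ha hker.nn hker.sw hker.sum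
    (hker.tl a y hR.hyp.qu hy ha) hker.cv hF k1 k3 k4 (fun c R M h2 h3 h4 => by
      have h5 := htilt N n b hb hR.hb1 hR.hb2 ξ hξ hN y (hXt.trans hR.hX) (hXt.trans hnX) hy
        (by have := hR.y1; linarith) hR.hyp.qu c R M h2 h3 h4
      exact Gas.Tilt.mono (by exact_mod_cast (zero_lt_one.trans_le hKt)) (by exact_mod_cast k2) hy
        (by linarith) h5)
  have hε : ((((ξ : ℝ≥0) ^ 2)⁻¹ : ℝ≥0) : ℝ) * (ξ : ℝ) ^ 2 = 1 := by
    push_cast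
    rw [inv_mul_cancel₀ (by positivity)]
  have h0 := ZZ_s1_ne_zero (N := N) hb hξ
  have h1 := ZZ_s1_ne_top (N := N) hb hξ
  have hy1 : y ≤ 1 / 10 := hR.y1
  constructor
  · refine Ele.mono (WF_bound hyp hε h0 h1 (by linarith) x0 m ?_) ?_
    · refine hm.trans ?_
      have : min (rate K 4) (1 / 2) ≤ 1 := (min_le_right _ _).trans (by norm_num)
      nlinarith
    · have e1 : Real.exp (-(rate K 4 * m / ξ)) ≤
          Real.exp (-(min (rate K 4) (1 / 2) * m / ξ)) := by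
        apply Real.exp_le_exp.2
        have : min (rate K 4) (1 / 2) * m / ξ ≤ rate K 4 * m / ξ := by
          gcongr
          exact min_le_left _ _
        linarith
      have e2 : CW K 4 ≤ max (CW K 4) (9 * K2 K 4) := le_max_left _ _
      gcongr
  · refine Ele.mono (XF_bound hyp hε h0 h1 (by norm_num; linarith) x0 m ?_ (by linarith)) ?_
    · refine hm.trans ?_
      have : min (rate K 4) (1 / 2) ≤ 1 / 2 := min_le_right _ _
      nlinarith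
    · have e2 : 9 * (K2 K 4 : ℝ) ≤ max (CW K 4) (9 * K2 K 4) := le_max_right _ _
      gcongr

end Vale.Agent.P159.TM.H352
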