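import Vale.Agent.P159.TM.H352.Cl
import Vale.Agent.P159.TM.H738.A2

/-! # The localised covariance bound of the gas (row A34I, helper352) -/

open scoped ENNReal NNReal BigOperators
open Finset

set_option linter.unusedSectionVars false
set_option linter.unusedDecidableInType false

namespace Vale.Agent.P159.TM.H352

open Vale.Agent.P159.TM.H60 Vale.Agent.P159.TM.H459 Vale.Agent.P159.TM.H576

section card
variable {N n : ℕ} [NeZero N] [NeZero n]

lemma val_div_eq {l : ℕ} (hN : N = n * l) {a : ZMod N} {b : ZMod n}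
    (h : bk1 n l a = b) : a.val / l = b.val := by
  unfold bk1 at h
  have h1 : a.val / l < n := by
    have := ZMod.val_lt a
    rw [Nat.div_lt_iff_lt_mul (by
      rcases Nat.eq_zero_or_pos l with h0 | h0
      · exfalso; rw [h0, mul_zero] at hN; exact NeZero.ne N hN
      · exact h0)]
    omega
  rw [← h, ZMod.val_natCast, Nat.mod_eq_of_lt h1]

theorem card_blk_le {l : ℕ} (hl : 0 < l) (hN : N = n * l) (b : ZMod n × ZMod n) :
    (blk N n l b).card ≤ l ^ 2 := by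
  have h1 : (blk N n l b).card ≤ (Finset.range l ×ˢ Finset.range l).card := by
    refine Finset.card_le_card_of_injOn (fun z => (z.1.val % l, z.2.val % l)) ?_ ?_
    · intro z _
      simp only [Finset.coe_product, Finset.coe_range, Set.mem_prod, Set.mem_Iio]
      exact ⟨Nat.mod_lt _ hl, Nat.mod_lt _ hl⟩
    · intro z hz w hw h
      rw [Finset.mem_coe, mem_blk] at hz hw
      have z1 := val_div_eq hN (congrArg Prod.fst hz)
      have z2 := val_div_eq hN (congrArg Prod.snd hz)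
      have w1 := val_div_eq hN (congrArg Prod.fst hw)
      have w2 := val_div_eq hN (congrArg Prod.snd hw)
      simp only [Prod.mk.injEq] at h
      have e1 : z.1.val = w.1.val := by
        rw [← Nat.div_add_mod z.1.val l, ← Nat.div_add_mod w.1.val l]
        rw [h.1, z1, w1]
      have e2 : z.2.val = w.2.val := by
        rw [← Nat.div_add_mod z.2.val l, ← Nat.div_add_mod w.2.val l]
        rw [h.2, z2, w2]
      exact Prod.ext (ZMod.val_injective N e1) (ZMod.val_injective N e2)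
  rw [Finset.card_product, Finset.card_range] at h1
  rw [sq]; exact h1

end card

section layer

lemma sq_eq_sum (k : ℕ) : ((1 + k : ℕ) : ℝ) ^ 2 = ∑ j ∈ Finset.range (k + 1), (2 * (j : ℝ) + 1) := by
  induction k with
  | zero => simp
  | succ k ih => rw [Finset.sum_range_succ, ← ih]; push_cast; ring

/-- layer cake -/
lemma layer {α : Type*} (s : Finset α) (k : α → ℕ) (F : α → ℝ) (hF : ∀ a, 0 ≤ F a) (m : ℕ) :
    ∑ a ∈ s.filter (fun a => k a ≤ m), ((1 + k a : ℕ) : ℝ) ^ 2 * F a ≤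
      ∑ j ∈ Finset.range (m + 1), (2 * (j : ℝ) + 1) * ∑ a ∈ s.filter (fun a => j ≤ k a), F a := by
  classical
  have h1 : ∀ a ∈ s.filter (fun a => k a ≤ m), ((1 + k a : ℕ) : ℝ) ^ 2 * F a =
      ∑ j ∈ Finset.range (m + 1), (2 * (j : ℝ) + 1) * (if j ≤ k a then F a else 0) := by
    intro a ha
    rw [Finset.mem_filter] at ha
    rw [sq_eq_sum, Finset.sum_mul]
    have : ∑ j ∈ Finset.range (m + 1), (2 * (j : ℝ) + 1) * (if j ≤ k a then F a else 0) =
        ∑ j ∈ (Finset.range (m + 1)).filter (fun j => j ≤ k a), (2 * (j : ℝ) + 1) * F a := by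
      rw [Finset.sum_filter]
      refine Finset.sum_congr rfl fun j _ => ?_
      split_ifs <;> simp
    rw [this]
    congr 1
    ext j
    simp only [Finset.mem_range, Finset.mem_filter]
    omega
  rw [Finset.sum_congr rfl h1, Finset.sum_comm]
  refine Finset.sum_le_sum fun j _ => ?_
  rw [← Finset.mul_sum]
  refine mul_le_mul_of_nonneg_left ?_ (by positivity)
  rw [Finset.sum_filter, Finset.sum_filter]
  refine Finset.sum_le_sum fun a _ => ?_
  by_cases h2 : k a ≤ m <;> by_cases h3 : j ≤ k a <;> simp [h2, h3, hF a]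

lemma harm_le (m : ℕ) : ∑ i ∈ Finset.range m, (1 : ℝ) / ((i : ℝ) + 1) ≤ 1 + Real.log m := by
  have h := harmonic_le_one_add_log m
  have e : ((harmonic m : ℚ) : ℝ) = ∑ i ∈ Finset.range m, (1 : ℝ) / ((i : ℝ) + 1) := by
    unfold harmonic
    push_cast
    refine Finset.sum_congr rfl fun i _ => ?_
    rw [one_div]
  rw [← e]; exact h

/-- the sum over the layers -/
lemma layer_sum {T : ℕ → ℝ} {X A y : ℝ} (hX : 0 ≤ X) (hA : 0 ≤ A)
    (h0 : T 0 ≤ X) (h1 : T 1 ≤ X) (h2 : ∀ i : ℕ, T (i + 2) ≤ A * X * (y + 1 / ((i : ℝ) + 1) ^ 2))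
    (hy : 0 ≤ y) {R : ℕ} (hyR : y * (3 * (R : ℝ) + 3) ^ 2 ≤ 1) :
    ∑ j ∈ Finset.range (3 * R + 1), (2 * (j : ℝ) + 1) * T j ≤
      X * (4 + 25 * A) * Real.sqrt (Real.sqrt (1 + R)) := by
  set q : ℝ := Real.sqrt (Real.sqrt (1 + R)) with hq
  have hR : (0 : ℝ) ≤ R := Nat.cast_nonneg R
  have hq1 : 1 ≤ q := by
    rw [hq, Real.one_le_sqrt, Real.one_le_sqrt]; linarith
  have hAX : 0 ≤ A * X := mul_nonneg hA hX
  rcases Nat.eq_zero_or_pos R with hR0 | hR0
  · rw [hR0]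
    simp only [mul_zero, zero_add, Finset.range_one, Finset.sum_singleton, Nat.cast_zero, one_mul]
    nlinarith [mul_nonneg hX hA]
  have hlog : Real.log ((3 * R : ℕ) : ℝ) ≤ 4 * q - 2 := by
    have hpos : (0 : ℝ) < 1 + R := by positivity
    have hs : (0 : ℝ) < Real.sqrt (1 + R) := Real.sqrt_pos.2 hpos
    have e1 : Real.log (1 + R) = 4 * Real.log q := by
      rw [hq, Real.log_sqrt hs.le, Real.log_sqrt hpos.le]; ring
    have e2 : Real.log ((3 * R : ℕ) : ℝ) ≤ Real.log 3 + Real.log (1 + R) := by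
      rw [← Real.log_mul (by norm_num) hpos.ne']
      apply Real.log_le_log
      · have : 0 < 3 * R := by omega
        exact_mod_cast this
      · push_cast; linarith
    have e3 : Real.log q ≤ q - 1 := Real.log_le_sub_one_of_pos (by linarith)
    have e4 : Real.log 3 ≤ 2 := by
      have := Real.log_le_sub_one_of_pos (show (0 : ℝ) < 3 by norm_num)
      linarith
    linarith
  obtain ⟨m, hm⟩ : ∃ m, 3 * R + 1 = m + 2 := ⟨3 * R - 1, by omega⟩
  rw [hm, Finset.sum_range_succ', Finset.sum_range_succ']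
  have hm2 : (m : ℝ) + 1 = 3 * R := by
    have : m + 1 = 3 * R := by omega
    exact_mod_cast this
  have s1 : ∑ i ∈ Finset.range m, (2 * ((i + 1 + 1 : ℕ) : ℝ) + 1) * T (i + 1 + 1) ≤
      ∑ i ∈ Finset.range m, (A * X) * (5 * (3 * R * y) + 5 * (1 / ((i : ℝ) + 1))) := by
    refine Finset.sum_le_sum fun i hi => ?_
    have hi0 : (0 : ℝ) ≤ i := Nat.cast_nonneg i
    have him : (i : ℝ) + 1 ≤ 3 * R := by
      rw [← hm2]
      have : i ≤ m := (Finset.mem_range.1 hi).le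
      have : (i : ℝ) ≤ m := by exact_mod_cast this
      linarith
    have g1 : 2 * ((i + 1 + 1 : ℕ) : ℝ) + 1 ≤ 5 * ((i : ℝ) + 1) := by push_cast; linarith
    have g0 : 0 ≤ A * X * (y + 1 / ((i : ℝ) + 1) ^ 2) := by positivity
    calc (2 * ((i + 1 + 1 : ℕ) : ℝ) + 1) * T (i + 1 + 1)
        ≤ (2 * ((i + 1 + 1 : ℕ) : ℝ) + 1) * (A * X * (y + 1 / ((i : ℝ) + 1) ^ 2)) := by
          refine mul_le_mul_of_nonneg_left (h2 i) (by positivity)
      _ ≤ (5 * ((i : ℝ) + 1)) * (A * X * (y + 1 / ((i : ℝ) + 1) ^ 2)) :=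
          mul_le_mul_of_nonneg_right g1 g0
      _ = (A * X) * (5 * (((i : ℝ) + 1) * y) + 5 * (1 / ((i : ℝ) + 1))) := by
          field_simp
      _ ≤ _ := by gcongr
  have s2 : ∑ i ∈ Finset.range m, (A * X) * (5 * (3 * R * y) + 5 * (1 / ((i : ℝ) + 1))) =
      (A * X) * (5 * (m * (3 * R * y)) + 5 * ∑ i ∈ Finset.range m, (1 / ((i : ℝ) + 1))) := by
    rw [← Finset.mul_sum, Finset.sum_add_distrib, Finset.sum_const, Finset.card_range,
      nsmul_eq_mul, ← Finset.mul_sum]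
    ring
  have s3 : ∑ i ∈ Finset.range m, (1 / ((i : ℝ) + 1)) ≤ 4 * q - 1 := by
    have h3 : ∑ i ∈ Finset.range m, (1 / ((i : ℝ) + 1)) ≤
        ∑ i ∈ Finset.range (3 * R), (1 / ((i : ℝ) + 1)) := by
      refine Finset.sum_le_sum_of_subset_of_nonneg ?_ fun i _ _ => by positivity
      intro i hi
      rw [Finset.mem_range] at hi ⊢
      omega
    have h4 := harm_le (3 * R)
    linarith
  have s4 : (m : ℝ) * (3 * R * y) ≤ 1 := by
    refine le_trans ?_ hyR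
    have hm0 : (m : ℝ) ≤ 3 * R + 3 := by linarith
    calc (m : ℝ) * (3 * R * y) ≤ (3 * R + 3) * ((3 * R + 3) * y) := by
          gcongr
          linarith
      _ = _ := by ring
  have s5 : ∑ i ∈ Finset.range m, (2 * ((i + 1 + 1 : ℕ) : ℝ) + 1) * T (i + 1 + 1) ≤
      (A * X) * (20 * q) := by
    rw [s2] at s1
    refine s1.trans (mul_le_mul_of_nonneg_left ?_ hAX)
    linarith
  simp only [zero_add, Nat.cast_zero, mul_zero, Nat.cast_one, one_mul, mul_one]
  have s6 : X ≤ X * q := by nlinarith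
  nlinarith [mul_nonneg hAX (by linarith : (0 : ℝ) ≤ q)]

end layer

section gas
variable {N n : ℕ} [NeZero N] [NeZero n] {S : Type*}
variable {σ : Sys (TV N) (TE N) S} {hs : σ.s = tS} {ht : σ.t = tT} {ε : ℝ≥0}
  {l : ℕ} {hl : 0 < l} {hN : N = n * l}

open Classical in
/-- two point bound -/
def CV (σ : Sys (TV N) (TE N) S) (κ : ℝ) (G : TV N → ℝ) : Prop :=
  ∀ u v, Ex σ (fun x om => ((σ.d (x u)).natAbs : ℝ≥0∞) *
    (if v ∈ clus σ.s σ.t om u then ((σ.d (x v)).natAbs : ℝ≥0∞) else 0)) ≤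
      ENNReal.ofReal (κ * G (v - u)) * ZZ σ

theorem S_XX_le {κ : ℝ} {G : TV N → ℝ} (hκ : 0 ≤ κ) (hG : ∀ w, 0 ≤ G w) (hC : CV σ κ G)
    (h0 : ZZ σ ≠ 0) (h1 : ZZ σ ≠ ∞) (b β : ZMod n × ZMod n) :
    H352.S (gas σ hs ht ε hl hN).p (fun i => (gas σ hs ht ε hl hN).X i b *
      (gas σ hs ht ε hl hN).X i β) ≤
      ENNReal.ofReal ((ε : ℝ) ^ 2 * κ * ∑ u ∈ blk N n l b, ∑ z ∈ blk N n l β, G (z - u)) := by
  classical
  rw [S_gas_X]
  have e1 : ∀ u ∈ blk N n l b, Ex σ (fun x om => ((σ.d (x u)).natAbs : ℝ≥0∞) *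
      (gas σ hs ht ε hl hN).X (om, x, clus σ.s σ.t om u) β) ≤
      ε * ∑ z ∈ blk N n l β, ENNReal.ofReal (κ * G (z - u)) * ZZ σ := by
    intro u _
    have e2 : Ex σ (fun x om => ((σ.d (x u)).natAbs : ℝ≥0∞) *
        (gas σ hs ht ε hl hN).X (om, x, clus σ.s σ.t om u) β) =
        ε * ∑ z ∈ blk N n l β, Ex σ (fun x om => ((σ.d (x u)).natAbs : ℝ≥0∞) *
          (if z ∈ clus σ.s σ.t om u then ((σ.d (x z)).natAbs : ℝ≥0∞) else 0)) := by
      rw [← Ex_sum, ← Ex_mul]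
      refine Ex_congr fun x om _ => ?_
      rw [gas_X (clus_mem_cluss σ.s σ.t om u), ← Finset.mul_sum]
      have e3 : ∑ z ∈ (clus σ.s σ.t om u).filter (fun z => bk n l z = β),
          ((σ.d (x z)).natAbs : ℝ≥0∞) = ∑ z ∈ blk N n l β,
          (if z ∈ clus σ.s σ.t om u then ((σ.d (x z)).natAbs : ℝ≥0∞) else 0) := by
        unfold blk
        rw [← Finset.sum_filter, Finset.filter_filter]
        congr 1
        ext z; simp [and_comm]
      rw [e3]; ring
    rw [e2]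
    gcongr with z hz
    exact hC u z
  calc (ZZ σ)⁻¹ * ε * ∑ u ∈ blk N n l b, Ex σ (fun x om => ((σ.d (x u)).natAbs : ℝ≥0∞) *
        (gas σ hs ht ε hl hN).X (om, x, clus σ.s σ.t om u) β)
      ≤ (ZZ σ)⁻¹ * ε * ∑ u ∈ blk N n l b,
        (ε * ∑ z ∈ blk N n l β, ENNReal.ofReal (κ * G (z - u)) * ZZ σ) := by
        gcongr with u hu
        exact e1 u hu
    _ = ((ZZ σ)⁻¹ * ZZ σ) * (ε ^ 2 * ∑ u ∈ blk N n l b, ∑ z ∈ blk N n l β,
          ENNReal.ofReal (κ * G (z - u))) := by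
        simp only [← Finset.sum_mul, ← Finset.mul_sum]
        ring
    _ = _ := by
        rw [ENNReal.inv_mul_cancel h0 h1, one_mul, mul_assoc, ENNReal.ofReal_mul (by positivity),
          ENNReal.ofReal_pow (NNReal.coe_nonneg ε), ENNReal.ofReal_coe_nnreal]
        congr 1
        rw [Finset.mul_sum, ENNReal.ofReal_sum_of_nonneg (fun u _ =>
          mul_nonneg hκ (Finset.sum_nonneg fun z _ => hG _))]
        refine Finset.sum_congr rfl fun u _ => ?_
        rw [Finset.mul_sum, ENNReal.ofReal_sum_of_nonneg (fun z _ => mul_nonneg hκ (hG _))]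

/-- the sum over the blocks seen from a site `z` of `β` -/
lemma sum_site {ξ : ℕ} (hξ : 0 < ξ) (hN : N = n * ξ) {G : TV N → ℝ} (hG : ∀ w, 0 ≤ G w)
    (hsw : ∀ w, G (w.2, w.1) = G w) {A y : ℝ} (hA : 0 ≤ A) (hy : 0 ≤ y)
    (h0 : ∑ w, G w ≤ (ξ : ℝ) ^ 2)
    (htl : ∀ s : ℕ, 1 ≤ s → H764.tl G s ≤ A * (ξ : ℝ) ^ 2 * (y + (ξ : ℝ) ^ 2 / (s : ℝ) ^ 2))
    (β : ZMod n × ZMod n) {z : TV N} (hz : bk n ξ z = β) {R : ℕ}
    (hyR : y * (3 * (R : ℝ) + 3) ^ 2 ≤ 1) :
    ∑ b ∈ ball β (3 * R), ((1 + sd β b : ℕ) : ℝ) ^ 2 * ∑ u ∈ blk N n ξ b, G (z - u) ≤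
      (ξ : ℝ) ^ 2 * (4 + 50 * A) * Real.sqrt (Real.sqrt (1 + R)) := by
  classical
  have e1 : ∑ b ∈ ball β (3 * R), ((1 + sd β b : ℕ) : ℝ) ^ 2 * ∑ u ∈ blk N n ξ b, G (z - u) =
      ∑ u ∈ univ.filter (fun u => sd β (bk n ξ u) ≤ 3 * R),
        ((1 + sd β (bk n ξ u) : ℕ) : ℝ) ^ 2 * G (z - u) := by
    rw [← Finset.sum_fiberwise_of_maps_to (s := univ.filter (fun u : TV N =>
      sd β (bk n ξ u) ≤ 3 * R)) (t := ball β (3 * R)) (g := fun u => bk n ξ u) (fun u hu => by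
        rw [mem_ball]; exact (Finset.mem_filter.1 hu).2)]
    refine Finset.sum_congr rfl fun b hb => ?_
    rw [mem_ball] at hb
    rw [Finset.mul_sum]
    have e2 : (univ.filter (fun u : TV N => sd β (bk n ξ u) ≤ 3 * R)).filter
        (fun u => bk n ξ u = b) = blk N n ξ b := by
      ext u
      simp only [Finset.mem_filter, Finset.mem_univ, true_and, mem_blk]
      constructor
      · rintro ⟨_, h⟩; exact h
      · intro h; rw [h]; exact ⟨hb, rfl⟩
    rw [e2]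
    refine Finset.sum_congr rfl fun u hu => ?_
    rw [mem_blk] at hu
    rw [hu]
  rw [e1]
  refine (layer univ (fun u => sd β (bk n ξ u)) (fun u => G (z - u)) (fun u => hG _)
    (3 * R)).trans ?_
  have hX : (0 : ℝ) ≤ (ξ : ℝ) ^ 2 := by positivity
  have hall : ∀ s : Finset (TV N), ∑ u ∈ s, G (z - u) ≤ (ξ : ℝ) ^ 2 := by
    intro s
    calc ∑ u ∈ s, G (z - u) ≤ ∑ u, G (z - u) :=
          Finset.sum_le_sum_of_subset_of_nonneg (Finset.subset_univ _) fun _ _ _ => hG _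
      _ = ∑ w, G w := Equiv.sum_comp (Equiv.subLeft z) G
      _ ≤ _ := h0
  have hfin := layer_sum (T := fun j => ∑ u ∈ univ.filter (fun u => j ≤ sd β (bk n ξ u)),
    G (z - u)) (X := (ξ : ℝ) ^ 2) (A := 2 * A) (y := y) hX (by positivity) (hall _) (hall _)
    (fun i => by
      have hs1 : 1 ≤ ξ * (i + 1) := Nat.mul_pos hξ (Nat.succ_pos i)
      have h3 := H738.tail_nrm G hG hsw htl (ξ * (i + 1)) hs1
      have e4 : (ξ : ℝ) ^ 2 / ((ξ * (i + 1) : ℕ) : ℝ) ^ 2 = 1 / ((i : ℝ) + 1) ^ 2 := by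
        have : (ξ : ℝ) ≠ 0 := by exact_mod_cast hξ.ne'
        push_cast
        field_simp
      rw [e4] at h3
      refine le_trans ?_ (h3.trans (le_of_eq (by ring)))
      have e5 : ∑ w ∈ univ.filter (fun w : TV N => ξ * (i + 1) ≤ H764.nrm w), G w =
          ∑ u ∈ univ.filter (fun u : TV N => ξ * (i + 1) ≤ H764.nrm (z - u)), G (z - u) := by
        rw [Finset.sum_filter, Finset.sum_filter]
        exact (Equiv.sum_comp (Equiv.subLeft z)
          (fun w => if ξ * (i + 1) ≤ H764.nrm w then G w else 0)).symm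
      rw [e5]
      refine Finset.sum_le_sum_of_subset_of_nonneg ?_ fun _ _ _ => hG _
      intro u hu
      rw [Finset.mem_filter] at hu ⊢
      refine ⟨Finset.mem_univ _, ?_⟩
      have h4 := bk_le (n := n) hξ hN u z
      have h5 : sd u z = H764.nrm (z - u) := rfl
      rw [hz, sd_symm (bk n ξ u) β, h5] at h4
      have h6 : ξ * (i + 2) ≤ ξ * sd β (bk n ξ u) := Nat.mul_le_mul_left _ hu.2
      have h7 : ξ * (i + 2) = ξ * (i + 1) + ξ := by ring
      omega) hy hyR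
  refine hfin.trans (le_of_eq ?_)
  ring

/-- **the localised covariance bound** -/
theorem cov_gas {κ A y : ℝ} {G : TV N → ℝ} (hκ : 0 ≤ κ) (hG : ∀ w, 0 ≤ G w)
    (hsw : ∀ w, G (w.2, w.1) = G w) (hC : CV σ κ G)
    (h0 : ZZ σ ≠ 0) (h1 : ZZ σ ≠ ∞) (hA : 0 ≤ A) (hy : 0 ≤ y)
    (hsum : ∑ w, G w ≤ (l : ℝ) ^ 2)
    (htl : ∀ s : ℕ, 1 ≤ s → H764.tl G s ≤ A * (l : ℝ) ^ 2 * (y + (l : ℝ) ^ 2 / (s : ℝ) ^ 2))
    (hε : (ε : ℝ) * (l : ℝ) ^ 2 ≤ 1)
    (β : ZMod n × ZMod n) (R : ℕ) (hyR : y * (3 * (R : ℝ) + 3) ^ 2 ≤ 1) :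
    ∑ b ∈ (torGeo n).ball β (3 * R), ((1 + (torGeo n).d β b : ℕ) : ℝ≥0∞) ^ 2 *
      H352.S (gas σ hs ht ε hl hN).p (fun i => (gas σ hs ht ε hl hN).X i b *
        (gas σ hs ht ε hl hN).X i β) ≤
      ENNReal.ofReal (κ * (4 + 50 * A)) * (NNReal.sqrt (NNReal.sqrt (1 + R)) : ℝ≥0) := by
  classical
  have hε0 : (0 : ℝ) ≤ ε := NNReal.coe_nonneg ε
  set q : ℝ := Real.sqrt (Real.sqrt (1 + R)) with hq
  have hq0 : 0 ≤ q := Real.sqrt_nonneg _
  have e1 : ENNReal.ofReal (κ * (4 + 50 * A)) * (NNReal.sqrt (NNReal.sqrt (1 + R)) : ℝ≥0) =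
      ENNReal.ofReal (κ * (4 + 50 * A) * q) := by
    rw [ENNReal.ofReal_mul (p := κ * (4 + 50 * A)) (by positivity)]
    congr 1
    rw [← ENNReal.ofReal_coe_nnreal]
    congr 1
    rw [hq, Real.coe_sqrt, Real.coe_sqrt]
    push_cast
    rfl
  rw [e1]
  calc ∑ b ∈ (torGeo n).ball β (3 * R), ((1 + (torGeo n).d β b : ℕ) : ℝ≥0∞) ^ 2 *
      H352.S (gas σ hs ht ε hl hN).p (fun i => (gas σ hs ht ε hl hN).X i b *
        (gas σ hs ht ε hl hN).X i β)
      ≤ ∑ b ∈ ball β (3 * R), ((1 + sd β b : ℕ) : ℝ≥0∞) ^ 2 *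
        ENNReal.ofReal ((ε : ℝ) ^ 2 * κ * ∑ u ∈ blk N n l b, ∑ z ∈ blk N n l β, G (z - u)) := by
        refine Finset.sum_le_sum fun b _ => ?_
        exact mul_le_mul_right (S_XX_le hκ hG hC h0 h1 b β) _
    _ = ENNReal.ofReal (∑ b ∈ ball β (3 * R), ((1 + sd β b : ℕ) : ℝ) ^ 2 *
        ((ε : ℝ) ^ 2 * κ * ∑ u ∈ blk N n l b, ∑ z ∈ blk N n l β, G (z - u))) := by
        rw [ENNReal.ofReal_sum_of_nonneg (fun b _ => mul_nonneg (by positivity)
          (mul_nonneg (by positivity) (Finset.sum_nonneg fun u _ =>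
            Finset.sum_nonneg fun z _ => hG _)))]
        refine Finset.sum_congr rfl fun b _ => ?_
        rw [ENNReal.ofReal_mul (p := ((1 + sd β b : ℕ) : ℝ) ^ 2) (by positivity),
          ENNReal.ofReal_pow (by positivity), ENNReal.ofReal_natCast]
    _ ≤ ENNReal.ofReal (κ * (4 + 50 * A) * q) := by
        apply ENNReal.ofReal_le_ofReal
        have e2 : ∑ b ∈ ball β (3 * R), ((1 + sd β b : ℕ) : ℝ) ^ 2 *
            ((ε : ℝ) ^ 2 * κ * ∑ u ∈ blk N n l b, ∑ z ∈ blk N n l β, G (z - u)) =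
            (ε : ℝ) ^ 2 * κ * ∑ z ∈ blk N n l β, ∑ b ∈ ball β (3 * R),
              ((1 + sd β b : ℕ) : ℝ) ^ 2 * ∑ u ∈ blk N n l b, G (z - u) := by
          have e3 : ∀ b, ∑ u ∈ blk N n l b, ∑ z ∈ blk N n l β, G (z - u) =
              ∑ z ∈ blk N n l β, ∑ u ∈ blk N n l b, G (z - u) := fun b => Finset.sum_comm
          simp only [e3, Finset.mul_sum]
          rw [Finset.sum_comm]
          refine Finset.sum_congr rfl fun z _ => Finset.sum_congr rfl fun b _ =>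
            Finset.sum_congr rfl fun u _ => by ring
        rw [e2]
        have e4 : ∑ z ∈ blk N n l β, ∑ b ∈ ball β (3 * R),
              ((1 + sd β b : ℕ) : ℝ) ^ 2 * ∑ u ∈ blk N n l b, G (z - u) ≤
            (l : ℝ) ^ 2 * ((l : ℝ) ^ 2 * (4 + 50 * A) * q) := by
          calc _ ≤ ∑ z ∈ blk N n l β, ((l : ℝ) ^ 2 * (4 + 50 * A) * q) := by
                refine Finset.sum_le_sum fun z hz => ?_
                exact sum_site hl hN hG hsw hA hy hsum htl β (mem_blk.1 hz) hyR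
            _ = ((blk N n l β).card : ℝ) * ((l : ℝ) ^ 2 * (4 + 50 * A) * q) := by
                rw [Finset.sum_const, nsmul_eq_mul]
            _ ≤ _ := by
                gcongr
                exact_mod_cast card_blk_le hl hN β
        calc (ε : ℝ) ^ 2 * κ * _ ≤ (ε : ℝ) ^ 2 * κ * ((l : ℝ) ^ 2 * ((l : ℝ) ^ 2 * (4 + 50 * A) * q)) := by
              gcongr
          _ = ((ε : ℝ) * (l : ℝ) ^ 2) ^ 2 * (κ * (4 + 50 * A) * q) := by ring
          _ ≤ 1 ^ 2 * (κ * (4 + 50 * A) * q) := by gcongr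
          _ = _ := by ring

end gas

end Vale.Agent.P159.TM.H352
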