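import Vale.Agent.P159.TM.H352.Asm

/-! # The two point function of one copy (row A34I, helper352) -/

open scoped ENNReal NNReal BigOperators
open Finset

set_option linter.unusedSectionVars false
set_option linter.unusedDecidableInType false

namespace Vale.Agent.P159.TM.H352

open Vale.Agent.P159.TM.H60 Vale.Agent.P159.TM.H459 Vale.Agent.P159.TM.H576
open Vale.Agent.P159.H353 (wI wI_nonneg wI_neg)

section
variable {V E S : Type*} [Fintype V] [DecidableEq V] [Fintype E] [DecidableEq E] {σ : Sys V E S}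

open Classical in
/-- the two point function of any system in the letters of `H576` -/
theorem Ex_two {u v : V} (hS : Summable fun x => σ.tot x * (|σ.D x u| * |σ.D x v|)) :
    Ex σ (fun x om => ((σ.d (x u)).natAbs : ℝ≥0∞) *
      (if v ∈ clus σ.s σ.t om u then ((σ.d (x v)).natAbs : ℝ≥0∞) else 0)) =
      ENNReal.ofReal (∑' x, σ.tot x * (σ.D x u * σ.D x v)) := by
  have hS' : Summable fun x => σ.tot x * |(|σ.D x u| * |σ.D x v|)| := by
    simpa only [abs_mul, abs_abs] using hS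
  rw [σ.tsum_two hS, ENNReal.ofReal_sum_of_nonneg (fun om _ => by
    split_ifs
    · exact tsum_nonneg fun x => mul_nonneg (σ.wt_nonneg om x) (by positivity)
    · exact le_rfl)]
  unfold Ex
  rw [Summable.tsum_finsetSum (fun om _ => ENNReal.summable)]
  refine Finset.sum_congr rfl fun om _ => ?_
  split_ifs with h
  · rw [ENNReal.ofReal_tsum_of_nonneg (fun x => mul_nonneg (σ.wt_nonneg om x) (by positivity))
      (σ.summable_wt_of_tot hS')]
    refine tsum_congr fun x => ?_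
    rw [ENNReal.ofReal_mul (σ.wt_nonneg om x), ENNReal.ofReal_mul (abs_nonneg _)]
    unfold Sys.D
    congr 1
    rw [← Int.cast_abs, ← Int.cast_abs, ← Nat.cast_natAbs, ← Nat.cast_natAbs]
    simp only [ENNReal.ofReal_natCast]
    rw [if_pos h]
  · simp [h]
end

section
variable {N n : ℕ} [NeZero N] [NeZero n] {b : ℝ} {ξ : ℕ}

open Classical in
/-- **two point function, one copy** -/
theorem cv_s1_eq (hb : 0 ≤ b) (hξ : 0 < ξ) (u v : TV N) :
    Ex (Spec.σ1 N b ξ hb) (fun x om => (((Spec.σ1 N b ξ hb).d (x u)).natAbs : ℝ≥0∞) *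
    (if v ∈ clus (Spec.σ1 N b ξ hb).s (Spec.σ1 N b ξ hb).t om u then
      (((Spec.σ1 N b ξ hb).d (x v)).natAbs : ℝ≥0∞) else 0)) =
      ENNReal.ofReal (1 * Spec.GT N b ξ (v - u)) * ZZ (Spec.σ1 N b ξ hb) := by
  have hm : ∀ x : TV N, 0 < SpecC.ms (ξ : ℝ) x := fun x => H41.ms_pos (by exact_mod_cast hξ) x
  have hE : (Spec.σ1 N b ξ hb).ExpS := by
    rw [s1_one]
    exact one_ExpS (s := tS (N := N)) (t := tT) (fun _ n => wI_nonneg hb n)
      (fun _ n => wI_neg _ n) (fun _ => T1.H897.logC_wI hb)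
      (H634.wt_b tS tT (b := fun _ => b) (fun _ => hb)) hm
  have hS : Summable fun x => (Spec.σ1 N b ξ hb).tot x *
      (|(Spec.σ1 N b ξ hb).D x u| * |(Spec.σ1 N b ξ hb).D x v|) := by
    refine (hE.F2 _ (fun _ => 0) u v).congr fun x => ?_
    unfold Sys.F2 Sys.pr
    simp [abs_mul]
  have h1 := Ex_two (σ := Spec.σ1 N b ξ hb) hS
  refine h1.trans ?_
  rw [ZZ_s1 hb hξ, one_mul, ← ENNReal.ofReal_mul (p := Spec.GT N b ξ (v - u))
    (H41.G_nonneg hb (by exact_mod_cast hξ) _)]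
  congr 1
  have h2 : Spec.GT N b ξ (v - u) = H104.Cf (SpecC.wT b N) (SpecC.ms (ξ : ℝ)) 0
      (H104.co u) (H104.co v) := (H41.Cf_G b (ξ : ℝ) u v).symm
  rw [h2]
  unfold H104.Cf
  rw [H41.Ex_co H41.even_wT, zero_mul, sub_zero]
  unfold H870.Ex
  have h3 : H870.Zr (SpecC.wT b N) (SpecC.ms (ξ : ℝ)) 0 =
      H871.Z (T1.H897.Wk (tS (N := N)) tT fun _ => wI b) (SpecC.ms (ξ : ℝ)) 0 := by
    rw [← H41.wT_eq_Wk]; rfl
  rw [h3, div_mul_cancel₀ _ (Z_s1_pos hb hξ).ne']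
  refine tsum_congr fun x => ?_
  rw [s1_one, one_tot]
  rw [← H41.wT_eq_Wk]
  rfl

theorem cv_s1 (hb : 0 ≤ b) (hξ : 0 < ξ) : CV (Spec.σ1 N b ξ hb) 1 (Spec.GT N b ξ) :=
  fun u v => (cv_s1_eq hb hξ u v).le

/-- the facts on the kernel -/
theorem kerOne (N : ℕ) [NeZero N] (b : ℝ) (ξ : ℕ) (hb : 0 ≤ b) (hξ : 0 < ξ) :
    KerOne N b ξ hb := by
  have hξR : (0 : ℝ) < ξ := by exact_mod_cast hξ
  have hsum : ∑ w, Spec.GT N b ξ w ≤ (ξ : ℝ) ^ 2 := by
    have h1 := H41.Gh_le (N := N) hb hξR 0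
    rw [H764.Gh_zero] at h1
    exact h1
  have hnn : ∀ w, 0 ≤ Spec.GT N b ξ w := fun w => H41.G_nonneg hb hξR w
  exact
    { nn := hnn
      sw := fun w => H41.G_swap b (ξ : ℝ) w
      sum := hsum
      tl := fun a y hQ hy ha => H738.tail_QK (Spec.GT N b ξ) hnn hy ha hQ.qk hsum
      cv := cv_s1 hb hξ }

end

end Vale.Agent.P159.TM.H352
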