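import Mathlib

/-! # A3 + A4 of the finite-size criterion, abstract form (helper352)

`i : ι` runs over pairs (configuration, cluster); `p i` is the weight; blocks are `𝔹`. -/

open scoped ENNReal NNReal BigOperators
open Finset

namespace Vale.Agent.P159.TM.H352

/-- sum over (configuration, cluster) -/
noncomputable def S {ι : Type*} (p : ι → ℝ≥0∞) (F : ι → ℝ≥0∞) : ℝ≥0∞ := ∑' i, p i * F i

section S
variable {ι : Type*} {p : ι → ℝ≥0∞}

lemma S_mono {F G : ι → ℝ≥0∞} (h : ∀ i, F i ≤ G i) : S p F ≤ S p G :=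
  ENNReal.tsum_le_tsum fun i => mul_le_mul_right (h i) _

lemma S_add (F G : ι → ℝ≥0∞) : S p (fun i => F i + G i) = S p F + S p G := by
  unfold S; rw [← ENNReal.tsum_add]; simp only [mul_add]

lemma S_mul (c : ℝ≥0∞) (F : ι → ℝ≥0∞) : S p (fun i => c * F i) = c * S p F := by
  unfold S; rw [← ENNReal.tsum_mul_left]; congr 1; ext i; ring

lemma S_sum {α : Type*} (s : Finset α) (F : α → ι → ℝ≥0∞) :
    S p (fun i => ∑ a ∈ s, F a i) = ∑ a ∈ s, S p (F a) := by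
  classical
  induction s using Finset.induction_on with
  | empty => simp [S]
  | insert a s ha ih =>
    simp only [Finset.sum_insert ha]
    rw [S_add, ih]

lemma S_congr {F G : ι → ℝ≥0∞} (h : ∀ i, F i = G i) : S p F = S p G := by
  have : F = G := funext h
  rw [this]
end S

/-- block geometry -/
structure Geo (𝔹 : Type*) [Fintype 𝔹] where
  d : 𝔹 → 𝔹 → ℕ
  d_comm : ∀ a b, d a b = d b a
  d_tri : ∀ a b c, d a c ≤ d a b + d b c
  d_self : ∀ a, d a a = 0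
  ball_card : ∀ a k, (univ.filter fun b => d a b ≤ k).card ≤ (2 * k + 1) ^ 2
  sph_card : ∀ a k, (univ.filter fun b => d a b = k).card ≤ 8 * (k + 1)

namespace Geo
variable {𝔹 : Type*} [Fintype 𝔹] (G : Geo 𝔹)
/-- ball of blocks -/
def ball (a : 𝔹) (k : ℕ) : Finset 𝔹 := univ.filter fun b => G.d a b ≤ k
lemma mem_ball {a b : 𝔹} {k : ℕ} : b ∈ G.ball a k ↔ G.d a b ≤ k := by simp [ball]
lemma card_ball (a : 𝔹) (k : ℕ) : (G.ball a k).card ≤ (2 * k + 1) ^ 2 := G.ball_card a k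
end Geo

/-- a gas of clusters: weights, block masses, visited blocks -/
structure Gas (ι 𝔹 : Type*) [Fintype 𝔹] [DecidableEq 𝔹] (G : Geo 𝔹) where
  p : ι → ℝ≥0∞
  X : ι → 𝔹 → ℝ≥0∞
  vis : ι → Finset 𝔹
  X_vis : ∀ i b, b ∉ vis i → X i b = 0
  conn : ∀ i a b, a ∈ vis i → b ∈ vis i → ∀ j ≤ G.d a b, ∃ c ∈ vis i, G.d a c = j

open Classical in
/-- indicator -/
noncomputable def ind (P : Prop) : ℝ≥0∞ := if P then 1 else 0

lemma ind_le_one (P : Prop) : ind P ≤ 1 := by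
  unfold ind; split_ifs <;> simp

lemma ind_mono {P Q : Prop} (h : P → Q) : ind P ≤ ind Q := by
  unfold ind; split_ifs with h1 h2 <;> simp_all

lemma ind_true {P : Prop} (h : P) : ind P = 1 := by simp [ind, h]
lemma ind_false {P : Prop} (h : ¬ P) : ind P = 0 := by simp [ind, h]

namespace Gas
variable {ι 𝔹 : Type*} [Fintype 𝔹] [DecidableEq 𝔹] {G : Geo 𝔹} (A : Gas ι 𝔹 G)

/-- the cluster meets `a` and a block at distance at least `R` -/
def J (a : 𝔹) (R : ℕ) (i : ι) : Prop := a ∈ A.vis i ∧ ∃ b ∈ A.vis i, R ≤ G.d a b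

/-- total mass in a ball of blocks -/
noncomputable def XB (a : 𝔹) (R : ℕ) (i : ι) : ℝ≥0∞ := ∑ b ∈ G.ball a R, A.X i b

/-- `W b0 R` -/
noncomputable def W (a : 𝔹) (R : ℕ) : ℝ≥0∞ := S A.p fun i => ind (A.J a R i) * (A.X i a) ^ 2

/-- `Xi` -/
noncomputable def Xi (a : 𝔹) (R : ℕ) (β : 𝔹) : ℝ≥0∞ :=
  S A.p fun i => ind (β ∈ A.vis i) * (A.XB a R i) ^ 2

/-- moments, fatness -/
structure Fat (K : ℝ≥0) (D : ℕ) : Prop where
  one_le : 1 ≤ K
  mom2 : ∀ b, S A.p (fun i => (A.X i b) ^ 2) ≤ K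
  mom20 : ∀ b, S A.p (fun i => (A.X i b) ^ 20) ≤ K
  fat2 : ∀ β b b', S A.p (fun i => ind (A.J β D i) * (A.X i b * A.X i b')) ≤
    K * S A.p (fun i => ind (A.J β D i) * (A.X i b * A.X i b') * A.XB β D i)

end Gas

section pointwise

lemma amgm3 (x y z : ℝ≥0∞) : x * y ^ 9 * z ^ 10 ≤ x ^ 20 + y ^ 20 + z ^ 20 := by
  set m := max x (max y z) with hm
  have hx : x ≤ m := le_max_left _ _
  have hy : y ≤ m := (le_max_left _ _).trans (le_max_right _ _)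
  have hz : z ≤ m := (le_max_right _ _).trans (le_max_right _ _)
  have h1 : x * y ^ 9 * z ^ 10 ≤ m * m ^ 9 * m ^ 10 := by
    gcongr
  have h2 : m * m ^ 9 * m ^ 10 = m ^ 20 := by ring
  have h3 : m ^ 20 ≤ x ^ 20 + y ^ 20 + z ^ 20 := by
    rcases max_choice x (max y z) with h | h
    · rw [hm, h]; rw [add_assoc]; exact le_self_add
    · rcases max_choice y z with h' | h'
      · rw [hm, h, h']; rw [add_assoc]; exact le_add_left le_self_add
      · rw [hm, h, h']; exact le_add_self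
  exact h1.trans (h2 ▸ h3)

lemma pt1 (x y z l : ℝ≥0∞) (hl : l ≠ 0) (hl' : l ≠ ∞) :
    x * y * z ^ 2 ≤ l * (x * z) + (l ^ 8)⁻¹ * (x ^ 20 + y ^ 20 + z ^ 20) := by
  by_cases h : y * z ≤ l
  · have : x * y * z ^ 2 = (x * z) * (y * z) := by ring
    rw [this]
    calc (x * z) * (y * z) ≤ (x * z) * l := by gcongr
      _ = l * (x * z) := mul_comm _ _
      _ ≤ _ := le_self_add
  · have h' : l ≤ y * z := (not_le.1 h).le
    have e1 : x * y * z ^ 2 = (l ^ 8)⁻¹ * ((x * z) * (y * z) * l ^ 8) := by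
      rw [mul_comm ((l ^ 8)⁻¹), mul_assoc, mul_assoc, mul_assoc, ENNReal.mul_inv_cancel
        (pow_ne_zero _ hl) (ENNReal.pow_ne_top hl')]
      ring
    rw [e1]
    refine le_trans ?_ le_add_self
    gcongr
    calc (x * z) * (y * z) * l ^ 8 ≤ (x * z) * (y * z) * (y * z) ^ 8 := by gcongr
      _ = x * y ^ 9 * z ^ 10 := by ring
      _ ≤ _ := amgm3 x y z

lemma pt2 (x c : ℝ≥0∞) (hc : c ≠ 0) (hc' : c ≠ ∞) : x ≤ c + c⁻¹ * x ^ 2 := by
  by_cases h : x ≤ c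
  · exact h.trans le_self_add
  · have h' : c ≤ x := (not_le.1 h).le
    refine le_trans ?_ le_add_self
    calc x = c⁻¹ * (c * x) := by
            rw [← mul_assoc, ENNReal.inv_mul_cancel hc hc', one_mul]
      _ ≤ c⁻¹ * (x * x) := by gcongr
      _ = c⁻¹ * x ^ 2 := by ring

/-- `x y z^2 <= s⁻¹ z^2 + s (x^6+y^6+z^6)` -/
lemma pt3 (x y z s : ℝ≥0∞) (hs : s ≠ 0) (hs' : s ≠ ∞) :
    x * y * z ^ 2 ≤ s⁻¹ * z ^ 2 + s * (x ^ 6 + y ^ 6 + z ^ 6) := by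
  have h1 : x * y ≤ s⁻¹ + s * (x * y) ^ 2 := by
    have := pt2 (x * y) s⁻¹ (by simpa using hs') (by simpa using hs)
    simpa using this
  have h2 : (x * y) ^ 2 * z ^ 2 ≤ x ^ 6 + y ^ 6 + z ^ 6 := by
    set m := max x (max y z) with hm
    have hx : x ≤ m := le_max_left _ _
    have hy : y ≤ m := (le_max_left _ _).trans (le_max_right _ _)
    have hz : z ≤ m := (le_max_right _ _).trans (le_max_right _ _)
    have h1 : (x * y) ^ 2 * z ^ 2 ≤ (m * m) ^ 2 * m ^ 2 := by gcongr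
    have h2 : (m * m) ^ 2 * m ^ 2 = m ^ 6 := by ring
    have h3 : m ^ 6 ≤ x ^ 6 + y ^ 6 + z ^ 6 := by
      rcases max_choice x (max y z) with h | h
      · rw [hm, h]; rw [add_assoc]; exact le_self_add
      · rcases max_choice y z with h' | h'
        · rw [hm, h, h']; rw [add_assoc]; exact le_add_left le_self_add
        · rw [hm, h, h']; exact le_add_self
    exact h1.trans (h2 ▸ h3)
  calc x * y * z ^ 2 ≤ (s⁻¹ + s * (x * y) ^ 2) * z ^ 2 := by gcongr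
    _ = s⁻¹ * z ^ 2 + s * ((x * y) ^ 2 * z ^ 2) := by ring
    _ ≤ _ := by gcongr

lemma pow6_le (x : ℝ≥0∞) : x ^ 6 ≤ x ^ 2 + x ^ 20 := by
  rcases le_total x 1 with h | h
  · exact (pow_le_pow_right_of_le_one' h (by norm_num)).trans le_self_add
  · exact (pow_le_pow_right₀ h (by norm_num)).trans le_add_self

lemma pow3_le (x : ℝ≥0∞) : x ^ 3 ≤ x ^ 2 + x ^ 20 := by
  rcases le_total x 1 with h | h
  · exact (pow_le_pow_right_of_le_one' h (by norm_num)).trans le_self_add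
  · exact (pow_le_pow_right₀ h (by norm_num)).trans le_add_self

lemma mul_le_sq_add (x y : ℝ≥0∞) : x * y ≤ x ^ 2 + y ^ 2 := by
  rcases le_total x y with h | h
  · calc x * y ≤ y * y := by gcongr
      _ = y ^ 2 := by ring
      _ ≤ _ := le_add_self
  · calc x * y ≤ x * x := by gcongr
      _ = x ^ 2 := by ring
      _ ≤ _ := le_self_add

lemma sq_sum_le {α : Type*} (s : Finset α) (f : α → ℝ≥0∞) :
    (∑ a ∈ s, f a) ^ 2 ≤ (s.card : ℝ≥0∞) ^ 2 * ∑ a ∈ s, f a ^ 2 := by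
  classical
  rcases s.eq_empty_or_nonempty with rfl | hs
  · simp
  obtain ⟨a, ha, hmax⟩ := s.exists_max_image f hs
  have h1 : ∑ b ∈ s, f b ≤ (s.card : ℝ≥0∞) * f a := by
    calc ∑ b ∈ s, f b ≤ ∑ b ∈ s, f a := Finset.sum_le_sum hmax
      _ = _ := by simp
  calc (∑ a ∈ s, f a) ^ 2 ≤ ((s.card : ℝ≥0∞) * f a) ^ 2 := by gcongr
    _ = (s.card : ℝ≥0∞) ^ 2 * f a ^ 2 := by ring
    _ ≤ _ := by
      gcongr
      exact Finset.single_le_sum (f := fun b => f b ^ 2) (fun _ _ => bot_le) ha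

end pointwise

/-- squares from fatness -/
lemma fatsq {ι : Type*} {p : ι → ℝ≥0∞} {K : ℝ≥0} (hK : 1 ≤ K) (w N : ι → ℝ≥0∞)
    (hfin : S p w ≠ ∞) (h : S p w ≤ K * S p (fun i => w i * N i)) :
    S p w ≤ 4 * (K : ℝ≥0∞) ^ 2 * S p (fun i => w i * N i ^ 2) := by
  have hK0 : (K : ℝ≥0∞) ≠ 0 := by
    have : K ≠ 0 := (zero_lt_one.trans_le hK).ne'
    exact_mod_cast this
  have hKt : (K : ℝ≥0∞) ≠ ∞ := ENNReal.coe_ne_top
  have hc0 : (2 * (K : ℝ≥0∞))⁻¹ ≠ 0 := by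
    rw [Ne, ENNReal.inv_eq_zero]; exact ENNReal.mul_ne_top (by norm_num) hKt
  have hct : (2 * (K : ℝ≥0∞))⁻¹ ≠ ∞ := by
    rw [Ne, ENNReal.inv_eq_top]; exact mul_ne_zero (by norm_num) hK0
  have h1 : S p (fun i => w i * N i) ≤
      (2 * (K : ℝ≥0∞))⁻¹ * S p w + 2 * K * S p (fun i => w i * N i ^ 2) := by
    rw [← S_mul, ← S_mul, ← S_add]
    apply S_mono
    intro i
    have := pt2 (N i) _ hc0 hct
    rw [inv_inv] at this
    calc w i * N i ≤ w i * ((2 * (K : ℝ≥0∞))⁻¹ + 2 * K * N i ^ 2) := by gcongr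
      _ = _ := by ring
  have h2 : S p w ≤ (2 : ℝ≥0∞)⁻¹ * S p w + 2 * (K : ℝ≥0∞) ^ 2 * S p (fun i => w i * N i ^ 2) := by
    calc S p w ≤ K * ((2 * (K : ℝ≥0∞))⁻¹ * S p w + 2 * K * S p (fun i => w i * N i ^ 2)) :=
          h.trans (by gcongr)
      _ = (K * (2 * (K : ℝ≥0∞))⁻¹) * S p w + 2 * (K : ℝ≥0∞) ^ 2 * S p (fun i => w i * N i ^ 2) := by
          ring
      _ = _ := by
          congr 2
          rw [ENNReal.mul_inv (Or.inl (by norm_num)) (Or.inl (by norm_num)), mul_comm (2 : ℝ≥0∞)⁻¹,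
            ← mul_assoc, ENNReal.mul_inv_cancel hK0 hKt, one_mul]
  have h3 : S p w = (2 : ℝ≥0∞)⁻¹ * S p w + (2 : ℝ≥0∞)⁻¹ * S p w := by
    rw [← add_mul, ENNReal.inv_two_add_inv_two, one_mul]
  have hfin2 : (2 : ℝ≥0∞)⁻¹ * S p w ≠ ∞ := ENNReal.mul_ne_top (by norm_num) hfin
  have h4 : (2 : ℝ≥0∞)⁻¹ * S p w ≤ 2 * (K : ℝ≥0∞) ^ 2 * S p (fun i => w i * N i ^ 2) := by
    have h5 : (2 : ℝ≥0∞)⁻¹ * S p w + (2 : ℝ≥0∞)⁻¹ * S p w ≤
      (2 : ℝ≥0∞)⁻¹ * S p w + 2 * (K : ℝ≥0∞) ^ 2 * S p (fun i => w i * N i ^ 2) := by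
      rw [← h3]; exact h2
    exact (ENNReal.add_le_add_iff_left hfin2).1 h5
  calc S p w = 2 * ((2 : ℝ≥0∞)⁻¹ * S p w) := by
        rw [← mul_assoc, ENNReal.mul_inv_cancel (by norm_num) (by norm_num), one_mul]
    _ ≤ 2 * (2 * (K : ℝ≥0∞) ^ 2 * S p (fun i => w i * N i ^ 2)) := by gcongr
    _ = _ := by ring

namespace Gas
variable {ι 𝔹 : Type*} [Fintype 𝔹] [DecidableEq 𝔹] {G : Geo 𝔹} (A : Gas ι 𝔹 G)

/-- triple correlation `S (X_b X_b' X_β²)` -/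
noncomputable def T (β b b' : 𝔹) : ℝ≥0∞ := S A.p fun i => A.X i b * A.X i b' * A.X i β ^ 2

lemma T_symm (β b b' : 𝔹) : A.T β b b' = A.T β b' b := S_congr fun i => by ring

omit [DecidableEq 𝔹] in
lemma sum_pairs_le (β : 𝔹) (s : Finset 𝔹) (F : 𝔹 → 𝔹 → ℝ≥0∞) (hF : ∀ b b', F b b' = F b' b) :
    ∑ b ∈ s, ∑ b' ∈ s, F b b' ≤
      2 * ∑ b ∈ s, ∑ b' ∈ s.filter (fun b' => G.d β b' ≤ G.d β b), F b b' := by
  classical
  have h1 : ∑ b ∈ s, ∑ b' ∈ s, F b b' ≤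
      ∑ b ∈ s, ∑ b' ∈ s, ((if G.d β b' ≤ G.d β b then F b b' else 0) +
        (if G.d β b ≤ G.d β b' then F b b' else 0)) := by
    refine Finset.sum_le_sum fun b _ => Finset.sum_le_sum fun b' _ => ?_
    rcases le_total (G.d β b) (G.d β b') with h | h
    · simp [h]
    · simp [h]
  have h2 : ∑ b ∈ s, ∑ b' ∈ s, (if G.d β b ≤ G.d β b' then F b b' else 0) =
      ∑ b ∈ s, ∑ b' ∈ s, (if G.d β b' ≤ G.d β b then F b b' else 0) := by
    rw [Finset.sum_comm]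
    refine Finset.sum_congr rfl fun b _ => Finset.sum_congr rfl fun b' _ => ?_
    rw [hF b' b]
  calc _ ≤ _ := h1
    _ = 2 * ∑ b ∈ s, ∑ b' ∈ s, (if G.d β b' ≤ G.d β b then F b b' else 0) := by
      simp only [Finset.sum_add_distrib]
      rw [h2, two_mul]
    _ = _ := by
      congr 1
      refine Finset.sum_congr rfl fun b _ => ?_
      rw [Finset.sum_filter]

omit [DecidableEq 𝔹] in
lemma sum_pairs_le' (β : 𝔹) (s : Finset 𝔹) (F : 𝔹 → 𝔹 → ℝ≥0∞) (hF : ∀ b b', F b b' = F b' b)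
    (g : 𝔹 → ℝ≥0∞) (c : ℝ≥0∞)
    (h : ∀ b ∈ s, ∀ b' ∈ s, G.d β b' ≤ G.d β b → F b b' ≤ g b + c) :
    ∑ b ∈ s, ∑ b' ∈ s, F b b' ≤
      8 * ∑ b ∈ s, ((1 + G.d β b : ℕ) : ℝ≥0∞) ^ 2 * g b + 2 * (s.card : ℝ≥0∞) ^ 2 * c := by
  classical
  refine (sum_pairs_le (G := G) β s F hF).trans ?_
  have h1 : ∀ b ∈ s, ∑ b' ∈ s.filter (fun b' => G.d β b' ≤ G.d β b), F b b' ≤
      4 * (((1 + G.d β b : ℕ) : ℝ≥0∞) ^ 2 * g b) + (s.card : ℝ≥0∞) * c := by
    intro b hb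
    have e1 : ∑ b' ∈ s.filter (fun b' => G.d β b' ≤ G.d β b), F b b' ≤
        ∑ b' ∈ s.filter (fun b' => G.d β b' ≤ G.d β b), (g b + c) := by
      refine Finset.sum_le_sum fun b' hb' => ?_
      rw [Finset.mem_filter] at hb'
      exact h b hb b' hb'.1 hb'.2
    refine e1.trans ?_
    rw [Finset.sum_add_distrib, Finset.sum_const, Finset.sum_const, nsmul_eq_mul, nsmul_eq_mul]
    have c1 : (s.filter (fun b' => G.d β b' ≤ G.d β b)).card ≤ (2 * G.d β b + 1) ^ 2 := by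
      refine (Finset.card_le_card ?_).trans (G.ball_card β (G.d β b))
      intro x hx
      simp only [Finset.mem_filter, Finset.mem_univ, true_and] at hx ⊢
      exact hx.2
    have c2 : (s.filter (fun b' => G.d β b' ≤ G.d β b)).card ≤ s.card :=
      Finset.card_le_card (Finset.filter_subset _ _)
    have c3 : (2 * G.d β b + 1) ^ 2 ≤ 4 * (1 + G.d β b) ^ 2 := by nlinarith [Nat.zero_le (G.d β b)]
    gcongr ?_ + ?_
    · rw [← mul_assoc]
      gcongr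
      calc (((s.filter (fun b' => G.d β b' ≤ G.d β b)).card : ℕ) : ℝ≥0∞)
          ≤ ((4 * (1 + G.d β b) ^ 2 : ℕ) : ℝ≥0∞) := by exact_mod_cast c1.trans c3
        _ = _ := by push_cast; ring
    · gcongr
  calc 2 * ∑ b ∈ s, ∑ b' ∈ s.filter (fun b' => G.d β b' ≤ G.d β b), F b b'
      ≤ 2 * ∑ b ∈ s, (4 * (((1 + G.d β b : ℕ) : ℝ≥0∞) ^ 2 * g b) + (s.card : ℝ≥0∞) * c) := by
        gcongr with b hb
        exact h1 b hb
    _ = _ := by
        rw [Finset.sum_add_distrib, ← Finset.mul_sum, Finset.sum_const, nsmul_eq_mul]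
        ring

/-- **first bound on the triple sum** -/
lemma sum_T_le {K : ℝ≥0} {D : ℕ} (hF : A.Fat K D) (β : 𝔹) (a : 𝔹) (R : ℕ) {q : ℝ≥0} (hq : 1 ≤ q)
    (hc : ∑ b ∈ G.ball a R, ((1 + G.d β b : ℕ) : ℝ≥0∞) ^ 2 * S A.p (fun i => A.X i b * A.X i β) ≤
      K * q) :
    ∑ b ∈ G.ball a R, ∑ b' ∈ G.ball a R, A.T β b b' ≤
      104 * (K : ℝ≥0∞) * ((NNReal.sqrt (1 + R) : ℝ≥0) : ℝ≥0∞) * q := by
  set l : ℝ≥0 := NNReal.sqrt (1 + R) with hl
  have hl1 : 1 ≤ l := by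
    rw [hl]
    calc (1 : ℝ≥0) = NNReal.sqrt 1 := by simp
      _ ≤ _ := NNReal.sqrt_le_sqrt.2 (by simp)
  have hl8 : l ^ 8 = (1 + R) ^ 4 := by
    have : l ^ 2 = 1 + R := NNReal.sq_sqrt _
    calc l ^ 8 = (l ^ 2) ^ 4 := by ring
      _ = _ := by rw [this]
  have hl0 : (l : ℝ≥0∞) ≠ 0 := by
    have : l ≠ 0 := (zero_lt_one.trans_le hl1).ne'
    exact_mod_cast this
  have hlt : (l : ℝ≥0∞) ≠ ∞ := ENNReal.coe_ne_top
  have key : ∀ b b', A.T β b b' ≤ l * S A.p (fun i => A.X i b * A.X i β) +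
      ((l : ℝ≥0∞) ^ 8)⁻¹ * (3 * K) := by
    intro b b'
    unfold T
    calc S A.p (fun i => A.X i b * A.X i b' * A.X i β ^ 2)
        ≤ S A.p (fun i => l * (A.X i b * A.X i β) +
          ((l : ℝ≥0∞) ^ 8)⁻¹ * (A.X i b ^ 20 + A.X i b' ^ 20 + A.X i β ^ 20)) :=
          S_mono fun i => pt1 _ _ _ _ hl0 hlt
      _ = l * S A.p (fun i => A.X i b * A.X i β) + ((l : ℝ≥0∞) ^ 8)⁻¹ *
          (S A.p (fun i => A.X i b ^ 20) + S A.p (fun i => A.X i b' ^ 20) +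
            S A.p (fun i => A.X i β ^ 20)) := by
          rw [S_add, S_mul, S_mul, S_add, S_add]
      _ ≤ l * S A.p (fun i => A.X i b * A.X i β) + ((l : ℝ≥0∞) ^ 8)⁻¹ * (K + K + K) := by
          gcongr
          · exact hF.mom20 b
          · exact hF.mom20 b'
          · exact hF.mom20 β
      _ = _ := by ring
  refine (sum_pairs_le' (G := G) β (G.ball a R) (A.T β) (A.T_symm β)
    (fun b => l * S A.p (fun i => A.X i b * A.X i β)) (((l : ℝ≥0∞) ^ 8)⁻¹ * (3 * K))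
    (fun b _ b' _ _ => key b b')).trans ?_
  have h1 : ∑ b ∈ G.ball a R, ((1 + G.d β b : ℕ) : ℝ≥0∞) ^ 2 *
      (l * S A.p (fun i => A.X i b * A.X i β)) ≤ l * (K * q) := by
    calc _ = l * ∑ b ∈ G.ball a R,
          ((1 + G.d β b : ℕ) : ℝ≥0∞) ^ 2 * S A.p (fun i => A.X i b * A.X i β) := by
          rw [Finset.mul_sum]; exact Finset.sum_congr rfl fun b _ => by ring
      _ ≤ _ := by gcongr
  have h2 : ((G.ball a R).card : ℝ≥0∞) ^ 2 * (((l : ℝ≥0∞) ^ 8)⁻¹ * (3 * K)) ≤ 48 * K := by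
    have c1 : (G.ball a R).card ^ 2 ≤ 16 * (1 + R) ^ 4 := by
      have := G.card_ball a R
      have c3 : (2 * R + 1) ^ 2 ≤ 4 * (1 + R) ^ 2 := by nlinarith [Nat.zero_le R]
      calc (G.ball a R).card ^ 2 ≤ (4 * (1 + R) ^ 2) ^ 2 := Nat.pow_le_pow_left (this.trans c3) 2
        _ = _ := by ring
    have c2 : ((G.ball a R).card : ℝ≥0∞) ^ 2 ≤ 16 * (l : ℝ≥0∞) ^ 8 := by
      have e : (l : ℝ≥0∞) ^ 8 = ((1 + R : ℕ) : ℝ≥0∞) ^ 4 := by
        have : ((l ^ 8 : ℝ≥0) : ℝ≥0∞) = (((1 + R) ^ 4 : ℝ≥0) : ℝ≥0∞) := by rw [hl8]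
        push_cast at this ⊢
        exact this
      rw [e]
      exact_mod_cast c1
    calc ((G.ball a R).card : ℝ≥0∞) ^ 2 * (((l : ℝ≥0∞) ^ 8)⁻¹ * (3 * K))
        ≤ (16 * (l : ℝ≥0∞) ^ 8) * (((l : ℝ≥0∞) ^ 8)⁻¹ * (3 * K)) := by gcongr
      _ = ((l : ℝ≥0∞) ^ 8 * ((l : ℝ≥0∞) ^ 8)⁻¹) * (48 * K) := by ring
      _ = 48 * K := by
        rw [ENNReal.mul_inv_cancel (pow_ne_zero _ hl0) (ENNReal.pow_ne_top hlt), one_mul]
  have h3 : (8 : ℝ≥0∞) * ∑ b ∈ G.ball a R, ((1 + G.d β b : ℕ) : ℝ≥0∞) ^ 2 *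
        ((l : ℝ≥0∞) * S A.p (fun i => A.X i b * A.X i β)) ≤ 8 * ((l : ℝ≥0∞) * (K * q)) := by
    gcongr
  have h4 : (2 : ℝ≥0∞) * ((G.ball a R).card : ℝ≥0∞) ^ 2 * (((l : ℝ≥0∞) ^ 8)⁻¹ * (3 * K)) ≤
      2 * (48 * (K : ℝ≥0∞) * (l * q)) := by
    rw [mul_assoc]
    calc (2 : ℝ≥0∞) * (((G.ball a R).card : ℝ≥0∞) ^ 2 * (((l : ℝ≥0∞) ^ 8)⁻¹ * (3 * K)))
        ≤ 2 * (48 * (K : ℝ≥0∞)) := by gcongr
      _ = 2 * (48 * (K : ℝ≥0∞) * (1 * 1)) := by rw [mul_one, mul_one]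
      _ ≤ _ := by gcongr <;> norm_cast
  refine (add_le_add h3 h4).trans (le_of_eq ?_)
  ring

/-- pointwise: mass of a ball at a cluster which is short at `β` -/
lemma XB_short {β : 𝔹} {D : ℕ} {i : ι} (hv : β ∈ A.vis i) (hJ : ¬ A.J β D i) (a : 𝔹) (R : ℕ) :
    A.XB a R i ≤ A.XB β D i := by
  unfold XB
  have h1 : ∑ b ∈ G.ball a R, A.X i b ≤ ∑ b, A.X i b :=
    Finset.sum_le_sum_of_subset (Finset.subset_univ _)
  refine h1.trans (le_of_eq ?_)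
  symm
  apply Finset.sum_subset (Finset.subset_univ _)
  intro b _ hb
  by_contra hne
  have hbv : b ∈ A.vis i := by
    by_contra h; exact hne (A.X_vis i b h)
  apply hJ
  refine ⟨hv, b, hbv, ?_⟩
  rw [G.mem_ball] at hb
  omega

lemma sq_XB_le (β : 𝔹) (D : ℕ) (i : ι) :
    A.XB β D i ^ 2 ≤ ((2 * D + 1 : ℕ) : ℝ≥0∞) ^ 4 * ∑ b ∈ G.ball β D, A.X i b ^ 2 := by
  unfold XB
  refine (sq_sum_le _ _).trans ?_
  have h1 : ((G.ball β D).card : ℝ≥0∞) ≤ ((2 * D + 1 : ℕ) : ℝ≥0∞) ^ 2 := by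
    have := G.card_ball β D
    exact_mod_cast this
  have h2 : ((G.ball β D).card : ℝ≥0∞) ^ 2 ≤ ((2 * D + 1 : ℕ) : ℝ≥0∞) ^ 4 := by
    calc ((G.ball β D).card : ℝ≥0∞) ^ 2 ≤ (((2 * D + 1 : ℕ) : ℝ≥0∞) ^ 2) ^ 2 := by gcongr
      _ = _ := by ring
  exact mul_le_mul_left h2 _

/-- **bound of `Xi` from the triple sums** -/
lemma Xi_le {K : ℝ≥0} {D : ℕ} (hF : A.Fat K D) (β : 𝔹) (a : 𝔹) (R : ℕ) (B : ℝ≥0∞)
    (hB : ∀ β' ∈ G.ball β D, ∑ b ∈ G.ball a R, ∑ b' ∈ G.ball a R, A.T β' b b' ≤ B) :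
    A.Xi a R β ≤ ((2 * D + 1 : ℕ) : ℝ≥0∞) ^ 6 * K + 4 * (K : ℝ≥0∞) ^ 2 *
      (((2 * D + 1 : ℕ) : ℝ≥0∞) ^ 6 * B) := by
  classical
  set n : ℝ≥0∞ := ((2 * D + 1 : ℕ) : ℝ≥0∞) with hn
  have hcard : ((G.ball β D).card : ℝ≥0∞) ≤ n ^ 2 := by
    have := G.card_ball β D
    rw [hn]; exact_mod_cast this
  have hsplit : A.Xi a R β ≤ S A.p (fun i => A.XB β D i ^ 2) +
      S A.p (fun i => ind (A.J β D i) * A.XB a R i ^ 2) := by
    unfold Xi
    rw [← S_add]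
    apply S_mono
    intro i
    by_cases hJ : A.J β D i
    · rw [ind_true hJ, one_mul]
      calc ind (β ∈ A.vis i) * A.XB a R i ^ 2 ≤ 1 * A.XB a R i ^ 2 := by
            gcongr; exact ind_le_one _
        _ = A.XB a R i ^ 2 := one_mul _
        _ ≤ _ := le_add_self
    · by_cases hv : β ∈ A.vis i
      · rw [ind_true hv, one_mul]
        refine le_trans ?_ le_self_add
        gcongr
        exact A.XB_short hv hJ a R
      · rw [ind_false hv, zero_mul]; exact bot_le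
  have h1 : S A.p (fun i => A.XB β D i ^ 2) ≤ n ^ 6 * K := by
    calc S A.p (fun i => A.XB β D i ^ 2)
        ≤ S A.p (fun i => n ^ 4 * ∑ b ∈ G.ball β D, A.X i b ^ 2) :=
          S_mono fun i => A.sq_XB_le β D i
      _ = n ^ 4 * ∑ b ∈ G.ball β D, S A.p (fun i => A.X i b ^ 2) := by
          rw [S_mul, S_sum]
      _ ≤ n ^ 4 * ∑ b ∈ G.ball β D, (K : ℝ≥0∞) := by
          gcongr with b hb
          exact hF.mom2 b
      _ = n ^ 4 * (((G.ball β D).card : ℝ≥0∞) * K) := by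
          rw [Finset.sum_const, nsmul_eq_mul]
      _ ≤ n ^ 4 * (n ^ 2 * K) := by gcongr
      _ = _ := by ring
  have h2 : S A.p (fun i => ind (A.J β D i) * A.XB a R i ^ 2) ≤
      4 * (K : ℝ≥0∞) ^ 2 * (n ^ 6 * B) := by
    have e1 : S A.p (fun i => ind (A.J β D i) * A.XB a R i ^ 2) =
        ∑ b ∈ G.ball a R, ∑ b' ∈ G.ball a R,
          S A.p (fun i => ind (A.J β D i) * (A.X i b * A.X i b')) := by
      have : ∀ i, ind (A.J β D i) * A.XB a R i ^ 2 =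
          ∑ b ∈ G.ball a R, ∑ b' ∈ G.ball a R, ind (A.J β D i) * (A.X i b * A.X i b') := by
        intro i
        unfold XB
        rw [sq, Finset.sum_mul_sum, Finset.mul_sum]
        refine Finset.sum_congr rfl fun b _ => ?_
        rw [Finset.mul_sum]
      rw [S_congr this, S_sum]
      refine Finset.sum_congr rfl fun b _ => ?_
      rw [S_sum]
    rw [e1]
    have e2 : ∀ b b', S A.p (fun i => ind (A.J β D i) * (A.X i b * A.X i b')) ≤
        4 * (K : ℝ≥0∞) ^ 2 * (n ^ 4 * ∑ β' ∈ G.ball β D, A.T β' b b') := by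
      intro b b'
      have hfin : S A.p (fun i => ind (A.J β D i) * (A.X i b * A.X i b')) ≠ ∞ := by
        apply ne_of_lt
        calc S A.p (fun i => ind (A.J β D i) * (A.X i b * A.X i b'))
            ≤ S A.p (fun i => A.X i b ^ 2 + A.X i b' ^ 2) := by
              apply S_mono; intro i
              calc ind (A.J β D i) * (A.X i b * A.X i b') ≤ 1 * (A.X i b * A.X i b') := by
                    gcongr; exact ind_le_one _
                _ = A.X i b * A.X i b' := one_mul _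
                _ ≤ _ := mul_le_sq_add _ _
          _ = S A.p (fun i => A.X i b ^ 2) + S A.p (fun i => A.X i b' ^ 2) := S_add _ _
          _ ≤ K + K := add_le_add (hF.mom2 b) (hF.mom2 b')
          _ < ∞ := by
            rw [ENNReal.add_lt_top]; exact ⟨ENNReal.coe_lt_top, ENNReal.coe_lt_top⟩
      refine (fatsq hF.one_le _ (fun i => A.XB β D i) hfin (hF.fat2 β b b')).trans ?_
      gcongr
      calc S A.p (fun i => ind (A.J β D i) * (A.X i b * A.X i b') * A.XB β D i ^ 2)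
          ≤ S A.p (fun i => n ^ 4 * ∑ β' ∈ G.ball β D, A.X i b * A.X i b' * A.X i β' ^ 2) := by
            apply S_mono; intro i
            calc ind (A.J β D i) * (A.X i b * A.X i b') * A.XB β D i ^ 2
                ≤ 1 * (A.X i b * A.X i b') * (n ^ 4 * ∑ β' ∈ G.ball β D, A.X i β' ^ 2) := by
                  gcongr
                  · exact ind_le_one _
                  · exact A.sq_XB_le β D i
              _ = n ^ 4 * ((A.X i b * A.X i b') * ∑ β' ∈ G.ball β D, A.X i β' ^ 2) := by ring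
              _ = _ := by rw [Finset.mul_sum]
        _ = _ := by rw [S_mul, S_sum]; rfl
    calc ∑ b ∈ G.ball a R, ∑ b' ∈ G.ball a R,
          S A.p (fun i => ind (A.J β D i) * (A.X i b * A.X i b'))
        ≤ ∑ b ∈ G.ball a R, ∑ b' ∈ G.ball a R,
          4 * (K : ℝ≥0∞) ^ 2 * (n ^ 4 * ∑ β' ∈ G.ball β D, A.T β' b b') :=
          Finset.sum_le_sum fun b _ => Finset.sum_le_sum fun b' _ => e2 b b'
      _ = 4 * (K : ℝ≥0∞) ^ 2 * (n ^ 4 * ∑ β' ∈ G.ball β D,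
            ∑ b ∈ G.ball a R, ∑ b' ∈ G.ball a R, A.T β' b b') := by
          have e3 : ∑ β' ∈ G.ball β D, ∑ b ∈ G.ball a R, ∑ b' ∈ G.ball a R, A.T β' b b' =
              ∑ b ∈ G.ball a R, ∑ b' ∈ G.ball a R, ∑ β' ∈ G.ball β D, A.T β' b b' := by
            rw [Finset.sum_comm]
            refine Finset.sum_congr rfl fun b _ => ?_
            rw [Finset.sum_comm]
          rw [e3]
          simp only [Finset.mul_sum]
      _ ≤ 4 * (K : ℝ≥0∞) ^ 2 * (n ^ 4 * ∑ β' ∈ G.ball β D, B) := by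
          gcongr with β' hβ'
          exact hB β' hβ'
      _ = 4 * (K : ℝ≥0∞) ^ 2 * (n ^ 4 * (((G.ball β D).card : ℝ≥0∞) * B)) := by
          rw [Finset.sum_const, nsmul_eq_mul]
      _ ≤ 4 * (K : ℝ≥0∞) ^ 2 * (n ^ 4 * (n ^ 2 * B)) := by gcongr
      _ = _ := by ring
  exact hsplit.trans (add_le_add h1 h2)

end Gas

namespace Gas
variable {ι 𝔹 : Type*} [Fintype 𝔹] [DecidableEq 𝔹] {G : Geo 𝔹} (A : Gas ι 𝔹 G)

/-- number of visited blocks in a ball -/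
noncomputable def nv (a : 𝔹) (R : ℕ) (i : ι) : ℝ≥0∞ := ((A.vis i ∩ G.ball a R).card : ℝ≥0∞)

/-- the weight `1_J X_a^2` -/
noncomputable def wJ (a : 𝔹) (R : ℕ) (i : ι) : ℝ≥0∞ := ind (A.J a R i) * (A.X i a) ^ 2

/-- numerator of `E_Q X_Λ` -/
noncomputable def EX (a : 𝔹) (R : ℕ) : ℝ≥0∞ := S A.p fun i => A.wJ a R i * A.XB a R i

/-- numerator of `E_Q #(vis ∩ Λ)` -/
noncomputable def EN (a : 𝔹) (R : ℕ) : ℝ≥0∞ := S A.p fun i => A.wJ a R i * A.nv a R i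

/-- the tilt inequality at `(a, R)` with bound `M` for `Xi` -/
def Tilt (K y : ℝ) (a : 𝔹) (R : ℕ) (M : ℝ) : Prop :=
  ∀ θ : ℝ, 0 < θ → θ ≤ 1 → A.W a R ≠ 0 →
    θ * ((A.EX a R).toReal / (A.W a R).toReal) ≤
      Real.log (K / (A.W a R).toReal) + K * θ ^ 2 * (y * ((R : ℝ) + 1) ^ 2 + ((R : ℝ) + 1) +
        ((A.EN a R).toReal / (A.W a R).toReal + ((R : ℝ) + 1)) * M)

lemma nv_ge {a : 𝔹} {R D : ℕ} {i : ι} (hJ : A.J a R i) :
    ((R - D + 1 : ℕ) : ℝ≥0∞) ≤ A.nv a (R - D) i := by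
  classical
  unfold nv
  have h : R - D + 1 ≤ (A.vis i ∩ G.ball a (R - D)).card := by
    obtain ⟨ha, b, hb, hRb⟩ := hJ
    have hc : ∀ j ∈ Finset.range (R - D + 1), ∃ c ∈ A.vis i, G.d a c = j := by
      intro j hj
      rw [Finset.mem_range] at hj
      exact A.conn i a b ha hb j (by omega)
    have : Nonempty 𝔹 := ⟨a⟩
    choose! f hf1 hf2 using hc
    calc R - D + 1 = (Finset.range (R - D + 1)).card := by simp
      _ ≤ _ := by
        refine Finset.card_le_card_of_injOn f ?_ ?_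
        · intro j hj
          have hj' := Finset.mem_coe.1 hj
          simp only [Finset.coe_inter, Set.mem_inter_iff, Finset.mem_coe, G.mem_ball]
          refine ⟨hf1 j hj', ?_⟩
          rw [hf2 j hj']
          rw [Finset.mem_range] at hj'
          omega
        · intro j hj k hk hjk
          rw [← hf2 j (Finset.mem_coe.1 hj), ← hf2 k (Finset.mem_coe.1 hk)]
          exact congrArg (G.d a) hjk
  exact_mod_cast h

lemma nv_le (a : 𝔹) (R D : ℕ) (i : ι) :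
    A.nv a R i ≤ A.nv a (R - D) i + ((D * (8 * (R + 1)) : ℕ) : ℝ≥0∞) := by
  classical
  unfold nv
  have h1 : A.vis i ∩ G.ball a R ⊆ (A.vis i ∩ G.ball a (R - D)) ∪
      ((Finset.Ioc (R - D) R).biUnion fun k => univ.filter fun b => G.d a b = k) := by
    intro b hb
    rw [Finset.mem_inter, G.mem_ball] at hb
    rw [Finset.mem_union]
    by_cases h : G.d a b ≤ R - D
    · left; rw [Finset.mem_inter, G.mem_ball]; exact ⟨hb.1, h⟩
    · right
      rw [Finset.mem_biUnion]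
      exact ⟨G.d a b, by rw [Finset.mem_Ioc]; omega, by simp⟩
  have h2 : ((Finset.Ioc (R - D) R).biUnion fun k => univ.filter fun b => G.d a b = k).card ≤
      D * (8 * (R + 1)) := by
    refine Finset.card_biUnion_le.trans ?_
    calc ∑ k ∈ Finset.Ioc (R - D) R, (univ.filter fun b => G.d a b = k).card
        ≤ ∑ k ∈ Finset.Ioc (R - D) R, 8 * (R + 1) := by
          refine Finset.sum_le_sum fun k hk => (G.sph_card a k).trans ?_
          rw [Finset.mem_Ioc] at hk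
          omega
      _ = (R - (R - D)) * (8 * (R + 1)) := by simp
      _ ≤ _ := by gcongr; omega
  have h3 := (Finset.card_le_card h1).trans ((Finset.card_union_le _ _).trans
    (Nat.add_le_add_left h2 _))
  exact_mod_cast h3

lemma sum_XB_le (a : 𝔹) (R D : ℕ) (hDR : D ≤ R) (i : ι) :
    ∑ β ∈ G.ball a (R - D), A.XB β D i ≤ ((2 * D + 1 : ℕ) : ℝ≥0∞) ^ 2 * A.XB a R i := by
  classical
  unfold XB
  have h1 : ∑ β ∈ G.ball a (R - D), ∑ b ∈ G.ball β D, A.X i b =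
      ∑ b, ∑ β ∈ G.ball a (R - D), if G.d β b ≤ D then A.X i b else 0 := by
    rw [Finset.sum_comm]
    refine Finset.sum_congr rfl fun β _ => ?_
    unfold Geo.ball
    rw [Finset.sum_filter]
  rw [h1, Finset.mul_sum]
  have h2 : ∀ b, (∑ β ∈ G.ball a (R - D), if G.d β b ≤ D then A.X i b else 0) ≤
      if b ∈ G.ball a R then ((2 * D + 1 : ℕ) : ℝ≥0∞) ^ 2 * A.X i b else 0 := by
    intro b
    by_cases hb : b ∈ G.ball a R
    · rw [if_pos hb, ← Finset.sum_filter, Finset.sum_const, nsmul_eq_mul]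
      gcongr
      have c1 : ((G.ball a (R - D)).filter fun β => G.d β b ≤ D).card ≤ (2 * D + 1) ^ 2 := by
        refine (Finset.card_le_card ?_).trans (G.card_ball b D)
        intro β hβ
        rw [Finset.mem_filter] at hβ
        rw [G.mem_ball, G.d_comm]
        exact hβ.2
      exact_mod_cast c1
    · rw [if_neg hb]
      apply le_of_eq
      apply Finset.sum_eq_zero
      intro β hβ
      rw [if_neg]
      intro h
      apply hb
      rw [G.mem_ball] at hβ ⊢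
      have := G.d_tri a β b
      omega
  calc ∑ b, (∑ β ∈ G.ball a (R - D), if G.d β b ≤ D then A.X i b else 0)
      ≤ ∑ b, if b ∈ G.ball a R then ((2 * D + 1 : ℕ) : ℝ≥0∞) ^ 2 * A.X i b else 0 :=
        Finset.sum_le_sum fun b _ => h2 b
    _ = _ := by
        rw [← Finset.sum_filter]
        congr 1
        ext b; simp

/-- **decay from the tilt inequality** -/
theorem decay {K : ℝ≥0} (hK : 1 ≤ K) {D R : ℕ} (hR : 2 * D ≤ R) (a : 𝔹)
    (hWfin : A.W a R ≠ ∞) (hXfin : A.EX a R ≠ ∞)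
    (hfat : ∀ β ∈ G.ball a (R - D), S A.p (fun i => A.wJ a R i * ind (β ∈ A.vis i)) ≤
      K * S A.p (fun i => A.wJ a R i * ind (β ∈ A.vis i) * A.XB β D i))
    {M y : ℝ} (hM : 1 ≤ M) (hyR : y * ((R : ℝ) + 1) ≤ 1) (ht : A.Tilt K y a R M) :
    (A.W a R).toReal ≤ K * Real.exp (-((R : ℝ) + 1) /
      (8 * (K : ℝ) ^ 3 * (2 * (D : ℝ) + 1) ^ 4 * (16 * (D : ℝ) + 7) * M)) := by
  classical
  have hK' : (1 : ℝ) ≤ K := by exact_mod_cast hK
  by_cases hW0 : A.W a R = 0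
  · rw [hW0]
    simp only [ENNReal.toReal_zero]
    positivity
  set w := (A.W a R).toReal with hw
  have hwpos : 0 < w := ENNReal.toReal_pos hW0 hWfin
  set n : ℝ := (2 * (D : ℝ) + 1) ^ 2 with hn
  have hn1 : 1 ≤ n := by
    rw [hn]
    have : (0 : ℝ) ≤ D := Nat.cast_nonneg D
    nlinarith
  -- E'
  set E' : ℝ≥0∞ := S A.p (fun i => A.wJ a R i * A.nv a (R - D) i) with hE'
  have hE'fin : E' ≠ ∞ := by
    apply ne_of_lt
    calc E' ≤ S A.p (fun i => ((Fintype.card 𝔹 : ℕ) : ℝ≥0∞) * A.wJ a R i) := by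
          apply S_mono; intro i
          rw [mul_comm]
          gcongr
          unfold nv
          exact_mod_cast (Finset.card_le_univ _)
      _ = ((Fintype.card 𝔹 : ℕ) : ℝ≥0∞) * A.W a R := by rw [S_mul]; rfl
      _ < ∞ := ENNReal.mul_lt_top (by simp) (lt_top_iff_ne_top.2 hWfin)
  set e : ℝ := E'.toReal / w with he
  -- (1)
  have h1 : (R : ℝ) - D + 1 ≤ e := by
    have : ((R - D + 1 : ℕ) : ℝ≥0∞) * A.W a R ≤ E' := by
      rw [hE']
      unfold W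
      rw [← S_mul]
      apply S_mono; intro i
      by_cases hJ : A.J a R i
      · rw [mul_comm]
        unfold wJ
        gcongr
        exact A.nv_ge hJ
      · rw [ind_false hJ]; simp
    have h2 := ENNReal.toReal_mono hE'fin this
    rw [ENNReal.toReal_mul, ENNReal.toReal_natCast] at h2
    rw [he, le_div_iff₀ hwpos]
    have h3 : ((R - D + 1 : ℕ) : ℝ) = (R : ℝ) - D + 1 := by
      push_cast [Nat.cast_sub (show D ≤ R by omega)]; ring
    rw [← h3]; exact h2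
  have hRD : ((R : ℝ) + 1) / 2 ≤ e := by
    have : (2 * (D : ℝ)) ≤ R := by exact_mod_cast hR
    linarith
  have hRpos : (0 : ℝ) < (R : ℝ) + 1 := by positivity
  have hepos : 0 < e := by linarith
  -- (2)
  have h2 : (A.EN a R).toReal / w ≤ (1 + 16 * (D : ℝ)) * e := by
    have : A.EN a R ≤ E' + ((D * (8 * (R + 1)) : ℕ) : ℝ≥0∞) * A.W a R := by
      unfold EN
      rw [hE']
      unfold W
      rw [← S_mul, ← S_add]
      apply S_mono; intro i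
      calc A.wJ a R i * A.nv a R i ≤ A.wJ a R i * (A.nv a (R - D) i +
            ((D * (8 * (R + 1)) : ℕ) : ℝ≥0∞)) := by gcongr; exact A.nv_le a R D i
        _ = _ := by unfold wJ; ring
    have h3 := ENNReal.toReal_mono (by
      apply ENNReal.add_ne_top.2 ⟨hE'fin, ENNReal.mul_ne_top (ENNReal.natCast_ne_top _) hWfin⟩) this
    rw [ENNReal.toReal_add hE'fin (ENNReal.mul_ne_top (ENNReal.natCast_ne_top _) hWfin),
      ENNReal.toReal_mul, ENNReal.toReal_natCast] at h3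
    rw [div_le_iff₀ hwpos]
    have h4 : E'.toReal = e * w := by rw [he]; field_simp
    rw [h4] at h3
    push_cast at h3
    have hD : (0 : ℝ) ≤ D := Nat.cast_nonneg D
    nlinarith [mul_nonneg hD hwpos.le, mul_le_mul_of_nonneg_right hRD
      (mul_nonneg hD hwpos.le)]
  -- (3)
  have h3 : e / (K * n) ≤ (A.EX a R).toReal / w := by
    have h30 : E' ≤ K * (((2 * D + 1 : ℕ) : ℝ≥0∞) ^ 2 * A.EX a R) := by
      have hEs : E' = ∑ β ∈ G.ball a (R - D), S A.p (fun i => A.wJ a R i * ind (β ∈ A.vis i)) := by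
        rw [hE', ← S_sum]
        apply S_congr; intro i
        rw [← Finset.mul_sum]
        congr 1
        unfold nv ind
        have e1 : A.vis i ∩ G.ball a (R - D) =
            (G.ball a (R - D)).filter (fun β => β ∈ A.vis i) := by
          ext x; simp only [Finset.mem_inter, Finset.mem_filter]; tauto
        rw [e1, ← Finset.sum_boole]
        refine Finset.sum_congr rfl fun x _ => ?_
        by_cases h : x ∈ A.vis i <;> simp [h]
      rw [hEs]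
      calc ∑ β ∈ G.ball a (R - D), S A.p (fun i => A.wJ a R i * ind (β ∈ A.vis i))
          ≤ ∑ β ∈ G.ball a (R - D), K * S A.p (fun i => A.wJ a R i * A.XB β D i) := by
            refine Finset.sum_le_sum fun β hβ => (hfat β hβ).trans ?_
            gcongr
            apply S_mono; intro i
            calc A.wJ a R i * ind (β ∈ A.vis i) * A.XB β D i ≤ A.wJ a R i * 1 * A.XB β D i := by
                  gcongr; exact ind_le_one _
              _ = _ := by rw [mul_one]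
        _ = K * S A.p (fun i => A.wJ a R i * ∑ β ∈ G.ball a (R - D), A.XB β D i) := by
            rw [← Finset.mul_sum, ← S_sum]
            congr 1
            apply S_congr; intro i
            rw [Finset.mul_sum]
        _ ≤ K * S A.p (fun i => ((2 * D + 1 : ℕ) : ℝ≥0∞) ^ 2 * (A.wJ a R i * A.XB a R i)) := by
            gcongr
            apply S_mono; intro i
            calc A.wJ a R i * ∑ β ∈ G.ball a (R - D), A.XB β D i
                ≤ A.wJ a R i * (((2 * D + 1 : ℕ) : ℝ≥0∞) ^ 2 * A.XB a R i) := by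
                  gcongr; exact A.sum_XB_le a R D (by omega) i
              _ = _ := by ring
        _ = _ := by rw [S_mul]; rfl
    have h31 := ENNReal.toReal_mono (ENNReal.mul_ne_top ENNReal.coe_ne_top
      (ENNReal.mul_ne_top (ENNReal.pow_ne_top (ENNReal.natCast_ne_top _)) hXfin)) h30
    rw [ENNReal.toReal_mul, ENNReal.toReal_mul, ENNReal.toReal_pow, ENNReal.toReal_natCast,
      ENNReal.coe_toReal] at h31
    push_cast at h31
    rw [← hn] at h31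
    rw [he, div_div, div_le_div_iff₀ (by positivity) hwpos]
    nlinarith [h31]
  -- choose theta
  have hKpos : (0 : ℝ) < K := by linarith
  have hD0 : (0 : ℝ) ≤ D := Nat.cast_nonneg D
  have hnpos : 0 < n := by linarith
  have hMpos : 0 < M := by linarith
  set q : ℝ := 16 * (D : ℝ) + 7 with hq
  have hq7 : 7 ≤ q := by rw [hq]; linarith
  set θ : ℝ := 1 / (2 * (K : ℝ) ^ 2 * n * q * M) with hθ
  have hden : 1 ≤ 2 * (K : ℝ) ^ 2 * n * q * M := by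
    have a1 : (1 : ℝ) ≤ (K : ℝ) ^ 2 := one_le_pow₀ hK'
    have a2 : (1 : ℝ) ≤ (K : ℝ) ^ 2 * n := one_le_mul_of_one_le_of_one_le a1 hn1
    have a3 : (1 : ℝ) ≤ (K : ℝ) ^ 2 * n * q := one_le_mul_of_one_le_of_one_le a2 (by linarith)
    have a4 : (1 : ℝ) ≤ (K : ℝ) ^ 2 * n * q * M := one_le_mul_of_one_le_of_one_le a3 hM
    nlinarith
  have hθpos : 0 < θ := by rw [hθ]; positivity
  have hθ1 : θ ≤ 1 := by rw [hθ]; exact div_le_one_of_le₀ hden (by linarith)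
  have ht1 := ht θ hθpos hθ1 hW0
  rw [← hw] at ht1
  have hbr : y * ((R : ℝ) + 1) ^ 2 + ((R : ℝ) + 1) +
        ((A.EN a R).toReal / w + ((R : ℝ) + 1)) * M ≤ q * e * M := by
    have b1 : y * ((R : ℝ) + 1) ^ 2 ≤ (R : ℝ) + 1 := by
      have := mul_le_mul_of_nonneg_right hyR hRpos.le
      nlinarith
    have b2 : (R : ℝ) + 1 ≤ 2 * e := by linarith
    have b3 : ((A.EN a R).toReal / w + ((R : ℝ) + 1)) * M ≤ ((1 + 16 * (D : ℝ)) * e + 2 * e) * M := by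
      apply mul_le_mul_of_nonneg_right _ hMpos.le
      linarith
    have b4 : 4 * e ≤ 4 * e * M := by nlinarith
    rw [hq]
    nlinarith
  have hmain : θ * e / (2 * K * n) ≤ Real.log (K / w) := by
    have c1 : θ * (e / (K * n)) ≤ θ * ((A.EX a R).toReal / w) :=
      mul_le_mul_of_nonneg_left h3 hθpos.le
    have c2 : (K : ℝ) * θ ^ 2 * (y * ((R : ℝ) + 1) ^ 2 + ((R : ℝ) + 1) +
        ((A.EN a R).toReal / w + ((R : ℝ) + 1)) * M) ≤ (K : ℝ) * θ ^ 2 * (q * e * M) :=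
      mul_le_mul_of_nonneg_left hbr (by positivity)
    have c3 : (K : ℝ) * θ ^ 2 * (q * e * M) = θ * e / (2 * K * n) := by
      rw [hθ]; field_simp
    have c4 : θ * (e / (K * n)) = θ * e / (2 * K * n) + θ * e / (2 * K * n) := by
      field_simp; ring
    linarith
  have hlow : ((R : ℝ) + 1) / (8 * (K : ℝ) ^ 3 * (2 * (D : ℝ) + 1) ^ 4 * (16 * (D : ℝ) + 7) * M) ≤
      θ * e / (2 * K * n) := by
    have d1 : (2 * (D : ℝ) + 1) ^ 4 = n ^ 2 := by rw [hn]; ring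
    rw [d1, ← hq]
    have d2 : ((R : ℝ) + 1) / (8 * (K : ℝ) ^ 3 * n ^ 2 * q * M) = θ * (((R : ℝ) + 1) / 2) / (2 * K * n) := by
      rw [hθ]; field_simp; ring
    rw [d2]
    gcongr
  have hlog : Real.log (K / w) = Real.log K - Real.log w := Real.log_div hKpos.ne' hwpos.ne'
  have hfin : Real.log w ≤ Real.log K + (-((R : ℝ) + 1) /
      (8 * (K : ℝ) ^ 3 * (2 * (D : ℝ) + 1) ^ 4 * (16 * (D : ℝ) + 7) * M)) := by
    rw [neg_div]; linarith
  calc w = Real.exp (Real.log w) := (Real.exp_log hwpos).symm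
    _ ≤ Real.exp (Real.log K + (-((R : ℝ) + 1) /
      (8 * (K : ℝ) ^ 3 * (2 * (D : ℝ) + 1) ^ 4 * (16 * (D : ℝ) + 7) * M))) := Real.exp_le_exp.2 hfin
    _ = _ := by rw [Real.exp_add, Real.exp_log hKpos]

end Gas

lemma sum_inv_cube (n : ℕ) : ∑ k ∈ Finset.range n, (((k : ℝ) + 1) ^ 3)⁻¹ ≤ 3 - 2 / ((n : ℝ) + 1) := by
  induction n with
  | zero => norm_num
  | succ n ih =>
    rw [Finset.sum_range_succ]
    have h0 : (0 : ℝ) < (n : ℝ) + 1 := by positivity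
    have h1 : (((n : ℝ) + 1) ^ 3)⁻¹ ≤ 2 / ((n : ℝ) + 1) - 2 / (((n + 1 : ℕ) : ℝ) + 1) := by
      push_cast
      rw [div_sub_div _ _ h0.ne' (by positivity), ← one_div, div_le_div_iff₀ (by positivity)
        (by positivity)]
      have : (0 : ℝ) ≤ n := Nat.cast_nonneg n
      nlinarith [pow_nonneg this 2, pow_nonneg this 3, pow_nonneg this 4]
    linarith

lemma Geo.sum_inv {𝔹 : Type*} [Fintype 𝔹] (G : Geo 𝔹) (β : 𝔹) :
    ∑ b, ((((1 + G.d β b : ℕ) : ℝ≥0∞)) ^ 4)⁻¹ ≤ 24 := by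
  classical
  obtain ⟨N, hN⟩ : ∃ N, ∀ b, G.d β b < N :=
    ⟨(univ.sup fun b => G.d β b) + 1, fun b =>
      Nat.lt_succ_of_le (Finset.le_sup (f := fun b => G.d β b) (Finset.mem_univ b))⟩
  have h1 : ∑ b, ((((1 + G.d β b : ℕ) : ℝ≥0∞)) ^ 4)⁻¹ =
      ∑ k ∈ Finset.range N, ∑ b ∈ univ.filter (fun b => G.d β b = k),
        ((((1 + G.d β b : ℕ) : ℝ≥0∞)) ^ 4)⁻¹ := by
    rw [Finset.sum_fiberwise_of_maps_to]
    intro b _
    rw [Finset.mem_range]; exact hN b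
  rw [h1]
  have h2 : ∀ k ∈ Finset.range N, ∑ b ∈ univ.filter (fun b => G.d β b = k),
        ((((1 + G.d β b : ℕ) : ℝ≥0∞)) ^ 4)⁻¹ ≤ 8 * ENNReal.ofReal ((((k : ℝ) + 1) ^ 3)⁻¹) := by
    intro k _
    have e1 : ∑ b ∈ univ.filter (fun b => G.d β b = k), ((((1 + G.d β b : ℕ) : ℝ≥0∞)) ^ 4)⁻¹ =
        ((univ.filter (fun b => G.d β b = k)).card : ℝ≥0∞) * ((((1 + k : ℕ) : ℝ≥0∞)) ^ 4)⁻¹ := by
      rw [← nsmul_eq_mul, ← Finset.sum_const]
      refine Finset.sum_congr rfl fun b hb => ?_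
      rw [Finset.mem_filter] at hb
      rw [hb.2]
    rw [e1]
    have e2 : ((univ.filter (fun b => G.d β b = k)).card : ℝ≥0∞) ≤ ((8 * (k + 1) : ℕ) : ℝ≥0∞) := by
      exact_mod_cast G.sph_card β k
    have e3 : ENNReal.ofReal ((((k : ℝ) + 1) ^ 3)⁻¹) = (((1 + k : ℕ) : ℝ≥0∞) ^ 3)⁻¹ := by
      rw [ENNReal.ofReal_inv_of_pos (by positivity), ENNReal.ofReal_pow (by positivity)]
      congr 2
      have : ((k : ℝ) + 1) = ((1 + k : ℕ) : ℝ) := by push_cast; ring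
      rw [this, ENNReal.ofReal_natCast]
    have hx0 : ((1 + k : ℕ) : ℝ≥0∞) ≠ 0 := by
      rw [Ne, Nat.cast_eq_zero]; omega
    have hxt : ((1 + k : ℕ) : ℝ≥0∞) ≠ ∞ := ENNReal.natCast_ne_top _
    have e4 : ((1 + k : ℕ) : ℝ≥0∞) * ((((1 + k : ℕ) : ℝ≥0∞)) ^ 4)⁻¹ = (((1 + k : ℕ) : ℝ≥0∞) ^ 3)⁻¹ := by
      rw [pow_succ, ENNReal.mul_inv (Or.inl (pow_ne_zero _ hx0)) (Or.inl (ENNReal.pow_ne_top hxt)),
        mul_left_comm, ENNReal.mul_inv_cancel hx0 hxt, mul_one]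
    calc ((univ.filter (fun b => G.d β b = k)).card : ℝ≥0∞) * ((((1 + k : ℕ) : ℝ≥0∞)) ^ 4)⁻¹
        ≤ ((8 * (k + 1) : ℕ) : ℝ≥0∞) * ((((1 + k : ℕ) : ℝ≥0∞)) ^ 4)⁻¹ := by gcongr
      _ = 8 * (((1 + k : ℕ) : ℝ≥0∞) * ((((1 + k : ℕ) : ℝ≥0∞)) ^ 4)⁻¹) := by push_cast; ring
      _ = _ := by rw [e4, e3]
  calc ∑ k ∈ Finset.range N, ∑ b ∈ univ.filter (fun b => G.d β b = k),
        ((((1 + G.d β b : ℕ) : ℝ≥0∞)) ^ 4)⁻¹
      ≤ ∑ k ∈ Finset.range N, 8 * ENNReal.ofReal ((((k : ℝ) + 1) ^ 3)⁻¹) := Finset.sum_le_sum h2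
    _ = 8 * ENNReal.ofReal (∑ k ∈ Finset.range N, (((k : ℝ) + 1) ^ 3)⁻¹) := by
        rw [← Finset.mul_sum, ENNReal.ofReal_sum_of_nonneg]
        intro k _; positivity
    _ ≤ 8 * ENNReal.ofReal 3 := by
        gcongr
        have := sum_inv_cube N
        have h0 : (0 : ℝ) ≤ 2 / ((N : ℝ) + 1) := by positivity
        linarith
    _ = 24 := by
        rw [show (3 : ℝ) = ((3 : ℕ) : ℝ) by norm_num, ENNReal.ofReal_natCast]
        norm_num

/-- constants -/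
noncomputable def c1 (K : ℝ≥0) (D : ℕ) : ℝ≥0 := 3336 * K ^ 6 * (2 * D + 1) ^ 10 * (16 * D + 7)
/-- constant of the polynomial decay of `W` -/
noncomputable def Cw (K : ℝ≥0) (D : ℕ) : ℝ≥0 :=
  108 ^ 12 * ((Nat.factorial 96 : ℕ) * K * c1 K D ^ 96) + K * (108 * (2 * D + 1) ^ 2) ^ 12
/-- the bound of `Xi` -/
noncomputable def K2 (K : ℝ≥0) (D : ℕ) : ℝ≥0 :=
  (2 * D + 1) ^ 6 * K + 4 * K ^ 2 * ((2 * D + 1) ^ 6 * (192 * (Cw K D + 6 * K)))
/-- the rate -/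
noncomputable def rate (K : ℝ≥0) (D : ℕ) : ℝ :=
  1 / (8 * (K : ℝ) ^ 3 * (2 * (D : ℝ) + 1) ^ 4 * (16 * (D : ℝ) + 7) * K2 K D)

lemma rate_pos {K : ℝ≥0} (hK : 1 ≤ K) (D : ℕ) : 0 < rate K D := by
  have hK' : (0 : ℝ) < K := by exact_mod_cast (zero_lt_one.trans_le hK)
  have h2 : (0 : ℝ) < K2 K D := by
    have : 0 < K2 K D := by
      unfold K2
      have : 0 < K := zero_lt_one.trans_le hK
      positivity
    exact_mod_cast this
  unfold rate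
  positivity

namespace Gas
variable {ι 𝔹 : Type*} [Fintype 𝔹] [DecidableEq 𝔹] {G : Geo 𝔹} (A : Gas ι 𝔹 G)

/-- all hypotheses of A3 + A4 -/
structure Hyp (K : ℝ≥0) (D : ℕ) (y : ℝ) : Prop extends A.Fat K D where
  y_nonneg : 0 ≤ y
  cov : ∀ β (R : ℕ), y * (3 * (R : ℝ) + 3) ^ 2 ≤ 1 → ∑ b ∈ G.ball β (3 * R),
      ((1 + G.d β b : ℕ) : ℝ≥0∞) ^ 2 * S A.p (fun i => A.X i b * A.X i β) ≤
        K * (NNReal.sqrt (NNReal.sqrt (1 + R)) : ℝ≥0)
  fat1 : ∀ a R β, 2 * D ≤ R → S A.p (fun i => A.wJ a R i * ind (β ∈ A.vis i)) ≤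
      K * S A.p (fun i => A.wJ a R i * ind (β ∈ A.vis i) * A.XB β D i)
  tilt : ∀ a R M, 2 * D ≤ R → y * ((R : ℝ) + 1) ≤ 1 → 1 ≤ M →
      (∀ β ∈ G.ball a R, A.Xi a R β ≤ ENNReal.ofReal M) → A.Tilt K y a R M

variable {A} {K : ℝ≥0} {D : ℕ} {y : ℝ}

lemma W_le (hF : A.Fat K D) (a : 𝔹) (R : ℕ) : A.W a R ≤ K := by
  refine le_trans (S_mono fun i => ?_) (hF.mom2 a)
  calc ind (A.J a R i) * A.X i a ^ 2 ≤ 1 * A.X i a ^ 2 := by gcongr; exact ind_le_one _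
    _ = _ := one_mul _

lemma W_anti (a : 𝔹) {R R' : ℕ} (h : R ≤ R') : A.W a R' ≤ A.W a R := by
  refine S_mono fun i => ?_
  gcongr
  apply ind_mono
  rintro ⟨h1, b, hb, h2⟩
  exact ⟨h1, b, hb, h.trans h2⟩

lemma EX_ne_top (hF : A.Fat K D) (a : 𝔹) (R : ℕ) : A.EX a R ≠ ∞ := by
  apply ne_of_lt
  have h3 : ∀ b, S A.p (fun i => A.X i b ^ 3) ≤ 2 * K := by
    intro b
    calc S A.p (fun i => A.X i b ^ 3) ≤ S A.p (fun i => A.X i b ^ 2 + A.X i b ^ 20) :=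
          S_mono fun i => pow3_le _
      _ = S A.p (fun i => A.X i b ^ 2) + S A.p (fun i => A.X i b ^ 20) := S_add _ _
      _ ≤ K + K := add_le_add (hF.mom2 b) (hF.mom20 b)
      _ = 2 * K := by ring
  calc A.EX a R ≤ S A.p (fun i => ∑ b ∈ G.ball a R, (A.X i a ^ 3 + A.X i b ^ 3)) := by
        apply S_mono; intro i
        unfold wJ XB
        rw [Finset.mul_sum]
        refine Finset.sum_le_sum fun b _ => ?_
        calc ind (A.J a R i) * A.X i a ^ 2 * A.X i b ≤ 1 * A.X i a ^ 2 * A.X i b := by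
              gcongr; exact ind_le_one _
          _ = A.X i a ^ 2 * A.X i b := by rw [one_mul]
          _ ≤ _ := by
            rcases le_total (A.X i a) (A.X i b) with h | h
            · calc A.X i a ^ 2 * A.X i b ≤ A.X i b ^ 2 * A.X i b := by gcongr
                _ = A.X i b ^ 3 := by ring
                _ ≤ _ := le_add_self
            · calc A.X i a ^ 2 * A.X i b ≤ A.X i a ^ 2 * A.X i a := by gcongr
                _ = A.X i a ^ 3 := by ring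
                _ ≤ _ := le_self_add
    _ = ∑ b ∈ G.ball a R, (S A.p (fun i => A.X i a ^ 3) + S A.p (fun i => A.X i b ^ 3)) := by
        rw [S_sum]
        exact Finset.sum_congr rfl fun b _ => S_add _ _
    _ ≤ ∑ b ∈ G.ball a R, (2 * (K : ℝ≥0∞) + 2 * K) := by
        refine Finset.sum_le_sum fun b _ => add_le_add (h3 a) (h3 b)
    _ < ∞ := by
        rw [ENNReal.sum_lt_top]
        intro b _
        rw [ENNReal.add_lt_top]
        exact ⟨ENNReal.mul_lt_top (by norm_num) ENNReal.coe_lt_top,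
          ENNReal.mul_lt_top (by norm_num) ENNReal.coe_lt_top⟩

lemma decay' (h : A.Hyp K D y) {R : ℕ} (hR : 2 * D ≤ R) (a : 𝔹) {M : ℝ} (hM : 1 ≤ M)
    (hyR : y * ((R : ℝ) + 1) ≤ 1) (hXi : ∀ β ∈ G.ball a R, A.Xi a R β ≤ ENNReal.ofReal M) :
    (A.W a R).toReal ≤ K * Real.exp (-((R : ℝ) + 1) /
      (8 * (K : ℝ) ^ 3 * (2 * (D : ℝ) + 1) ^ 4 * (16 * (D : ℝ) + 7) * M)) :=
  A.decay h.one_le hR a (ne_top_of_le_ne_top ENNReal.coe_ne_top (W_le h.toFat a R))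
    (EX_ne_top h.toFat a R) (fun β _ => h.fat1 a R β hR) hM hyR (h.tilt a R M hR hyR hM hXi)

/-- first bound of `Xi` : `417 n^6 K^3 (1+R)^(3/4)` -/
lemma Xi_first (h : A.Hyp K D y) {β a : 𝔹} {R : ℕ} (hR : 2 * D ≤ R)
    (hy3 : y * (3 * (R : ℝ) + 3) ^ 2 ≤ 1) (hβ : β ∈ G.ball a R) :
    A.Xi a R β ≤ ENNReal.ofReal (417 * (2 * (D : ℝ) + 1) ^ 6 * (K : ℝ) ^ 3 *
      Real.sqrt (Real.sqrt ((R : ℝ) + 1)) ^ 3) := by
  have hK := h.one_le
  set q : ℝ≥0 := NNReal.sqrt (NNReal.sqrt (1 + R)) with hq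
  set l : ℝ≥0 := NNReal.sqrt (1 + R) with hl
  have hl1 : 1 ≤ l := by
    rw [hl]
    calc (1 : ℝ≥0) = NNReal.sqrt 1 := by simp
      _ ≤ _ := NNReal.sqrt_le_sqrt.2 (by simp)
  have hq1 : 1 ≤ q := by
    rw [hq]
    calc (1 : ℝ≥0) = NNReal.sqrt 1 := by simp
      _ ≤ _ := NNReal.sqrt_le_sqrt.2 hl1
  have hql : l = q ^ 2 := (NNReal.sq_sqrt _).symm
  rw [G.mem_ball] at hβ
  have hF := A.Xi_le h.toFat β a R (104 * (K : ℝ≥0∞) * ((l : ℝ≥0) : ℝ≥0∞) * q)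
    (fun β' hβ' => A.sum_T_le h.toFat β' a R hq1 (by
      refine (Finset.sum_le_sum_of_subset ?_).trans (h.cov β' R hy3)
      intro b hb
      rw [G.mem_ball] at hb hβ' ⊢
      have t1 := G.d_tri β' β b
      have t2 := G.d_tri β a b
      have t3 := G.d_comm β' β
      have t4 := G.d_comm β a
      omega))
  refine hF.trans ?_
  rw [hql]
  have e1 : ((2 * D + 1 : ℕ) : ℝ≥0∞) ^ 6 * K + 4 * (K : ℝ≥0∞) ^ 2 *
      (((2 * D + 1 : ℕ) : ℝ≥0∞) ^ 6 * (104 * (K : ℝ≥0∞) * ((q ^ 2 : ℝ≥0) : ℝ≥0∞) * q)) =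
      (((2 * D + 1) ^ 6 * K + 4 * K ^ 2 * ((2 * D + 1) ^ 6 * (104 * K * q ^ 3)) : ℝ≥0) : ℝ≥0∞) := by
    push_cast; ring
  rw [e1]
  have e2 : 417 * (2 * (D : ℝ) + 1) ^ 6 * (K : ℝ) ^ 3 * Real.sqrt (Real.sqrt ((R : ℝ) + 1)) ^ 3 =
      ((417 * (2 * D + 1) ^ 6 * K ^ 3 * q ^ 3 : ℝ≥0) : ℝ) := by
    push_cast
    rw [hq, hl, Real.coe_sqrt, Real.coe_sqrt]
    push_cast
    rw [add_comm (1 : ℝ) (R : ℝ)]
  rw [e2, ENNReal.ofReal_coe_nnreal]
  rw [ENNReal.coe_le_coe]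
  have a1 : K * 1 * 1 ≤ K * K ^ 2 * q ^ 3 := by
    gcongr
    · exact one_le_pow₀ hK
    · exact one_le_pow₀ hq1
  calc (2 * (D : ℝ≥0) + 1) ^ 6 * K + 4 * K ^ 2 * ((2 * D + 1) ^ 6 * (104 * K * q ^ 3))
      = (2 * (D : ℝ≥0) + 1) ^ 6 * (K * 1 * 1) + 416 * (2 * D + 1) ^ 6 * K ^ 3 * q ^ 3 := by ring
    _ ≤ (2 * (D : ℝ≥0) + 1) ^ 6 * (K * K ^ 2 * q ^ 3) + 416 * (2 * D + 1) ^ 6 * K ^ 3 * q ^ 3 := by
        gcongr
    _ = _ := by ring

lemma W_poly (h : A.Hyp K D y) {R : ℕ} (hR : 2 * D ≤ R) (hy3 : y * (3 * (R : ℝ) + 3) ^ 2 ≤ 1)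
    (a : 𝔹) :
    (A.W a R).toReal * ((R : ℝ) + 1) ^ 24 ≤ (Nat.factorial 96 : ℕ) * K * (c1 K D : ℝ) ^ 96 := by
  have hK := h.one_le
  have hK' : (1 : ℝ) ≤ K := by exact_mod_cast hK
  have hR0 : (0 : ℝ) ≤ R := Nat.cast_nonneg R
  have hyR : y * ((R : ℝ) + 1) ≤ 1 := by
    refine le_trans (mul_le_mul_of_nonneg_left ?_ h.y_nonneg) hy3
    nlinarith
  have hs1 : (1 : ℝ) ≤ Real.sqrt ((R : ℝ) + 1) := by
    rw [Real.one_le_sqrt]; linarith
  have hq1 : (1 : ℝ) ≤ Real.sqrt (Real.sqrt ((R : ℝ) + 1)) := by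
    rw [Real.one_le_sqrt]; exact hs1
  set s := Real.sqrt (Real.sqrt ((R : ℝ) + 1)) with hs
  have hs4 : s ^ 4 = (R : ℝ) + 1 := by
    have e1 : s ^ 2 = Real.sqrt ((R : ℝ) + 1) := Real.sq_sqrt (by positivity)
    calc s ^ 4 = (s ^ 2) ^ 2 := by ring
      _ = _ := by rw [e1]; exact Real.sq_sqrt (by positivity)
  have hs3 : (1 : ℝ) ≤ s ^ 3 := one_le_pow₀ hq1
  set M : ℝ := 417 * (2 * (D : ℝ) + 1) ^ 6 * (K : ℝ) ^ 3 * s ^ 3 with hM
  have hD : (0 : ℝ) ≤ D := Nat.cast_nonneg D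
  have hM1 : 1 ≤ M := by
    rw [hM]
    have b1 : (1 : ℝ) ≤ (2 * (D : ℝ) + 1) ^ 6 := one_le_pow₀ (by linarith)
    have b2 : (1 : ℝ) ≤ (K : ℝ) ^ 3 := one_le_pow₀ hK'
    have b3 : (1 : ℝ) ≤ (2 * (D : ℝ) + 1) ^ 6 * (K : ℝ) ^ 3 := one_le_mul_of_one_le_of_one_le b1 b2
    have b4 := one_le_mul_of_one_le_of_one_le b3 hs3
    nlinarith
  have h1 := decay' h hR a hM1 hyR (fun β hβ => Xi_first h hR hy3 hβ)
  have hspos : 0 < s := by linarith
  have hc1 : (0 : ℝ) < c1 K D := by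
    have : 0 < c1 K D := by
      unfold c1
      have : 0 < K := zero_lt_one.trans_le hK
      positivity
    exact_mod_cast this
  have e1 : ((R : ℝ) + 1) / (8 * (K : ℝ) ^ 3 * (2 * (D : ℝ) + 1) ^ 4 * (16 * (D : ℝ) + 7) * M) =
      s / c1 K D := by
    have : (c1 K D : ℝ) = 3336 * (K : ℝ) ^ 6 * (2 * (D : ℝ) + 1) ^ 10 * (16 * (D : ℝ) + 7) := by
      unfold c1; push_cast; ring
    rw [this, hM, ← hs4]
    field_simp
    ring
  rw [neg_div, e1] at h1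
  have h2 := Real.pow_div_factorial_le_exp (s / c1 K D) (by positivity) 96
  have h3 : Real.exp (-(s / c1 K D)) * s ^ 96 ≤ (Nat.factorial 96 : ℕ) * (c1 K D : ℝ) ^ 96 := by
    rw [Real.exp_neg, inv_mul_le_iff₀ (Real.exp_pos _)]
    have hf : (0 : ℝ) < (Nat.factorial 96 : ℕ) := by exact_mod_cast Nat.factorial_pos 96
    rw [div_pow, div_div, div_le_iff₀ (by positivity)] at h2
    calc s ^ 96 ≤ Real.exp (s / c1 K D) * ((c1 K D : ℝ) ^ 96 * (Nat.factorial 96 : ℕ)) := h2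
      _ = _ := by ring
  calc (A.W a R).toReal * ((R : ℝ) + 1) ^ 24
      ≤ (K * Real.exp (-(s / c1 K D))) * ((R : ℝ) + 1) ^ 24 := by gcongr
    _ = K * (Real.exp (-(s / c1 K D)) * s ^ 96) := by
        have : ((R : ℝ) + 1) ^ 24 = s ^ 96 := by rw [← hs4, ← pow_mul]
        rw [this]; ring
    _ ≤ K * ((Nat.factorial 96 : ℕ) * (c1 K D : ℝ) ^ 96) := by gcongr
    _ = _ := by ring

lemma W_poly_enn (h : A.Hyp K D y) {R : ℕ} (hR : 2 * D ≤ R) (hy3 : y * (3 * (R : ℝ) + 3) ^ 2 ≤ 1)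
    (a : 𝔹) :
    ((1 + R : ℕ) : ℝ≥0∞) ^ 24 * A.W a R ≤
        (((Nat.factorial 96 : ℕ) * K * c1 K D ^ 96 : ℝ≥0) : ℝ≥0∞) := by
  have hWt : A.W a R ≠ ∞ := ne_top_of_le_ne_top ENNReal.coe_ne_top (W_le h.toFat a R)
  have h1 := W_poly h hR hy3 a
  have e1 : ((1 + R : ℕ) : ℝ≥0∞) ^ 24 * A.W a R =
      ENNReal.ofReal ((A.W a R).toReal * ((R : ℝ) + 1) ^ 24) := by
    rw [ENNReal.ofReal_mul ENNReal.toReal_nonneg, ENNReal.ofReal_toReal hWt, mul_comm]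
    congr 1
    rw [ENNReal.ofReal_pow (by positivity)]
    congr 1
    have : ((R : ℝ) + 1) = ((1 + R : ℕ) : ℝ) := by push_cast; ring
    rw [this, ENNReal.ofReal_natCast]
  rw [e1, ← ENNReal.ofReal_coe_nnreal]
  apply ENNReal.ofReal_le_ofReal
  push_cast
  exact h1

/-- polynomial decay at all radii `k <= 2R + D` -/
lemma W_poly' (h : A.Hyp K D y) {R : ℕ} (hR : 2 * D ≤ R) (hyR : y * ((R : ℝ) + 1) ≤ 1) (a : 𝔹)
    {k : ℕ} (hk : k ≤ 2 * R + D) :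
    ((1 + k : ℕ) : ℝ≥0∞) ^ 12 * A.W a k ≤ Cw K D := by
  have hy := h.y_nonneg
  have hR0 : (0 : ℝ) ≤ R := Nat.cast_nonneg R
  -- trivial bound
  have htriv : 1 + k ≤ 108 * (2 * D + 1) ^ 2 → ((1 + k : ℕ) : ℝ≥0∞) ^ 12 * A.W a k ≤ Cw K D := by
    intro hk2
    have e0 : ((1 + k : ℕ) : ℝ≥0∞) ≤ ((108 * (2 * D + 1) ^ 2 : ℕ) : ℝ≥0∞) := by exact_mod_cast hk2
    calc ((1 + k : ℕ) : ℝ≥0∞) ^ 12 * A.W a k
        ≤ ((108 * (2 * D + 1) ^ 2 : ℕ) : ℝ≥0∞) ^ 12 * K :=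
          mul_le_mul' (pow_le_pow_left' e0 12) (W_le h.toFat a k)
      _ = ((K * (108 * (2 * D + 1) ^ 2) ^ 12 : ℝ≥0) : ℝ≥0∞) := by push_cast; ring
      _ ≤ _ := by
          rw [ENNReal.coe_le_coe]; unfold Cw; exact le_add_self
  -- comparison with a good radius
  have hgood : ∀ k0, 2 * D ≤ k0 → k0 ≤ k → y * (3 * (k0 : ℝ) + 3) ^ 2 ≤ 1 →
      1 + k ≤ 108 * (1 + k0) ^ 2 → ((1 + k : ℕ) : ℝ≥0∞) ^ 12 * A.W a k ≤ Cw K D := by
    intro k0 hk0 hk1 hk2 hk3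
    have e0 : ((1 + k : ℕ) : ℝ≥0∞) ≤ ((108 * (1 + k0) ^ 2 : ℕ) : ℝ≥0∞) := by exact_mod_cast hk3
    calc ((1 + k : ℕ) : ℝ≥0∞) ^ 12 * A.W a k
        ≤ ((108 * (1 + k0) ^ 2 : ℕ) : ℝ≥0∞) ^ 12 * A.W a k0 :=
          mul_le_mul' (pow_le_pow_left' e0 12) (W_anti a hk1)
      _ = 108 ^ 12 * (((1 + k0 : ℕ) : ℝ≥0∞) ^ 24 * A.W a k0) := by push_cast; ring
      _ ≤ 108 ^ 12 * (((Nat.factorial 96 : ℕ) * K * c1 K D ^ 96 : ℝ≥0) : ℝ≥0∞) := by
          gcongr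
          exact W_poly_enn h hk0 hk2 a
      _ = ((108 ^ 12 * ((Nat.factorial 96 : ℕ) * K * c1 K D ^ 96) : ℝ≥0) : ℝ≥0∞) := by push_cast; ring
      _ ≤ _ := by rw [ENNReal.coe_le_coe]; unfold Cw; exact le_self_add
  by_cases hkD : k < 2 * D
  · apply htriv
    nlinarith [Nat.zero_le D]
  push Not at hkD
  by_cases hyk : y * (3 * (k : ℝ) + 3) ^ 2 ≤ 1
  · exact hgood k hkD le_rfl hyk (by nlinarith [Nat.zero_le k])
  -- the first bad radius
  have hex : ∃ m : ℕ, ¬ (y * (3 * (m : ℝ) + 3) ^ 2 ≤ 1) := ⟨k, hyk⟩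
  classical
  set m := Nat.find hex with hm
  have hm1 : ¬ (y * (3 * (m : ℝ) + 3) ^ 2 ≤ 1) := Nat.find_spec hex
  have hm2 : m ≤ k := Nat.find_min' hex hyk
  have hkR : ((1 + k : ℕ) : ℝ) ≤ 3 * ((R : ℝ) + 1) := by
    have : 1 + k ≤ 3 * (R + 1) := by omega
    exact_mod_cast this
  have hkm : 1 + k ≤ 27 * (m + 1) ^ 2 := by
    by_contra hcon
    push Not at hcon
    apply hm1
    have c1 : (27 : ℝ) * ((m : ℝ) + 1) ^ 2 ≤ ((1 + k : ℕ) : ℝ) := by exact_mod_cast hcon.le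
    have c2 : (9 : ℝ) * ((m : ℝ) + 1) ^ 2 ≤ (R : ℝ) + 1 := by linarith
    calc y * (3 * (m : ℝ) + 3) ^ 2 = y * (9 * ((m : ℝ) + 1) ^ 2) := by ring
      _ ≤ y * ((R : ℝ) + 1) := by gcongr
      _ ≤ 1 := hyR
  rcases Nat.eq_zero_or_pos m with hm0 | hm0
  · apply htriv
    rw [hm0] at hkm
    have : 1 ≤ (2 * D + 1) ^ 2 := Nat.one_le_pow _ _ (by omega)
    omega
  · obtain ⟨k0, hk0⟩ : ∃ k0, m = k0 + 1 := ⟨m - 1, by omega⟩
    have hk1 : y * (3 * (k0 : ℝ) + 3) ^ 2 ≤ 1 := by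
      have := Nat.find_min hex (m := k0) (by omega)
      push Not at this
      exact this
    have hk2 : 1 + k ≤ 108 * (1 + k0) ^ 2 := by
      rw [hk0] at hkm
      nlinarith [Nat.zero_le k0]
    by_cases hk3 : 2 * D ≤ k0
    · exact hgood k0 hk3 (by omega) hk1 hk2
    · apply htriv
      exact hk2.trans (Nat.mul_le_mul_left _ (Nat.pow_le_pow_left (by omega) 2))

lemma T_le (h : A.Hyp K D y) {R : ℕ} (hR : 2 * D ≤ R) (hyR : y * ((R : ℝ) + 1) ≤ 1)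
    (β b b' : 𝔹) (hk : G.d β b ≤ 2 * R + D) :
    A.T β b b' ≤ ((Cw K D + 6 * K : ℝ≥0) : ℝ≥0∞) * (((1 + G.d β b : ℕ) : ℝ≥0∞) ^ 6)⁻¹ := by
  set k := G.d β b with hkdef
  have hx0 : ((1 + k : ℕ) : ℝ≥0∞) ≠ 0 := by rw [Ne, Nat.cast_eq_zero]; omega
  have hxt : ((1 + k : ℕ) : ℝ≥0∞) ≠ ∞ := ENNReal.natCast_ne_top _
  set s : ℝ≥0∞ := (((1 + k : ℕ) : ℝ≥0∞) ^ 6)⁻¹ with hs
  have hs0 : s ≠ 0 := by rw [hs, Ne, ENNReal.inv_eq_zero]; exact ENNReal.pow_ne_top hxt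
  have hst : s ≠ ∞ := by rw [hs, Ne, ENNReal.inv_eq_top]; exact pow_ne_zero _ hx0
  have hsinv : s⁻¹ = ((1 + k : ℕ) : ℝ≥0∞) ^ 6 := by rw [hs, inv_inv]
  have hmul : s * ((1 + k : ℕ) : ℝ≥0∞) ^ 6 = 1 := by
    rw [hs]; exact ENNReal.inv_mul_cancel (pow_ne_zero _ hx0) (ENNReal.pow_ne_top hxt)
  have h6 : ∀ c, S A.p (fun i => A.X i c ^ 6) ≤ 2 * K := by
    intro c
    calc S A.p (fun i => A.X i c ^ 6) ≤ S A.p (fun i => A.X i c ^ 2 + A.X i c ^ 20) :=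
          S_mono fun i => pow6_le _
      _ = S A.p (fun i => A.X i c ^ 2) + S A.p (fun i => A.X i c ^ 20) := S_add _ _
      _ ≤ K + K := add_le_add (h.mom2 c) (h.mom20 c)
      _ = 2 * K := by ring
  calc A.T β b b' ≤ S A.p (fun i => s⁻¹ * (ind (A.J β k i) * A.X i β ^ 2) +
        s * (A.X i b ^ 6 + A.X i b' ^ 6 + A.X i β ^ 6)) := by
        apply S_mono; intro i
        by_cases hJ : A.J β k i
        · rw [ind_true hJ, one_mul]
          exact pt3 _ _ _ _ hs0 hst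
        · have : A.X i b * A.X i b' * A.X i β ^ 2 = 0 := by
            by_contra hne
            apply hJ
            have hb : b ∈ A.vis i := by
              by_contra hb; apply hne; rw [A.X_vis i b hb]; ring
            have hβ : β ∈ A.vis i := by
              by_contra hb; apply hne; rw [A.X_vis i β hb]; ring
            exact ⟨hβ, b, hb, le_refl _⟩
          rw [this]; exact bot_le
    _ = s⁻¹ * A.W β k + s * (S A.p (fun i => A.X i b ^ 6) + S A.p (fun i => A.X i b' ^ 6) +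
          S A.p (fun i => A.X i β ^ 6)) := by
        rw [S_add, S_mul, S_mul, S_add, S_add]; rfl
    _ ≤ s⁻¹ * A.W β k + s * (2 * K + 2 * K + 2 * K) := by
        gcongr
        · exact h6 b
        · exact h6 b'
        · exact h6 β
    _ = s * (((1 + k : ℕ) : ℝ≥0∞) ^ 12 * A.W β k) + s * (6 * K) := by
        congr 1
        · rw [hsinv]
          calc ((1 + k : ℕ) : ℝ≥0∞) ^ 6 * A.W β k
              = (s * ((1 + k : ℕ) : ℝ≥0∞) ^ 6) * (((1 + k : ℕ) : ℝ≥0∞) ^ 6 * A.W β k) := by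
                rw [hmul, one_mul]
            _ = _ := by ring
        · ring
    _ ≤ s * Cw K D + s * (6 * K) := by
        gcongr
        exact W_poly' h hR hyR β hk
    _ = _ := by push_cast; ring

/-- **A3, final form: `Xi` is bounded** -/
theorem Xi_bound (h : A.Hyp K D y) {R : ℕ} (hR : 2 * D ≤ R) (hyR : y * ((R : ℝ) + 1) ≤ 1)
    (a β : 𝔹) (hβ : β ∈ G.ball a R) : A.Xi a R β ≤ K2 K D := by
  rw [G.mem_ball] at hβ
  have hsum : ∀ β' ∈ G.ball β D, ∑ b ∈ G.ball a R, ∑ b' ∈ G.ball a R, A.T β' b b' ≤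
      ((192 * (Cw K D + 6 * K) : ℝ≥0) : ℝ≥0∞) := by
    intro β' hβ'
    rw [G.mem_ball] at hβ'
    have hd : ∀ b ∈ G.ball a R, G.d β' b ≤ 2 * R + D := by
      intro b hb
      rw [G.mem_ball] at hb
      have t1 := G.d_tri β' β b
      have t2 := G.d_tri β a b
      have t3 := G.d_comm β' β
      have t4 := G.d_comm β a
      omega
    have h0 : ∀ b ∈ G.ball a R, ∀ b' ∈ G.ball a R, G.d β' b' ≤ G.d β' b → A.T β' b b' ≤
        ((Cw K D + 6 * K : ℝ≥0) : ℝ≥0∞) * (((1 + G.d β' b : ℕ) : ℝ≥0∞) ^ 6)⁻¹ + 0 := by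
      intro b hb b' _ _
      rw [add_zero]; exact T_le h hR hyR β' b b' (hd b hb)
    have h1 := sum_pairs_le' (G := G) β' (G.ball a R) (A.T β') (A.T_symm β')
      (fun b => ((Cw K D + 6 * K : ℝ≥0) : ℝ≥0∞) * (((1 + G.d β' b : ℕ) : ℝ≥0∞) ^ 6)⁻¹)
      (0 : ℝ≥0∞) h0
    refine h1.trans ?_
    rw [mul_zero, add_zero]
    calc 8 * ∑ b ∈ G.ball a R, ((1 + G.d β' b : ℕ) : ℝ≥0∞) ^ 2 *
          (((Cw K D + 6 * K : ℝ≥0) : ℝ≥0∞) * (((1 + G.d β' b : ℕ) : ℝ≥0∞) ^ 6)⁻¹)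
        = 8 * (((Cw K D + 6 * K : ℝ≥0) : ℝ≥0∞) *
            ∑ b ∈ G.ball a R, (((1 + G.d β' b : ℕ) : ℝ≥0∞) ^ 4)⁻¹) := by
          rw [Finset.mul_sum, Finset.mul_sum, Finset.mul_sum]
          refine Finset.sum_congr rfl fun b _ => ?_
          have hx0 : ((1 + G.d β' b : ℕ) : ℝ≥0∞) ≠ 0 := by rw [Ne, Nat.cast_eq_zero]; omega
          have hxt : ((1 + G.d β' b : ℕ) : ℝ≥0∞) ≠ ∞ := ENNReal.natCast_ne_top _
          have e1 : ((1 + G.d β' b : ℕ) : ℝ≥0∞) ^ 2 * (((1 + G.d β' b : ℕ) : ℝ≥0∞) ^ 6)⁻¹ =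
              (((1 + G.d β' b : ℕ) : ℝ≥0∞) ^ 4)⁻¹ := by
            rw [show (6 : ℕ) = 2 + 4 by norm_num, pow_add,
              ENNReal.mul_inv (Or.inl (pow_ne_zero _ hx0)) (Or.inl (ENNReal.pow_ne_top hxt)),
              ← mul_assoc, ENNReal.mul_inv_cancel (pow_ne_zero _ hx0) (ENNReal.pow_ne_top hxt),
              one_mul]
          rw [← e1]; ring
      _ ≤ 8 * (((Cw K D + 6 * K : ℝ≥0) : ℝ≥0∞) * 24) := by
          gcongr
          exact (Finset.sum_le_sum_of_subset (Finset.subset_univ _)).trans (G.sum_inv β')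
      _ = _ := by push_cast; ring
  refine (A.Xi_le h.toFat β a R _ hsum).trans (le_of_eq ?_)
  unfold K2
  push_cast
  ring

lemma one_le_K2 (hK : 1 ≤ K) : (1 : ℝ) ≤ K2 K D := by
  have : 1 ≤ K2 K D := by
    unfold K2
    have h1 : (1 : ℝ≥0) ≤ (2 * D + 1) ^ 6 := one_le_pow₀ (by simp)
    exact (one_le_mul_of_one_le_of_one_le h1 hK).trans le_self_add
  exact_mod_cast this

/-- **A4: exponential decay of `W`** -/
theorem W_exp (h : A.Hyp K D y) {R : ℕ} (hR : 2 * D ≤ R) (hyR : y * ((R : ℝ) + 1) ≤ 1) (a : 𝔹) :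
    (A.W a R).toReal ≤ K * Real.exp (-(rate K D * ((R : ℝ) + 1))) := by
  have h1 := decay' h hR a (one_le_K2 (D := D) h.one_le) hyR (fun β hβ => by
    rw [ENNReal.ofReal_coe_nnreal]; exact Xi_bound h hR hyR a β hβ)
  refine h1.trans (le_of_eq ?_)
  congr 2
  unfold rate
  ring

end Gas

end Vale.Agent.P159.TM.H352
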