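import Vale.Agent.P159.TM.H352.Em
import Vale.Agent.P159.TM.H352.Cov
import Vale.Agent.P159.TM.H634.TiltR
import Vale.Agent.P159.TM.Spec.Tor

/-! # Exponential moments of the block averages, one copy (row A34I, helper352) -/

open scoped ENNReal NNReal BigOperators
open Finset

set_option linter.unusedSectionVars false
set_option linter.unusedDecidableInType false

namespace Vale.Agent.P159.TM.H352

open Vale.Agent.P159.TM.H60 Vale.Agent.P159.TM.H459 Vale.Agent.P159.TM.H576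
open Vale.Agent.P159.H353 (wI wI_nonneg wI_neg)

section
variable {N n : ℕ} [NeZero N] [NeZero n] {b : ℝ} {ξ : ℕ}

theorem s1_one (hb : 0 ≤ b) : Spec.σ1 N b ξ hb =
    one tS tT (fun _ => wI b) (fun _ n => wI_nonneg hb n) (fun _ n => wI_neg _ n)
      (fun _ => T1.H897.logC_wI hb) (gaF (SpecC.ms (ξ : ℝ)) fun _ => 0) (gaF_nonneg _ _)
      (gaF_even _) := by
  unfold Spec.σ1
  refine H634.one_congr rfl ?_
  funext v k
  unfold Spec.aT gaF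
  rw [neg_mul]
  rfl

lemma ZZ_s1 (hb : 0 ≤ b) (hξ : 0 < ξ) : ZZ (Spec.σ1 N b ξ hb) =
    ENNReal.ofReal (H871.Z (T1.H897.Wk (tS (N := N)) tT fun _ => wI b) (SpecC.ms (ξ : ℝ)) 0) := by
  have hm : ∀ x : TV N, 0 < SpecC.ms (ξ : ℝ) x := fun x => H41.ms_pos (by exact_mod_cast hξ) x
  unfold ZZ
  rw [Ex_one_eq, s1_one]
  have h := one_tilt (s := tS (N := N)) (t := tT) (fun _ n => wI_nonneg hb n)
    (fun _ n => wI_neg _ n) (fun _ => T1.H897.logC_wI hb)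
    (H634.wt_b tS tT (b := fun _ => b) (fun _ => hb)) hm (fun _ => 0)
  simp only [zero_mul, Finset.sum_const_zero, Real.exp_zero, mul_one, Sys.pr] at h
  rw [h]
  rfl

lemma Z_s1_pos (hb : 0 ≤ b) (hξ : 0 < ξ) :
    0 < H871.Z (T1.H897.Wk (tS (N := N)) tT fun _ => wI b) (SpecC.ms (ξ : ℝ)) 0 :=
  (H634.wt_b tS tT (b := fun _ => b) (fun _ => hb)).Z_pos
    (fun x => H41.ms_pos (by exact_mod_cast hξ) x) 0

lemma ZZ_s1_ne_zero (hb : 0 ≤ b) (hξ : 0 < ξ) : ZZ (Spec.σ1 N b ξ hb) ≠ 0 := by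
  rw [ZZ_s1 hb hξ]
  exact (ENNReal.ofReal_pos.2 (Z_s1_pos hb hξ)).ne'

lemma ZZ_s1_ne_top (hb : 0 ≤ b) (hξ : 0 < ξ) : ZZ (Spec.σ1 N b ξ hb) ≠ ∞ := by
  rw [ZZ_s1 hb hξ]
  exact ENNReal.ofReal_ne_top

lemma em_s1 (hb : 0 ≤ b) (hξ : 0 < ξ) (g : TV N → ℝ) {c : ℝ}
    (hg : ∑ v, g v ^ 2 / (2 * SpecC.ms (ξ : ℝ) v) ≤ c) :
    ∑' x, ENNReal.ofReal ((Spec.σ1 N b ξ hb).tot x *
      Real.exp ((Spec.σ1 N b ξ hb).pr g univ x)) ≤
      ENNReal.ofReal (Real.exp c) * ZZ (Spec.σ1 N b ξ hb) := by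
  have hm : ∀ x : TV N, 0 < SpecC.ms (ξ : ℝ) x := fun x => H41.ms_pos (by exact_mod_cast hξ) x
  rw [ZZ_s1 hb hξ, ← ENNReal.ofReal_mul (Real.exp_pos _).le, s1_one]
  refine (one_mgf (s := tS (N := N)) (t := tT) (fun _ n => wI_nonneg hb n)
    (fun _ n => wI_neg _ n) (fun _ => T1.H897.logC_wI hb)
    (H634.wt_b tS tT (b := fun _ => b) (fun _ => hb)) hm
    (fun f => H41.Z_le_zero tS tT (fun _ => hb) hm f) g).trans ?_
  refine ENNReal.ofReal_le_ofReal (mul_le_mul_of_nonneg_right (Real.exp_le_exp.2 hg)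
    (Z_s1_pos hb hξ).le)

/-- **exponential moments of the block averages** -/
theorem emb_s1 (hb : 0 ≤ b) (hξ : 0 < ξ) (hN : N = n * ξ) :
    EMB (Spec.σ1 N b ξ hb) n ξ (((ξ : ℝ≥0) ^ 2)⁻¹) (ENNReal.ofReal (Real.exp (1 / 2))) := by
  have hξR : (0 : ℝ) < ξ := by exact_mod_cast hξ
  have hsq : ∀ β : ZMod n × ZMod n,
      ∑ v, (bf N n ξ ((((ξ : ℝ≥0) ^ 2)⁻¹ : ℝ≥0) : ℝ) β v) ^ 2 / (2 * SpecC.ms (ξ : ℝ) v) ≤
        1 / 2 := by
    intro β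
    have e1 : ∀ v : TV N, (bf N n ξ ((((ξ : ℝ≥0) ^ 2)⁻¹ : ℝ≥0) : ℝ) β v) ^ 2 /
        (2 * SpecC.ms (ξ : ℝ) v) = if bk n ξ v = β then 1 / (2 * (ξ : ℝ) ^ 2) else 0 := by
      intro v
      unfold bf SpecC.ms
      split_ifs
      · push_cast
        field_simp
      · simp
    simp only [e1]
    rw [← Finset.sum_filter, Finset.sum_const, nsmul_eq_mul]
    have h1 : (((univ.filter fun v : TV N => bk n ξ v = β).card : ℕ) : ℝ) ≤ (ξ : ℝ) ^ 2 := by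
      have := card_blk_le (N := N) (n := n) hξ hN β
      unfold blk at this
      exact_mod_cast this
    calc (((univ.filter fun v : TV N => bk n ξ v = β).card : ℕ) : ℝ) * (1 / (2 * (ξ : ℝ) ^ 2))
        ≤ (ξ : ℝ) ^ 2 * (1 / (2 * (ξ : ℝ) ^ 2)) := by gcongr
      _ = 1 / 2 := by field_simp
  intro β
  refine ⟨em_s1 hb hξ _ (hsq β), em_s1 hb hξ _ ?_⟩
  simp only [neg_sq]
  exact hsq β

end

end Vale.Agent.P159.TM.H352
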