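import Vale.Agent.P159.TM.H77.FatTor

/-!
Row R8 / R6 (helper352): straight flow between two boxes of the torus in the same rows, and the
exponential moments of the difference of the two averages (one copy, two copies).
-/

open Finset
open scoped ENNReal

set_option linter.unusedSectionVars false

namespace Vale.Agent.P159.TM.H352

open Vale.Agent.P159 Vale.Agent.P159.H353
open Vale.Agent.P159.TM.H60 Vale.Agent.P159.TM.H504 Vale.Agent.P159.TM.H312
open Vale.Agent.P159.TM.H426 Vale.Agent.P159.TM.H576 Vale.Agent.P159.TM.H77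
open Vale.Agent.P159.TM.H459 (tS tT ball sd sn)

section flow

variable {N : ℕ} [NeZero N]

/-- a rectangle of the chart -/
noncomputable def Rc (p q : ℤ) (d L : ℕ) : Finset (ℤ × ℤ) := Ico p (p + d) ×ˢ Ico q (q + L)

lemma card_Rc (p q : ℤ) (d L : ℕ) : #(Rc p q d L) = d * L := by
  unfold Rc
  rw [card_product]
  simp

lemma pt_inj_Rc {p q : ℤ} {d L : ℕ} (hd : d ≤ N) (hL : L ≤ N) :
    Set.InjOn (pt N) (Rc p q d L) := by
  intro z hz z' hz' h
  rw [mem_coe, Rc, mem_product] at hz hz'
  have h1 := congrArg Prod.fst h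
  have h2 := congrArg Prod.snd h
  exact Prod.ext (cast_inj_Ico d hd hz.1 hz'.1 h1) (cast_inj_Ico L hL hz.2 hz'.2 h2)

open Classical in
/-- the straight flow of one column -/
noncomputable def cfl (N : ℕ) [NeZero N] (p q : ℤ) (d L : ℕ) (e : Spec.E N) : ℝ :=
  if e.2 = true ∧ e.1 ∈ (Rc p q d L).image (pt N) then -(1 / (L : ℝ)) else 0

lemma sum_cfl {p q : ℤ} {d L : ℕ} (hd : d ≤ N) (hL : L ≤ N) (F : Spec.V N → Spec.V N → ℝ) :
    ∑ e : Spec.E N, cfl N p q d L e * F (tS e) (tT e) =
      -(1 / (L : ℝ)) * ∑ z ∈ Rc p q d L, F (pt N z) (pt N (z.1 + 1, z.2)) := by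
  classical
  rw [Fintype.sum_prod_type]
  have h1 : ∀ x : Spec.V N, ∑ c : Bool, cfl N p q d L (x, c) * F (tS (x, c)) (tT (x, c)) =
      if x ∈ (Rc p q d L).image (pt N) then -(1 / (L : ℝ)) * F x (x + (1, 0)) else 0 := by
    intro x
    rw [Fintype.sum_bool]
    unfold cfl H459.tS H459.tT H459.dir
    simp only [true_and, Bool.false_eq_true, false_and, if_false, zero_mul, add_zero, if_true]
    split_ifs <;> simp
  simp only [h1]
  rw [sum_ite_mem, univ_inter, sum_image (fun x hx y hy h => pt_inj_Rc hd hL hx hy h), mul_sum]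
  refine sum_congr rfl fun z _ => ?_
  congr 2
  unfold pt
  ext <;> simp

lemma tele_row (f : ℤ → ℝ) (p : ℤ) (d : ℕ) :
    ∑ x ∈ Ico p (p + d), (f (x + 1) - f x) = f (p + d) - f p := by
  induction d with
  | zero => simp
  | succ d ih =>
    have h1 : Ico p (p + ((d + 1 : ℕ) : ℤ)) = insert (p + d) (Ico p (p + d)) := by
      ext x
      rw [mem_insert, mem_Ico, mem_Ico]
      push_cast
      omega
    rw [h1, sum_insert (by rw [mem_Ico]; omega), ih]
    push_cast
    rw [← add_assoc]
    ring

/-- **straight flow** between the averages over two boxes in the same rows -/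
theorem straight (p q : ℤ) {d L : ℕ} (hL1 : 1 ≤ L) (hd : d ≤ N) (hL : L ≤ N) :
    ∃ α : Spec.E N → ℝ, (∀ u : Spec.V N → ℝ, ∑ e, α e * (u (tT e) - u (tS e)) =
        bav N p q L u - bav N (p + d) q L u) ∧
      (∀ e, |α e| ≤ 1 / L) ∧ ∑ e, α e ^ 2 ≤ d / L := by
  classical
  have hL0 : (0 : ℝ) < L := by exact_mod_cast hL1
  refine ⟨fun e => (1 / (L : ℝ)) * ∑ i ∈ range L, cfl N (p + i) q d L e, fun u => ?_,
    fun e => ?_, ?_⟩
  · have h1 : ∀ e : Spec.E N, (1 / (L : ℝ)) * (∑ i ∈ range L, cfl N (p + i) q d L e) *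
        (u (tT e) - u (tS e)) = (1 / (L : ℝ)) * ∑ i ∈ range L, cfl N (p + i) q d L e *
        (u (tT e) - u (tS e)) := by
      intro e
      rw [mul_assoc, sum_mul]
    simp only [h1]
    rw [← mul_sum, sum_comm]
    have h2 : ∀ i ∈ range L, ∑ e : Spec.E N, cfl N (p + i) q d L e * (u (tT e) - u (tS e)) =
        -(1 / (L : ℝ)) * ∑ y ∈ Ico q (q + L), (u (pt N (p + i + d, y)) - u (pt N (p + i, y))) := by
      intro i _
      rw [sum_cfl hd hL fun a b => u b - u a]
      congr 1
      unfold Rc
      rw [sum_product_right]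
      refine sum_congr rfl fun y _ => ?_
      exact tele_row (fun x => u (pt N (x, y))) (p + i) d
    rw [sum_congr rfl h2, ← mul_sum]
    have h3 : ∀ (p' : ℤ), bav N p' q L u = (1 / (L : ℝ)) * ((1 / (L : ℝ)) *
        ∑ i ∈ range L, ∑ y ∈ Ico q (q + L), u (pt N (p' + i, y))) := by
      intro p'
      unfold bav Bx
      rw [sum_product]
      have h4 : ∑ x ∈ Ico p' (p' + L), ∑ y ∈ Ico q (q + L), u (pt N (x, y)) =
          ∑ i ∈ range L, ∑ y ∈ Ico q (q + L), u (pt N (p' + i, y)) := by
        have h5 : Ico p' (p' + L) = (range L).image fun i : ℕ => p' + (i : ℤ) := by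
          ext x
          rw [mem_Ico, mem_image]
          constructor
          · intro hx
            exact ⟨(x - p').toNat, by rw [mem_range]; omega, by omega⟩
          · rintro ⟨i, hi, rfl⟩
            rw [mem_range] at hi
            omega
        rw [h5, sum_image (fun i _ i' _ h => by
          have : (i : ℤ) = i' := by linarith
          exact_mod_cast this)]
      rw [h4]
      field_simp
    rw [h3 p, h3 (p + d)]
    have h6 : ∑ i ∈ range L, ∑ y ∈ Ico q (q + L), (u (pt N (p + i + d, y)) - u (pt N (p + i, y)))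
        = (∑ i ∈ range L, ∑ y ∈ Ico q (q + L), u (pt N (p + d + i, y))) -
          ∑ i ∈ range L, ∑ y ∈ Ico q (q + L), u (pt N (p + i, y)) := by
      rw [← sum_sub_distrib]
      refine sum_congr rfl fun i _ => ?_
      rw [← sum_sub_distrib]
      refine sum_congr rfl fun y _ => ?_
      rw [show p + (i : ℤ) + (d : ℤ) = p + d + i by ring]
    rw [h6]
    ring
  · have h1 : |∑ i ∈ range L, cfl N (p + i) q d L e| ≤ 1 := by
      calc |∑ i ∈ range L, cfl N (p + i) q d L e| ≤ ∑ i ∈ range L, (1 / (L : ℝ)) := by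
            refine (abs_sum_le_sum_abs _ _).trans (sum_le_sum fun i _ => ?_)
            unfold cfl
            split_ifs
            · rw [abs_neg, abs_of_pos (by positivity)]
            · rw [abs_zero]; positivity
        _ = 1 := by
            rw [sum_const, card_range, nsmul_eq_mul]
            field_simp
    rw [abs_mul, abs_of_pos (by positivity : (0 : ℝ) < 1 / L)]
    calc 1 / (L : ℝ) * |∑ i ∈ range L, cfl N (p + i) q d L e| ≤ 1 / (L : ℝ) * 1 :=
          mul_le_mul_of_nonneg_left h1 (by positivity)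
      _ = 1 / L := mul_one _
  · have hsq : ∀ i : ℕ, ∑ e : Spec.E N, cfl N (p + i) q d L e ^ 2 = d / L := by
      intro i
      have h1 : ∀ e : Spec.E N, cfl N (p + i) q d L e ^ 2 =
          cfl N (p + i) q d L e * (fun _ _ => -(1 / (L : ℝ))) (tS e) (tT e) := by
        intro e
        unfold cfl
        split_ifs
        · ring
        · ring
      simp only [h1]
      rw [sum_cfl hd hL fun _ _ => -(1 / (L : ℝ)), sum_const, card_Rc, nsmul_eq_mul]
      push_cast
      field_simp
    calc ∑ e : Spec.E N, ((1 / (L : ℝ)) * ∑ i ∈ range L, cfl N (p + i) q d L e) ^ 2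
        ≤ ∑ e : Spec.E N, (1 / (L : ℝ)) * ∑ i ∈ range L, cfl N (p + i) q d L e ^ 2 := by
          refine sum_le_sum fun e _ => ?_
          have h1 := sq_sum_le_card_mul_sum_sq (s := range L)
            (f := fun i => cfl N (p + i) q d L e)
          rw [card_range] at h1
          calc ((1 / (L : ℝ)) * ∑ i ∈ range L, cfl N (p + i) q d L e) ^ 2
              = (1 / (L : ℝ)) ^ 2 * (∑ i ∈ range L, cfl N (p + i) q d L e) ^ 2 := by ring
            _ ≤ (1 / (L : ℝ)) ^ 2 * (L * ∑ i ∈ range L, cfl N (p + i) q d L e ^ 2) :=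
                mul_le_mul_of_nonneg_left h1 (by positivity)
            _ = _ := by
                field_simp
      _ = (1 / (L : ℝ)) * ∑ i ∈ range L, ∑ e : Spec.E N, cfl N (p + i) q d L e ^ 2 := by
          rw [← mul_sum, sum_comm]
      _ = (1 / (L : ℝ)) * (L * (d / L)) := by
          rw [sum_congr rfl fun i _ => hsq i, sum_const, card_range, nsmul_eq_mul]
      _ = d / L := by
          field_simp

end flow

end Vale.Agent.P159.TM.H352
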