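import Vale.Agent.P159.TM.Frame.Root
import Vale.Agent.P159.TM.H352.ArmT

/-!
P159 / T1 (helper352): the root with all its inputs: the helicity modulus at the critical point.
-/

open Real

namespace Vale.Agent.P159.TM.H352

/-- **T1**: the universal jump of the helicity modulus at the critical inverse temperature -/
theorem T1 : helicity bCrit = 2 / π :=
  Frame.root fun _ b2 h1 _ => a6 h1 b2 (π / 2)

end Vale.Agent.P159.TM.H352
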