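import Vale.Agent.P159.TM.H352.Flow
import Vale.Agent.P159.TM.H634.E6b

/-!
Rows R6 / R8 (helper352): moments and tails of `F = <β, d>` for two copies on the torus.
-/

open Finset
open scoped ENNReal

set_option linter.unusedSectionVars false

namespace Vale.Agent.P159.TM.H352

open Vale.Agent.P159 Vale.Agent.P159.H353
open Vale.Agent.P159.TM.H60 Vale.Agent.P159.TM.H504 Vale.Agent.P159.TM.H312
open Vale.Agent.P159.TM.H426 Vale.Agent.P159.TM.H576 Vale.Agent.P159.TM.H77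
open Vale.Agent.P159.TM.H459 (tS tT ball sd sn)
open Vale.Agent.P159.TM.SpecC (wT ms)

section

variable {N : ℕ} [NeZero N] {b : ℝ}

/-- the one copy weight -/
noncomputable def W1T (N : ℕ) [NeZero N] (b : ℝ) (ξ : ℕ) (h : Spec.V N → ℤ) : ℝ :=
  W1h (tS (N := N)) tT (fun _ => wI b) (ga (ms (ξ : ℝ))) h

lemma W1T_nonneg (hb : 0 ≤ b) (ξ : ℕ) (h : Spec.V N → ℤ) : 0 ≤ W1T N b ξ h :=
  mul_nonneg (prod_nonneg fun _ _ => wI_nonneg hb _) (prod_nonneg fun _ _ => (Real.exp_pos _).le)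

lemma W1T_neg (ξ : ℕ) (h : Spec.V N → ℤ) : W1T N b ξ (-h) = W1T N b ξ h := by
  unfold W1T W1h
  congr 1
  · refine prod_congr rfl fun e _ => ?_
    simp only [Pi.neg_apply]
    rw [← wI_neg]
    congr 1
    ring
  · refine prod_congr rfl fun x _ => ?_
    unfold ga
    simp

/-- the total weight of two copies -/
theorem tot_s2 (hb : 0 ≤ b) (ξ : ℕ) (x : Spec.V N → ℤ × ℤ) :
    (Spec.σ2 N b ξ hb 0).tot x = W1T N b ξ (fun v => (x v).1) * W1T N b ξ (fun v => (x v).2) := by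
  unfold W1T W1h Sys.tot Spec.σ2
  show (∏ e : Spec.E N, Spec.kT b e ((x (tT e)).1 - (x (tS e)).1) *
      Spec.kT b e ((x (tT e)).2 - (x (tS e)).2)) *
    (∏ v, Spec.aT (ξ : ℝ) 0 v (x v).1 * Spec.aT (ξ : ℝ) 0 v (x v).2) = _
  rw [prod_mul_distrib, prod_mul_distrib, aT_eq]
  unfold Spec.kT
  ring

/-- expectation of a product of a function of `h` and a function of `h'` -/
theorem Ex_s2 (hb : 0 ≤ b) (ξ : ℕ) (F G : (Spec.V N → ℤ) → ℝ≥0∞) :
    Ex (Spec.σ2 N b ξ hb 0) (fun x _ => F (fun v => (x v).1) * G (fun v => (x v).2)) =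
      (∑' h, ENNReal.ofReal (W1T N b ξ h) * F h) * ∑' h, ENNReal.ofReal (W1T N b ξ h) * G h := by
  rw [← tsum_pair (fun h => ENNReal.ofReal (W1T N b ξ h) * F h)
    (fun h => ENNReal.ofReal (W1T N b ξ h) * G h)]
  unfold Ex
  refine tsum_congr fun x => ?_
  rw [← sum_mul, ← ENNReal.ofReal_sum_of_nonneg fun om _ => Sys.wt_nonneg _ om x, Sys.sum_wt,
    tot_s2 hb, ENNReal.ofReal_mul (W1T_nonneg hb ξ _)]
  ring

/-- one copy: the partition function -/
noncomputable def Z1 (N : ℕ) [NeZero N] (b : ℝ) (ξ : ℕ) : ℝ≥0∞ :=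
  ∑' h : Spec.V N → ℤ, ENNReal.ofReal (W1T N b ξ h)

theorem Ex_one_s2 (hb : 0 ≤ b) (ξ : ℕ) :
    Ex (Spec.σ2 N b ξ hb 0) (fun _ _ => 1) = Z1 N b ξ * Z1 N b ξ := by
  have := Ex_s2 (N := N) hb ξ (fun _ => 1) (fun _ => 1)
  simp only [mul_one] at this
  exact this

/-- the weights of the average over a box -/
noncomputable def bw1 (N : ℕ) (p q : ℤ) (L : ℕ) : Spec.V N → ℝ := by
  classical
  exact fun v => if v ∈ (Bx p q L).image (pt N) then 1 / (L : ℝ) ^ 2 else 0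

lemma sum_bw1 {p q : ℤ} {L : ℕ} (hL : L ≤ N) (u : Spec.V N → ℝ) :
    ∑ v, bw1 N p q L v * u v = bav N p q L u := by
  classical
  unfold bw1 bav
  simp only [ite_mul, zero_mul]
  rw [sum_ite_mem, univ_inter, ← mul_sum, sum_image (fun x hx y hy h => pt_inj hL hx hy h)]
  ring

lemma pr_s2 (hb : 0 ≤ b) (ξ : ℕ) {p q : ℤ} {L : ℕ} (hL : L ≤ N) (x : Spec.V N → ℤ × ℤ) :
    (Spec.σ2 N b ξ hb 0).pr (bw1 N p q L) univ x =
      (bav N p q L fun v => ((x v).1 : ℝ)) - bav N p q L fun v => ((x v).2 : ℝ) := by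
  rw [← sum_bw1 hL, ← sum_bw1 hL, ← sum_sub_distrib]
  unfold Sys.pr
  refine sum_congr rfl fun v _ => ?_
  show bw1 N p q L v * ((((x v).1 - (x v).2 : ℤ)) : ℝ) = _
  push_cast
  ring

/-- **exponential moments of the difference of two averages, one copy** -/
theorem mgf_diff (hb : 0 ≤ b) {ξ : ℕ} (hξ : 0 < ξ) (p q : ℤ) {d L : ℕ} (hL1 : 1 ≤ L) (hd : d ≤ N)
    (hL : L ≤ N) {θ : ℝ} (hθ : |θ| ≤ L) :
    ∑' h : Spec.V N → ℤ, ENNReal.ofReal (W1T N b ξ h) * ENNReal.ofReal (Real.exp (θ *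
      ((bav N p q L fun v => (h v : ℝ)) - bav N (p + d) q L fun v => (h v : ℝ)))) ≤
      ENNReal.ofReal (Real.exp (b * (θ ^ 2 * (d / L)))) * Z1 N b ξ := by
  have hL0 : (0 : ℝ) < L := by exact_mod_cast hL1
  have hξ0 : (0 : ℝ) < ξ := by exact_mod_cast hξ
  obtain ⟨α, h1, h2, h3⟩ := straight (N := N) p q hL1 hd hL
  have hm : ∀ v : Spec.V N, 0 < ms (N := N) (ξ : ℝ) v := fun v => by
    unfold SpecC.ms
    positivity
  obtain ⟨k1, k2⟩ := bare_le (tS (N := N)) tT (c := fun _ => b) (fun _ => hb) ∅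
    (m := ms (ξ : ℝ)) (fun x _ => hm x) (fun e => θ * α e) 0
  have k3 := (bare_le (tS (N := N)) tT (c := fun _ => b) (fun _ => hb) ∅
    (m := ms (ξ : ℝ)) (fun x _ => hm x) 0 0).1
  have e0 : ∀ (x : Spec.V N) (l : ℤ), sA ∅ (ms (N := N) (ξ : ℝ)) x l = ga (ms (ξ : ℝ)) x l := by
    intro x l
    unfold sA ga
    rw [if_neg (Finset.notMem_empty x)]
  have e1 : ∀ h : Spec.V N → ℤ, ∑ e, θ * α e * ((h (tT e) : ℝ) - h (tS e)) +
      ∑ x, (0 : Spec.V N → ℝ) x * h x = θ *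
      ((bav N p q L fun v => (h v : ℝ)) - bav N (p + d) q L fun v => (h v : ℝ)) := by
    intro h
    rw [← h1 fun x => (h x : ℝ), mul_sum]
    simp only [Pi.zero_apply, zero_mul, sum_const_zero, add_zero]
    exact sum_congr rfl fun e _ => by ring
  simp only [e0, e1] at k1 k2
  simp only [e0, Pi.zero_apply, zero_mul, sum_const_zero, add_zero, Real.exp_zero, mul_one] at k3
  have k3' : Summable (W1T N b ξ) := k3
  have hZ : Z1 N b ξ = ENNReal.ofReal (∑' h, W1T N b ξ h) := by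
    unfold Z1
    rw [ENNReal.ofReal_tsum_of_nonneg (fun h => W1T_nonneg hb ξ h) k3']
  have hB : ∑ e : Spec.E N, b * (Real.cosh (θ * α e) - 1) +
      ∑ x ∈ (∅ : Finset (Spec.V N))ᶜ, (0 : Spec.V N → ℝ) x ^ 2 / (2 * ms (ξ : ℝ) x) ≤
      b * (θ ^ 2 * (d / L)) := by
    have h4 : ∑ x ∈ (∅ : Finset (Spec.V N))ᶜ,
        (0 : Spec.V N → ℝ) x ^ 2 / (2 * ms (ξ : ℝ) x) = 0 :=
      sum_eq_zero fun x _ => by simp
    rw [h4, add_zero, ← mul_sum]
    refine mul_le_mul_of_nonneg_left ?_ hb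
    calc ∑ e : Spec.E N, (Real.cosh (θ * α e) - 1) ≤ ∑ e : Spec.E N, θ ^ 2 * α e ^ 2 := by
          refine sum_le_sum fun e _ => ?_
          have h5 : |θ * α e| ≤ 1 := by
            rw [abs_mul]
            calc |θ| * |α e| ≤ L * (1 / L) :=
                  mul_le_mul hθ (h2 e) (abs_nonneg _) hL0.le
              _ = 1 := by field_simp
          have h6 := cosh_sub_one_le h5
          rw [mul_pow] at h6
          exact h6
      _ = θ ^ 2 * ∑ e : Spec.E N, α e ^ 2 := (mul_sum _ _ _).symm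
      _ ≤ θ ^ 2 * (d / L) := mul_le_mul_of_nonneg_left h3 (sq_nonneg _)
  rw [hZ, ← ENNReal.ofReal_mul (Real.exp_pos _).le]
  have e2 : ∀ h : Spec.V N → ℤ, ENNReal.ofReal (W1T N b ξ h) * ENNReal.ofReal (Real.exp (θ *
      ((bav N p q L fun v => (h v : ℝ)) - bav N (p + d) q L fun v => (h v : ℝ)))) =
      ENNReal.ofReal (W1T N b ξ h * Real.exp (θ *
      ((bav N p q L fun v => (h v : ℝ)) - bav N (p + d) q L fun v => (h v : ℝ)))) := fun h =>
    (ENNReal.ofReal_mul (W1T_nonneg hb ξ h)).symm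
  simp only [e2]
  rw [← ENNReal.ofReal_tsum_of_nonneg (fun h => mul_nonneg (W1T_nonneg hb ξ h)
    (Real.exp_pos _).le) k1]
  refine ENNReal.ofReal_le_ofReal (k2.trans ?_)
  refine mul_le_mul_of_nonneg_right (Real.exp_le_exp.2 hB) ?_
  exact tsum_nonneg fun h => W1T_nonneg (N := N) hb ξ h

/-- **exponential moments of the difference of two averages, two copies** -/
theorem mgf_diff2 (hb : 0 ≤ b) {ξ : ℕ} (hξ : 0 < ξ) (p q : ℤ) {d L : ℕ} (hL1 : 1 ≤ L)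
    (hd : d ≤ N) (hL : L ≤ N) {θ : ℝ} (hθ : |θ| ≤ L) :
    Ex (Spec.σ2 N b ξ hb 0) (fun x _ => ENNReal.ofReal (Real.exp ((Spec.σ2 N b ξ hb 0).pr
      (fun v => θ * (bw1 N p q L v - bw1 N (p + d) q L v)) univ x))) ≤
      ENNReal.ofReal (Real.exp (2 * b * (θ ^ 2 * (d / L)))) *
        Ex (Spec.σ2 N b ξ hb 0) fun _ _ => 1 := by
  set D : (Spec.V N → ℤ) → ℝ := fun h =>
    (bav N p q L fun v => (h v : ℝ)) - bav N (p + d) q L fun v => (h v : ℝ) with hD
  have h1 : ∀ x : Spec.V N → ℤ × ℤ, ENNReal.ofReal (Real.exp ((Spec.σ2 N b ξ hb 0).pr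
      (fun v => θ * (bw1 N p q L v - bw1 N (p + d) q L v)) univ x)) =
      ENNReal.ofReal (Real.exp (θ * D fun v => (x v).1)) *
        ENNReal.ofReal (Real.exp (-θ * D fun v => (x v).2)) := by
    intro x
    rw [← ENNReal.ofReal_mul (Real.exp_pos _).le, ← Real.exp_add]
    congr 2
    have h2 : (Spec.σ2 N b ξ hb 0).pr
        (fun v => θ * (bw1 N p q L v - bw1 N (p + d) q L v)) univ x = θ *
        ((Spec.σ2 N b ξ hb 0).pr (bw1 N p q L) univ x -
          (Spec.σ2 N b ξ hb 0).pr (bw1 N (p + d) q L) univ x) := by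
      unfold Sys.pr
      rw [← sum_sub_distrib, mul_sum]
      exact sum_congr rfl fun v _ => by ring
    rw [h2, pr_s2 hb ξ hL, pr_s2 hb ξ hL, hD]
    ring
  have h2 : Ex (Spec.σ2 N b ξ hb 0) (fun x _ => ENNReal.ofReal (Real.exp
      ((Spec.σ2 N b ξ hb 0).pr (fun v => θ * (bw1 N p q L v - bw1 N (p + d) q L v)) univ x))) =
      (∑' h, ENNReal.ofReal (W1T N b ξ h) * ENNReal.ofReal (Real.exp (θ * D h))) *
      ∑' h, ENNReal.ofReal (W1T N b ξ h) * ENNReal.ofReal (Real.exp (-θ * D h)) := by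
    rw [← Ex_s2 hb ξ (fun h => ENNReal.ofReal (Real.exp (θ * D h)))
      (fun h => ENNReal.ofReal (Real.exp (-θ * D h)))]
    exact Ex_congr fun x om _ => h1 x
  rw [h2, Ex_one_s2]
  have hθ' : |(-θ)| ≤ L := by rwa [abs_neg]
  have m1 := mgf_diff (N := N) hb hξ p q hL1 hd hL hθ
  have m2 := mgf_diff (N := N) hb hξ p q hL1 hd hL hθ'
  refine (mul_le_mul' m1 m2).trans (le_of_eq ?_)
  rw [show (-θ) ^ 2 = θ ^ 2 by ring]
  calc ENNReal.ofReal (Real.exp (b * (θ ^ 2 * (d / L)))) * Z1 N b ξ *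
        (ENNReal.ofReal (Real.exp (b * (θ ^ 2 * (d / L)))) * Z1 N b ξ)
      = ENNReal.ofReal (Real.exp (b * (θ ^ 2 * (d / L)))) *
        ENNReal.ofReal (Real.exp (b * (θ ^ 2 * (d / L)))) * (Z1 N b ξ * Z1 N b ξ) := by ring
    _ = _ := by
        rw [← ENNReal.ofReal_mul (Real.exp_pos _).le, ← Real.exp_add]
        congr 3
        ring

/-- `P(h̄ ≤ 0) ≥ 1/2` -/
theorem half_neg (hb : 0 ≤ b) (ξ : ℕ) (p q : ℤ) (L : ℕ) :
    Z1 N b ξ ≤ 2 * ∑' h : Spec.V N → ℤ, ENNReal.ofReal (W1T N b ξ h) *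
      ind ((bav N p q L fun v => (h v : ℝ)) ≤ 0) := by
  set T := ∑' h : Spec.V N → ℤ, ENNReal.ofReal (W1T N b ξ h) *
      ind ((bav N p q L fun v => (h v : ℝ)) ≤ 0) with hT
  have h1 : T = ∑' h : Spec.V N → ℤ, ENNReal.ofReal (W1T N b ξ h) *
      ind (0 ≤ bav N p q L fun v => (h v : ℝ)) := by
    rw [hT, ← (Equiv.neg (Spec.V N → ℤ)).tsum_eq]
    refine tsum_congr fun h => ?_
    simp only [Equiv.neg_apply]
    rw [W1T_neg]
    congr 1
    refine ind_congr ?_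
    rw [bav_neg]
    exact neg_nonpos
  have h2 : 2 * T = ∑' h : Spec.V N → ℤ, (ENNReal.ofReal (W1T N b ξ h) *
      ind ((bav N p q L fun v => (h v : ℝ)) ≤ 0) + ENNReal.ofReal (W1T N b ξ h) *
      ind (0 ≤ bav N p q L fun v => (h v : ℝ))) := by
    rw [ENNReal.tsum_add, ← h1, two_mul]
  rw [h2]
  unfold Z1
  refine ENNReal.tsum_le_tsum fun h => ?_
  rw [← mul_add]
  calc ENNReal.ofReal (W1T N b ξ h) = ENNReal.ofReal (W1T N b ξ h) * 1 := (mul_one _).symm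
    _ ≤ _ := by
        refine mul_le_mul_right ?_ _
        rcases le_total (bav N p q L fun v => (h v : ℝ)) 0 with h3 | h3
        · rw [ind_true h3]; exact le_self_add
        · rw [ind_true h3]; exact le_add_self

end

end Vale.Agent.P159.TM.H352
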